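import Vale.Agent.P245.Polylog.Defs

/-!
# P245: the polylogarithmic bound — the statements of the modules
-/

open MeasureTheory Real Set Matrix
open scoped RealInnerProductSpace ENNReal

noncomputable section

namespace Vale.Agent.P245.Polylog

open Vale.Agent.P245.Local Vale.Agent.P245.Local.Base

/-- covariance window up to time `c / L²` (`Window`) -/
def WindowProp : Prop :=
  ∃ c : ℝ, 0 < c ∧ ∀ n : ℕ, 1 ≤ n → ∀ B : Base n, B.Subg →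
    ContinuousOn (fun a : ℝ × E n => wwin B a.1 a.2) (Ici 0 ×ˢ univ) ∧
    (∀ s, 0 ≤ s → ∀ θ, 0 ≤ wwin B s θ ∧ wwin B s θ ≤ 2) ∧
    (∀ s, 0 < s → ∀ θ v, B.varAt s θ (fun x => ⟪v, x⟫) ≤ (Rwin + wwin B s θ / s) * ‖v‖ ^ 2) ∧
    (∀ s, 0 ≤ s → ∀ θ, wwin B s θ < 1 → B.CovLe s θ Rwin) ∧
    ∀ s, 0 < s → s ≤ c / lg n ^ 2 → ∫ θ, wwin B s θ ∂B.qmeas s ≤ 1 / (4 * (n : ℝ) ^ 2)

/-- sharp Gaussian log-Sobolev inequality at variance `ε` (`Gauss`) -/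
def GaussLsiProp : Prop :=
  ∀ (n : ℕ) (U : E n → ℝ), PotOk U → ∫ x, exp (-U x) = 1 → ∀ ε : ℝ, 0 < ε →
    ∫ x, exp (-U x) * -U x ≤
      -((n : ℝ) / 2) * log (2 * π * ε) + ε / 2 * (∫ x, exp (-U x) * ‖fderiv ℝ U x‖ ^ 2) - n

/-- integration by parts against `exp (-U)` (`Gauss`) -/
def PotIbpProp : Prop :=
  ∀ (n : ℕ) (U : E n → ℝ), PotOk U → ∀ F : E n → ℝ, ContDiff ℝ 1 F →
    ∀ C : ℝ, (∀ x, |F x| ≤ C * (1 + ‖x‖)) → (∀ x, ‖fderiv ℝ F x‖ ≤ C * (1 + ‖x‖)) → ∀ k : Fin n,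
      ∫ x, exp (-U x) * (F x * fderiv ℝ U x (eb k)) = ∫ x, exp (-U x) * fderiv ℝ F x (eb k)

/-- existence of entropic plans (`Plan`) -/
def PlanExistsProp : Prop :=
  ∀ n : ℕ, 1 ≤ n → ∀ B : Base n, B.Subg → ∀ T ε r : ℝ, 0 < T → T ≤ 1 → 0 < ε → 0 < r →
    ∀ p : E n → ℝ, Measurable p → (∀ z, 0 ≤ p z) → (∃ K : ℝ, ∀ z, p z ≤ K) →
      (∀ z, r < ‖z‖ → p z = 0) → ∫ z, p z ∂B.qmeas T = 1 →
      ∃ f ψ : E n → ℝ, IsPlan B T ε r p f ψ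

/-- calculus of entropic plans (`PlanCalc`) -/
def PlanCalcProp : Prop :=
  ∀ n : ℕ, 1 ≤ n → ∀ B : Base n, B.Subg → ∀ T ε r : ℝ, T ≤ 1 → ∀ p f ψ : E n → ℝ,
    IsPlan B T ε r p f ψ →
    ContDiff ℝ 2 f ∧
    ContDiff ℝ 1 (Smap B T ε p f ψ) ∧
    Continuous (Scov B T ε p f ψ) ∧
    (∀ g v, fderiv ℝ f g v = ⟪Smap B T ε p f ψ g, v⟫) ∧
    (∀ g, jac (Smap B T ε p f ψ) g = Scov B T ε p f ψ g) ∧
    (∀ g, ‖Smap B T ε p f ψ g‖ ≤ r) ∧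
    (∀ g i j, |Scov B T ε p f ψ g i j| ≤ 2 * r ^ 2 / ε) ∧
    (∀ g, (Scov B T ε p f ψ g).PosSemidef) ∧
    (∃ C : ℝ, ∀ g, |f g| ≤ C + r * ‖g‖) ∧
    (∃ C : ℝ, ∀ z, |ψ z| ≤ C * (1 + ‖z‖ ^ 2)) ∧
    cost B T ε p f ψ = (∫ g, ‖disp B T ε p f ψ g‖ ^ 2 ∂B.qmeas T) +
      ε * ∫ g, (Scov B T ε p f ψ g).trace ∂B.qmeas T

/-- the entropy inequality (`Entropy`) -/
def EntropyProp : Prop :=
  ∀ n : ℕ, 1 ≤ n → ∀ B : Base n, B.Subg → B.Centred → ∀ T ε r : ℝ, T ≤ 1 / 4 →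
    ∀ p f ψ : E n → ℝ, IsPlan B T ε r p f ψ → ∀ η : ℝ, 0 < η →
      (∫ g, (‖disp B T ε p f ψ g‖ ^ 2 / (2 * T) - B.breg T g (disp B T ε p f ψ g)) ∂B.qmeas T) +
          1 / 2 * (∫ g, Omega (Scov B T ε p f ψ g + η • (1 : Mat n)) ∂B.qmeas T)
        ≤ (∫ z, p z * log (p z) ∂B.qmeas T) + (n : ℝ) * (η + ε / T) / 2

/-- trace pairing against `Omega` (`Pair`) -/
def PairProp : Prop :=
  (∀ (n : ℕ) (A : Mat n), A.PosDef → 0 ≤ Omega A ∧ A.trace ≤ 2 * n + 4 * Omega A) ∧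
    ∀ (n : ℕ) (A M : Mat n) (α κ : ℝ), A.PosDef → 0 < α → 0 ≤ κ →
      (∀ e : Fin n → ℝ, |e ⬝ᵥ (M *ᵥ e)| ≤ κ * (e ⬝ᵥ e)) →
      |((A - 1) * M).trace| ≤ 4 * (α + κ) * Omega A + (∑ i, ∑ j, M i j ^ 2) / α

/-- regularity and bounds of the iterates (`Grad`) -/
def GradProp : Prop :=
  ∀ n : ℕ, 1 ≤ n → ∀ B : Base n, ∀ T : ℝ, 0 < T → ∀ k : ℕ,
    Continuous (fun a : E n × E n => Phi B T k a.1 a.2) ∧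
    (∀ i, Continuous (fun a : E n × E n => Gk B T k a.1 i a.2)) ∧
    Continuous (fun a : E n × E n => Mk B T k a.1 a.2) ∧
    ∀ v : E n,
      (∀ i, ContDiff ℝ 1 (Gk B T k v i)) ∧
      ∀ x : E n,
        (∃ D : E n →L[ℝ] ℝ, HasFDerivAt (fun w => Phi B T k w x) D v ∧
          ∀ u, D u = ∑ i, u i * Gk B T k v i x) ∧
        0 ≤ Phi B T k v x ∧ Phi B T k v x ≤ ‖v‖ ^ 2 / (2 * T) ∧
        (∑ i, Gk B T k v i x ^ 2) ≤ ‖v‖ ^ 2 / T ^ 2 ∧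
        (∑ i, ∑ j, Mk B T k v x i j ^ 2) ≤ 4 * ‖v‖ ^ 2 / T ^ 3 ∧
        ∀ e : Fin n → ℝ, |e ⬝ᵥ (Mk B T k v x *ᵥ e)| ≤ 2 / T * (e ⬝ᵥ e)

/-- one step of the chain (`Step`) -/
def StepProp : Prop :=
  ∀ n : ℕ, 1 ≤ n → ∀ B : Base n, B.Subg → ∀ T : ℝ, 0 < T → T ≤ 1 / 4 →
    ∀ δ : E n → E n, ContDiff ℝ 1 δ → ∀ C : ℝ, (∀ y, ‖δ y‖ ≤ C * (1 + ‖y‖)) →
      (∀ y i j, |jac δ y i j| ≤ C) → ∀ η : ℝ, 0 < η →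
      (∀ y, (jac δ y + 1).PosSemidef) → ∀ α : ℝ, 0 < α → ∀ k : ℕ,
      (∫ y, Phi B T k (δ y) y ∂B.qmeas T) - (∫ y, Phi B T (k + 1) (δ y) y ∂B.qmeas T) ≤
        T * (4 * (α + 2 / T) * (∫ y, Omega (jac δ y + (1 + η) • (1 : Mat n)) ∂B.qmeas T) +
          4 / (α * T ^ 3) * ∫ y, ‖δ y‖ ^ 2 ∂B.qmeas T) + 2 * η * n

/-- the information decay (`Fisher`) -/
def InfoProp : Prop :=
  ∃ c K C : ℝ, 0 < c ∧ 0 < K ∧ 0 < C ∧ ∀ n : ℕ, 1 ≤ n → ∀ B : Base n, B.Subg → B.Centred →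
    ∀ T : ℝ, 0 < T → T ≤ c / lg n ^ 2 → ∀ k : ℕ, K * lg n ≤ k →
      Integrable (info B T k) (B.qmeas T) ∧ T * ∫ y, info B T k y ∂B.qmeas T ≤ C

/-- decoupling after `m` steps (`Decouple`) -/
def DecoupleProp : Prop :=
  ∃ c K C : ℝ, 0 < c ∧ 0 < K ∧ 0 < C ∧ ∀ n : ℕ, 1 ≤ n → ∀ B : Base n, B.Subg → B.Centred →
    ∀ T : ℝ, 0 < T → T ≤ c / lg n ^ 2 → ∀ m : ℕ, K * lg n ≤ m →
      ∀ δ : E n → E n, Continuous δ → ∀ A : ℝ, (∀ y, ‖δ y‖ ≤ A * (1 + ‖y‖)) →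
        ∫ y, Phi B T m (δ y) y ∂B.qmeas T ≤ 1 / (16 * T) * (∫ y, ‖δ y‖ ^ 2 ∂B.qmeas T) + C

/-- transport-entropy inequality for `q` (`Transport`) -/
def TransportProp : Prop :=
  ∃ c C : ℝ, 0 < c ∧ 0 < C ∧ ∀ n : ℕ, 1 ≤ n → ∀ B : Base n, B.Subg → B.Centred →
    ∀ T ε r : ℝ, T ≤ c / lg n ^ 2 → ε ≤ T → ∀ p f ψ : E n → ℝ, IsPlan B T ε r p f ψ →
      cost B T ε p f ψ ≤ C * T * lg n ^ 2 * ((∫ z, p z * log (p z) ∂B.qmeas T) + 1) +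
        C * n * lg n ^ 2 * ε

/-- infimal-convolution inequality for `μ` (`Mixing`) -/
def DPropLog : Prop :=
  ∃ c : ℝ, 0 < c ∧ ∀ n : ℕ, 1 ≤ n → ∀ B : Base n, B.Subg → B.Centred →
    B.DProp (c / lg n ^ 4) 3

end Vale.Agent.P245.Polylog
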