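import Vale.Agent.P245.Local.LsiStrong
import Vale.Agent.P245.Polylog.Statements

/-!
# P245: decoupling after `m` steps of the chain

`Phi m v y = 2 ∫ avg(gker (m-1) y) b(·, v) dq - ∫ b(·, v) dq`; the first integral is bounded by
Young's inequality `h ψ ≤ h log h - h + exp ψ` with `ψ = λ b(·, v) - λ² ‖v‖² - 1`.
-/

open MeasureTheory Real Set Matrix
open scoped RealInnerProductSpace ENNReal

noncomputable section

namespace Vale.Agent.P245.Polylog

open Vale.Agent.P245.Local Vale.Agent.P245.Local.Base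

namespace Decouple

variable {n : ℕ} (B : Base n) {T : ℝ}

theorem continuous_locMap (T : ℝ) : Continuous (locMap (n := n) T) := by unfold locMap; fun_prop

theorem continuous_Nop (T : ℝ) {f : E n → ℝ} (hf : Continuous f) {K : ℝ} (hK : ∀ x, |f x| ≤ K) :
    Continuous (Nop T f) := by
  refine continuous_of_dominated (bound := fun _ => K) (fun x => ?_)
    (fun x => .of_forall fun w => by rw [Real.norm_eq_abs]; exact hK _) (integrable_const K)
    (.of_forall fun w => hf.comp ((continuous_locMap T).comp (by fun_prop)))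
  exact (hf.comp ((continuous_locMap T).comp (by fun_prop))).aestronglyMeasurable

theorem abs_Nop_le (T : ℝ) {f : E n → ℝ} {K : ℝ} (hK : ∀ x, |f x| ≤ K) (x : E n) :
    |Nop T f x| ≤ K := by
  simpa [Nop] using norm_integral_le_of_norm_le_const (μ := gam n)
    (f := fun w => f (locMap T (x, w))) (C := K) (.of_forall fun w => by simpa using hK _)

theorem Nop_range (T : ℝ) {f : E n → ℝ} (hf : Continuous f) {a b : ℝ}
    (h : ∀ x, a ≤ f x ∧ f x ≤ b) (x : E n) : a ≤ Nop T f x ∧ Nop T f x ≤ b := by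
  have hi : Integrable (fun w => f (locMap T (x, w))) (gam n) :=
    Integrable.mono' (integrable_const (max |a| |b|))
      (hf.comp ((continuous_locMap T).comp (by fun_prop))).aestronglyMeasurable
      (.of_forall fun w => by
        rw [Real.norm_eq_abs]; exact abs_le_max_abs_abs (h _).1 (h _).2)
  constructor
  · simpa [Nop] using integral_mono (integrable_const a) hi fun w => (h (locMap T (x, w))).1
  · simpa [Nop] using integral_mono hi (integrable_const b) fun w => (h (locMap T (x, w))).2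

/-- bounded continuous functions are preserved by `Pop` -/
theorem Pop_bdd (hT : 0 ≤ T) {f : E n → ℝ} (hf : Continuous f) {K : ℝ} (hK : ∀ x, |f x| ≤ K) :
    Continuous (Pop B T f) ∧ ∀ x, |Pop B T f x| ≤ K := by
  have hN := continuous_Nop T hf hK
  refine ⟨B.continuous_avg hT hN.aestronglyMeasurable (expGrowth_bounded (abs_Nop_le T hK)),
    fun x => ?_⟩
  exact B.abs_avg_le_bdd hT x ⟨hN.measurable, abs_Nop_le T hK⟩

/-- `∫ avg f · g dq = ∫ f · Nop g dμ` for bounded functions -/
theorem pair_q (hT : 0 ≤ T) {F G : E n → ℝ} (hF : Continuous F) (hG : Continuous G) {K L : ℝ}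
    (hK : ∀ x, |F x| ≤ K) (hL : ∀ x, |G x| ≤ L) :
    ∫ θ, B.avg T θ F * G θ ∂B.qmeas T = ∫ x, F x * Nop T G x ∂B.μ :=
  B.qavg_avg_bdd hT ⟨hF.measurable, hK⟩ ⟨hG.measurable, hL⟩

/-- stationarity of `q` -/
theorem integral_eq_Nop (hT : 0 ≤ T) {G : E n → ℝ} (hG : Continuous G) {L : ℝ}
    (hL : ∀ x, |G x| ≤ L) : ∫ θ, G θ ∂B.qmeas T = ∫ x, Nop T G x ∂B.μ := by
  have := pair_q B hT (F := fun _ => (1 : ℝ)) continuous_const hG (K := 1) (fun _ => by simp) hL
  simpa [B.avg_const hT] using this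

theorem integral_Pop (hT : 0 ≤ T) {G : E n → ℝ} (hG : Continuous G) {L : ℝ}
    (hL : ∀ x, |G x| ≤ L) : ∫ θ, Pop B T G θ ∂B.qmeas T = ∫ θ, G θ ∂B.qmeas T := by
  have := pair_q B hT (G := fun _ => (1 : ℝ)) (continuous_Nop T hG hL) continuous_const
    (abs_Nop_le T hL) (L := 1) (fun _ => by simp)
  rw [integral_eq_Nop B hT hG hL]
  simpa [Pop, Nop] using this

theorem W_le_exp (hT : 0 < T) (y z : E n) : Base.W T y z ≤ exp (‖y‖ ^ 2 / (2 * T)) := by
  refine exp_le_exp.2 ?_
  have h1 := real_inner_le_norm y z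
  have h2 := exp_norm_le_sq (half_pos hT) ‖y‖ z
  rw [show ‖y‖ ^ 2 / (4 * (T / 2)) = ‖y‖ ^ 2 / (2 * T) by ring] at h2
  linarith

theorem gker_bdd (hT : 0 < T) (y : E n) : ∀ k, Continuous (gker B T k y) ∧
    ∀ z, 1 / 2 ≤ gker B T k y z ∧
      gker B T k y z ≤ (1 + exp (‖y‖ ^ 2 / (2 * T)) / B.Z T y) / 2 := by
  intro k
  have hZ := B.Z_pos hT.le y
  induction k with
  | zero =>
    refine ⟨?_, fun z => ?_⟩
    · show Continuous fun z => (1 + Base.W T y z / B.Z T y) / 2
      unfold Base.W; fun_prop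
    · have h0 : 0 ≤ Base.W T y z / B.Z T y := (div_pos (W_pos T y z) hZ).le
      have h1 := div_le_div_of_nonneg_right (W_le_exp hT y z) hZ.le
      constructor <;> simp only [gker] <;> linarith
  | succ k ih =>
    obtain ⟨hc, hb⟩ := ih
    set M := (1 + exp (‖y‖ ^ 2 / (2 * T)) / B.Z T y) / 2 with hM
    have habs : ∀ z, |gker B T k y z| ≤ M := fun z =>
      abs_le.2 ⟨by linarith [(hb z).1, (hb z).2], (hb z).2⟩
    have hg : Local.Good (gker B T k y) := Local.Good.bdd hc habs
    have hh : ∀ x, 1 / 2 ≤ B.avg T x (gker B T k y) ∧ B.avg T x (gker B T k y) ≤ M := fun x => by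
      constructor
      · simpa only [B.avg_const hT.le] using
          B.avg_mono hT.le x (Local.Good.const _) hg fun z => (hb z).1
      · simpa only [B.avg_const hT.le] using
          B.avg_mono hT.le x hg (Local.Good.const _) fun z => (hb z).2
    have hhc : Continuous fun x => B.avg T x (gker B T k y) :=
      B.continuous_avg hT.le hc.aestronglyMeasurable hg.2
    have hha : ∀ x, |B.avg T x (gker B T k y)| ≤ M := fun x =>
      abs_le.2 ⟨by linarith [(hh x).1, (hh x).2], (hh x).2⟩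
    exact ⟨continuous_Nop T hhc hha, Nop_range T hhc hh⟩

/-- the density of the mixed law of the chain after `k + 1` steps -/
theorem dens_bdd (hT : 0 < T) (y : E n) (k : ℕ) :
    Continuous (fun x => B.avg T x (gker B T k y)) ∧
    ∃ M, ∀ x, 1 / 2 ≤ B.avg T x (gker B T k y) ∧ |B.avg T x (gker B T k y)| ≤ M := by
  obtain ⟨hc, hb⟩ := gker_bdd B hT y k
  set M := (1 + exp (‖y‖ ^ 2 / (2 * T)) / B.Z T y) / 2 with hM
  have habs : ∀ z, |gker B T k y z| ≤ M := fun z =>
    abs_le.2 ⟨by linarith [(hb z).1, (hb z).2], (hb z).2⟩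
  refine ⟨B.continuous_avg hT.le hc.aestronglyMeasurable (expGrowth_bounded habs), M,
    fun x => ⟨?_, B.abs_avg_le_bdd hT.le x ⟨hc.measurable, habs⟩⟩⟩
  simpa only [B.avg_const hT.le] using
    B.avg_mono hT.le x (Local.Good.const _) (Local.Good.bdd hc habs) fun z => (hb z).1

theorem iterate_Pop_eq (hT : 0 < T) (y : E n) : ∀ k (G : E n → ℝ) (L : ℝ), Continuous G →
    (∀ x, |G x| ≤ L) →
    2 * ∫ x, B.avg T x (gker B T k y) * G x ∂B.qmeas T - ∫ x, G x ∂B.qmeas T =
      (Pop B T)^[k + 1] G y := by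
  intro k
  induction k with
  | zero =>
    intro G L hG hL
    obtain ⟨hc, hb⟩ := gker_bdd B hT y 0
    rw [pair_q B hT.le hc hG (fun z => abs_le.2 ⟨by linarith [(hb z).1, (hb z).2], (hb z).2⟩) hL,
      integral_eq_Nop B hT.le hG hL, zero_add, Function.iterate_one]
    have hN : Local.Good (Nop T G) :=
      Local.Good.bdd (continuous_Nop T hG hL) (abs_Nop_le T hL)
    have i1 := B.good_integrable_W hT.le y hN
    have i2 := B.good_integrable hN
    have e : ∀ z, gker B T 0 y z * Nop T G z =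
        1 / 2 * Nop T G z + (2 * B.Z T y)⁻¹ * (Base.W T y z * Nop T G z) := fun z => by
      simp only [gker]; ring
    simp only [e]
    rw [integral_add (i2.const_mul _) (i1.const_mul _), integral_const_mul, integral_const_mul]
    show _ = B.avg T y (Nop T G)
    rw [Base.avg, Base.num]
    ring
  | succ k ih =>
    intro G L hG hL
    obtain ⟨hPc, hPb⟩ := Pop_bdd B hT.le hG hL
    obtain ⟨hhc, M, hh⟩ := dens_bdd B hT y k
    have hhb : ∀ x, |B.avg T x (gker B T k y)| ≤ M := fun x => (hh x).2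
    rw [Function.iterate_succ_apply, ← ih (Pop B T G) L hPc hPb, integral_Pop B hT.le hG hL]
    congr 1
    congr 1
    have h1 := pair_q B hT.le (continuous_Nop T hhc hhb) hG (abs_Nop_le T hhb) hL
    have h2 := pair_q B hT.le (continuous_Nop T hG hL) hhc (abs_Nop_le T hL) hhb
    rw [show (fun x => B.avg T x (gker B T (k + 1) y) * G x) =
      fun x => B.avg T x (Nop T fun x => B.avg T x (gker B T k y)) * G x from rfl, h1]
    rw [show (fun x => B.avg T x (gker B T k y) * Pop B T G x) =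
      fun x => B.avg T x (Nop T G) * B.avg T x (gker B T k y) from
        funext fun x => by rw [Pop]; ring, h2]
    congr 1; funext x; ring

theorem integral_dens (hT : 0 < T) (y : E n) (k : ℕ) :
    ∫ x, B.avg T x (gker B T k y) ∂B.qmeas T = 1 := by
  have h := iterate_Pop_eq B hT y k (fun _ => (1 : ℝ)) 1 continuous_const fun _ => by simp
  have h1 : ∀ j, (Pop B T)^[j] (fun _ : E n => (1 : ℝ)) = fun _ => 1 := by
    intro j
    induction j with
    | zero => rfl
    | succ j ih =>
      rw [Function.iterate_succ_apply', ih]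
      funext x
      show B.avg T x (Nop T fun _ => (1 : ℝ)) = 1
      rw [show (Nop T fun _ : E n => (1 : ℝ)) = fun _ => 1 from funext fun z => by simp [Nop],
        B.avg_const hT.le]
  rw [h1] at h
  simp only [mul_one, integral_const, probReal_univ, one_smul] at h
  linarith

/-- `E_q exp (b(·, w)) ≤ exp (‖w‖² + 1)` -/
theorem integral_exp_breg_le (hS : B.Subg) (hT : 0 ≤ T) (w : E n) :
    ∫ x, exp (B.breg T x w) ∂B.qmeas T ≤ exp (‖w‖ ^ 2 + 1) := by
  have hexp : ∀ u : E n, Integrable (fun θ => B.avg T θ fun x => exp ⟪u, x⟫) (B.qmeas T) ∧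
      ∫ θ, (B.avg T θ fun x => exp ⟪u, x⟫) ∂B.qmeas T ≤ exp (‖u‖ ^ 2 / 4 + 1) := by
    intro u
    have hu := Local.Good.exp_inner (n := n) u
    have hc := B.continuous_avg hT hu.1.aestronglyMeasurable hu.2
    refine ⟨(B.integrable_qmeas_iff hT hc.measurable).2 ?_, ?_⟩
    · refine ((B.gBound_good hu).integrable hT (B.continuous_num_good hT hu)).congr
        (.of_forall fun z => ?_)
      show B.num T (√T • z) _ = _
      rw [B.num_eq_avg_mul hT, mul_comm]
    · have h := B.qavg_avg hT hu.1 hu.2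
      rw [qavg] at h
      rw [h, ← B.avg_zero, B.avg_exp_inner le_rfl, zero_add,
        show B.Lam 0 0 = 0 by rw [Lam, B.Z_zero, log_one], sub_zero]
      exact exp_le_exp.2 (B.Lam_le hS le_rfl u)
  set u : E n := (2 : ℝ) • w with hu
  have hun : ‖u‖ ^ 2 / 4 = ‖w‖ ^ 2 := by
    rw [hu, norm_smul, mul_pow, Real.norm_eq_abs, sq_abs]; ring
  have hpt : ∀ x, exp (B.breg T x w) ≤ 1 / 2 * (B.avg T x fun z => exp ⟪u, z⟫) +
      1 / 2 * (B.avg T x fun z => exp ⟪-u, z⟫) := fun x => by
    set c := ⟪B.mean T x, w⟫ with hc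
    have hneg : exp (-2 * c) ≤ B.avg T x fun z => exp ⟪-u, z⟫ := by
      rw [B.avg_exp_inner hT]
      have h := B.breg_nonneg hT x (-u)
      rw [breg, inner_neg_right, hu, real_inner_smul_right, ← hc] at h
      rw [hu]
      exact exp_le_exp.2 (by linarith)
    have hge : Local.Good fun z : E n => exp (⟪w, z⟫ - c) := by
      simpa [sub_eq_add_neg, exp_add, mul_comm] using (Local.Good.exp_inner w).const_mul (exp (-c))
    have h1 := B.avg_mono hT x hge
      (((Local.Good.exp_inner u).const_mul (1 / 2)).add (Local.Good.const (1 / 2 * exp (-2 * c))))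
      fun z => by
        have e1 : exp ⟪u, z⟫ = exp ⟪w, z⟫ ^ 2 := by
          rw [hu, real_inner_smul_left, ← exp_nat_mul]; norm_num
        have e2 : exp (-2 * c) = exp (-c) ^ 2 := by rw [← exp_nat_mul]; congr 1; push_cast; ring
        rw [e1, e2, sub_eq_add_neg, exp_add]
        nlinarith [sq_nonneg (exp ⟪w, z⟫ - exp (-c))]
    rw [B.avg_add hT x ((Local.Good.exp_inner u).const_mul _).1.aestronglyMeasurable
      ((Local.Good.exp_inner u).const_mul _).2 (Local.Good.const _).1.aestronglyMeasurable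
      (Local.Good.const _).2, B.avg_const_mul, B.avg_const hT] at h1
    rw [B.exp_breg hT x w]
    linarith
  obtain ⟨i1, b1⟩ := hexp u
  obtain ⟨i2, b2⟩ := hexp (-u)
  rw [norm_neg, hun] at b2
  rw [hun] at b1
  calc ∫ x, exp (B.breg T x w) ∂B.qmeas T
      ≤ ∫ x, (1 / 2 * (B.avg T x fun z => exp ⟪u, z⟫) +
          1 / 2 * (B.avg T x fun z => exp ⟪-u, z⟫)) ∂B.qmeas T :=
        integral_mono_of_nonneg (.of_forall fun x => (exp_pos _).le)
          ((i1.const_mul _).add (i2.const_mul _)) (.of_forall hpt)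
    _ ≤ _ := by
        rw [integral_add (i1.const_mul _) (i2.const_mul _), integral_const_mul,
          integral_const_mul]
        linarith

/-- the decoupling bound at a fixed starting point -/
theorem Phi_le (hS : B.Subg) (hT : 0 < T) (hT' : T ≤ 1 / 32) (v y : E n) (k : ℕ)
    (hbc : ∀ u, Continuous fun x => B.breg T x u)
    (hbb : ∀ u x, B.breg T x u ≤ ‖u‖ ^ 2 / (2 * T)) :
    Phi B T (k + 1) v y ≤ 64 * T * (info B T k y + 1) + ‖v‖ ^ 2 / (16 * T) := by
  have hb0 : ∀ x, 0 ≤ B.breg T x v := fun x => B.breg_nonneg hT.le x v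
  have hba : ∀ x, |B.breg T x v| ≤ ‖v‖ ^ 2 / (2 * T) := fun x => by
    rw [abs_of_nonneg (hb0 x)]; exact hbb v x
  obtain ⟨hhc, M, hh⟩ := dens_bdd B hT y k
  set h : E n → ℝ := fun x => B.avg T x (gker B T k y) with hh'
  set lam : ℝ := 1 / (32 * T) with hlam
  have hl1 : 1 ≤ lam := by rw [hlam, le_div_iff₀ (by positivity)]; linarith
  have hl0 : 0 < lam := by linarith
  set ψ : E n → ℝ := fun x => lam * B.breg T x v - (lam ^ 2 * ‖v‖ ^ 2 + 1) with hψ
  have hψc : Continuous ψ := ((hbc v).const_mul lam).sub continuous_const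
  have hψb : ∀ x, ψ x ≤ lam * (‖v‖ ^ 2 / (2 * T)) := fun x => by
    have := mul_le_mul_of_nonneg_left (hbb v x) hl0.le
    have : 0 ≤ lam ^ 2 * ‖v‖ ^ 2 := by positivity
    simp only [hψ]; linarith
  have hie : Integrable (fun x => exp (ψ x)) (B.qmeas T) :=
    Integrable.mono' (integrable_const (exp (lam * (‖v‖ ^ 2 / (2 * T)))))
      hψc.rexp.aestronglyMeasurable
      (.of_forall fun x => by rw [Real.norm_eq_abs, abs_exp]; exact exp_le_exp.2 (hψb x))
  have hconv : ∀ x, lam * B.breg T x v ≤ B.breg T x (lam • v) := fun x => by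
    have hc1 := (B.convexOn_breg hT x).2 (mem_univ (0 : E n)) (mem_univ (lam • v))
      (show 0 ≤ 1 - lam⁻¹ by linarith [inv_le_one_of_one_le₀ hl1])
      (show 0 ≤ lam⁻¹ by positivity) (by ring)
    rw [smul_zero, zero_add, smul_smul, inv_mul_cancel₀ hl0.ne', one_smul, B.breg_zero,
      smul_zero, zero_add, smul_eq_mul, inv_mul_eq_div, le_div_iff₀ hl0] at hc1
    linarith
  have hEψ : ∫ x, exp (ψ x) ∂B.qmeas T ≤ 1 := by
    have h1 := integral_exp_breg_le B hS hT.le (lam • v)
    rw [norm_smul, mul_pow, Real.norm_eq_abs, sq_abs] at h1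
    have hi : Integrable (fun x => exp (B.breg T x (lam • v))) (B.qmeas T) :=
      Integrable.mono' (integrable_const (exp (‖lam • v‖ ^ 2 / (2 * T))))
        (hbc (lam • v)).rexp.aestronglyMeasurable
        (.of_forall fun x => by rw [Real.norm_eq_abs, abs_exp]; exact exp_le_exp.2 (hbb _ x))
    calc ∫ x, exp (ψ x) ∂B.qmeas T
        ≤ ∫ x, exp (-(lam ^ 2 * ‖v‖ ^ 2 + 1)) * exp (B.breg T x (lam • v)) ∂B.qmeas T := by
          refine integral_mono hie (hi.const_mul _) fun x => ?_
          rw [← exp_add]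
          exact exp_le_exp.2 (by simp only [hψ]; linarith [hconv x])
      _ ≤ _ := by
          rw [integral_const_mul]
          refine (mul_le_mul_of_nonneg_left h1 (exp_pos _).le).trans_eq ?_
          rw [← exp_add, neg_add_cancel, exp_zero]
  have hip : ∀ {F : E n → ℝ}, Continuous F → (∃ K, ∀ x, |F x| ≤ K) →
      Integrable F (B.qmeas T) := fun {F} hF hK => by
    obtain ⟨K, hK⟩ := hK
    exact integrable_bdd_comp ⟨hF.measurable, hK⟩
  have hhb : ∀ x, |h x| ≤ M := fun x => (hh x).2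
  have hM0 : 0 ≤ M := (abs_nonneg _).trans (hhb y)
  have i1 : Integrable h (B.qmeas T) := hip hhc ⟨M, hhb⟩
  have i2 : Integrable (fun x => h x * B.breg T x v) (B.qmeas T) :=
    hip (hhc.mul (hbc v)) ⟨M * (‖v‖ ^ 2 / (2 * T)), fun x => by
      rw [abs_mul]; exact mul_le_mul (hhb x) (hba x) (abs_nonneg _) hM0⟩
  have i3 : Integrable (fun x => h x * log (h x)) (B.qmeas T) := by
    refine hip (hhc.mul (hhc.log fun x => (by linarith [(hh x).1] : h x ≠ 0)))
      ⟨M * max |log (1 / 2)| |log M|, fun x => ?_⟩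
    have h2 : h x ≤ M := (le_abs_self _).trans (hhb x)
    rw [abs_mul]
    exact mul_le_mul (hhb x) (abs_le_max_abs_abs (log_le_log (by norm_num) (hh x).1)
      (log_le_log (by linarith [(hh x).1]) h2)) (abs_nonneg _) hM0
  have hy : ∀ x, lam * (h x * B.breg T x v) ≤
      (h x * log (h x) + (lam ^ 2 * ‖v‖ ^ 2) * h x) + exp (ψ x) := fun x => by
    have h3 := Base.young (a := h x) (by linarith [(hh x).1]) (ψ x)
    simp only [hψ] at h3 ⊢
    linarith
  have hI := integral_mono (i2.const_mul lam) ((i3.add (i1.const_mul _)).add hie) hy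
  have i4 : Integrable (fun x => h x * log (h x) + lam ^ 2 * ‖v‖ ^ 2 * h x) (B.qmeas T) :=
    i3.add (i1.const_mul _)
  simp only [Pi.add_apply] at hI
  rw [integral_const_mul, integral_add i4 hie, integral_add i3 (i1.const_mul _), integral_const_mul,
    show ∫ x, h x ∂B.qmeas T = 1 from integral_dens B hT y k, mul_one] at hI
  have hit := iterate_Pop_eq B hT y k (fun x => B.breg T x v) _ (hbc v) hba
  have hn : 0 ≤ ∫ x, B.breg T x v ∂B.qmeas T := integral_nonneg hb0
  have hinfo : ∫ x, h x * log (h x) ∂B.qmeas T = info B T k y := rfl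
  rw [hinfo] at hI
  show (Pop B T)^[k + 1] (fun x => B.breg T x v) y ≤ _
  rw [← hit]
  calc 2 * ∫ x, h x * B.breg T x v ∂B.qmeas T - ∫ x, B.breg T x v ∂B.qmeas T
      ≤ 2 / lam * (lam * ∫ x, h x * B.breg T x v ∂B.qmeas T) := by
        rw [← mul_assoc, div_mul_cancel₀ _ hl0.ne']; linarith
    _ ≤ 2 / lam * (info B T k y + lam ^ 2 * ‖v‖ ^ 2 + 1) :=
        mul_le_mul_of_nonneg_left (by linarith) (by positivity)
    _ = _ := by rw [hlam]; field_simp; ring

theorem integrable_sq_growth (hn : 1 ≤ n) (hT : 0 ≤ T) {δ : E n → E n} (hδ : Continuous δ)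
    {A : ℝ} (hA : ∀ y, ‖δ y‖ ≤ A * (1 + ‖y‖)) :
    Integrable (fun y => ‖δ y‖ ^ 2) (B.qmeas T) := by
  have hm0 : Integrable (fun y : E n => ‖y‖ ^ 2) (B.qmeas T) := by
    have hs : Continuous fun y : E n => ‖y‖ ^ 2 := by fun_prop
    rw [qmeas, integrable_map_measure hs.aestronglyMeasurable (measurable_locMap T).aemeasurable]
    have i1 : Integrable (fun p : E n × E n => 2 * T ^ 2 * ‖p.1‖ ^ 2) (B.μ.prod (gam n)) :=
      ((B.good_integrable Local.Good.norm_sq).const_mul _).comp_fst (gam n)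
    have i2 : Integrable (fun p : E n × E n => 2 * T * ‖p.2‖ ^ 2) (B.μ.prod (gam n)) :=
      ((gam_second_moment hn).1.const_mul _).comp_snd B.μ
    refine (i1.add i2).mono' (hs.comp (continuous_locMap T)).aestronglyMeasurable
      (.of_forall fun p => ?_)
    simp only [Function.comp_apply, Pi.add_apply, Real.norm_eq_abs,
      abs_of_nonneg (sq_nonneg ‖locMap T p‖)]
    have h := locMap_sub (n := n) hT p.1 0 p.2 0
    simpa [locMap] using h
  refine ((hm0.const_mul (2 * A ^ 2)).add (integrable_const (2 * A ^ 2))).mono'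
    (hδ.norm.pow 2).aestronglyMeasurable (.of_forall fun y => ?_)
  rw [Real.norm_eq_abs, abs_of_nonneg (sq_nonneg ‖δ y‖), Pi.add_apply]
  calc ‖δ y‖ ^ 2 ≤ (A * (1 + ‖y‖)) ^ 2 := pow_le_pow_left₀ (norm_nonneg _) (hA y) 2
    _ ≤ _ := by nlinarith [mul_nonneg (sq_nonneg A) (sq_nonneg (1 - ‖y‖))]

theorem breg_of_grad (hG : GradProp) (hn : 1 ≤ n) (hT : 0 < T) (u : E n) :
    (Continuous fun x => B.breg T x u) ∧ ∀ x, B.breg T x u ≤ ‖u‖ ^ 2 / (2 * T) := by
  obtain ⟨hc, -, -, hv⟩ := hG n hn B T hT 0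
  have e : ∀ a x : E n, Phi B T 0 a x = B.breg T x a := fun a x => by
    simp only [Phi, Function.iterate_zero_apply]
  constructor
  · have h := hc.comp ((by fun_prop) : Continuous fun x : E n => (u, x))
    simpa only [Function.comp_def, e] using h
  · intro x
    simpa only [e] using ((hv u).2 x).2.2.1

end Decouple

theorem decouple (hI : InfoProp) (hG : GradProp) : DecoupleProp := by
  obtain ⟨c, K, C, hc, hK, hC, hI⟩ := hI
  refine ⟨min c (1 / 32), K + 2, 64 * (C + 1), by positivity, by positivity, by positivity, ?_⟩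
  intro n hn B hS hCe T hT hTc m hm δ hδ A hA
  have hL : 1 ≤ lg n := by
    have := Real.log_nonneg (by exact_mod_cast hn : (1 : ℝ) ≤ n)
    unfold lg; linarith
  have hL2 : 1 ≤ lg n ^ 2 := one_le_pow₀ hL
  have hTc' : T ≤ c / lg n ^ 2 := hTc.trans (by gcongr; exact min_le_left _ _)
  have hT' : T ≤ 1 / 32 := hTc.trans ((div_le_self (by positivity) hL2).trans (min_le_right _ _))
  obtain ⟨k, rfl⟩ : ∃ k, m = k + 1 := by
    cases m with
    | zero => push_cast at hm; nlinarith
    | succ k => exact ⟨k, rfl⟩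
  have hk : K * lg n ≤ k := by push_cast at hm; nlinarith
  obtain ⟨hIi, hIb⟩ := hI n hn B hS hCe T hT hTc' k hk
  have hb := Decouple.breg_of_grad B hG hn hT
  have hP := (hG n hn B T hT (k + 1)).2.2.2
  have hpt : ∀ y, Phi B T (k + 1) (δ y) y ≤
      64 * T * (info B T k y + 1) + ‖δ y‖ ^ 2 / (16 * T) := fun y =>
    Decouple.Phi_le B hS hT hT' (δ y) y k (fun u => (hb u).1) fun u => (hb u).2
  have hsq : Integrable (fun y => ‖δ y‖ ^ 2) (B.qmeas T) :=
    Decouple.integrable_sq_growth B hn hT.le hδ hA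
  have i5 : Integrable (fun y => 64 * T * (info B T k y + 1)) (B.qmeas T) :=
    (hIi.add (integrable_const 1)).const_mul _
  refine (integral_mono_of_nonneg (.of_forall fun y => ((hP (δ y)).2 y).2.1)
    (i5.add (hsq.div_const _)) (.of_forall hpt)).trans ?_
  simp only [Pi.add_apply]
  rw [integral_add i5 (hsq.div_const _), integral_const_mul,
    integral_add hIi (integrable_const 1), integral_const, probReal_univ, one_smul, integral_div]
  rw [div_mul_eq_mul_div, one_mul]
  nlinarith

end Vale.Agent.P245.Polylog
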