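import Vale.Agent.P245.Local.Drift
import Vale.Agent.P245.Local.Window

/-!
# P245: the polylogarithmic bound — definitions

At a time `T ≍ (log n)⁻²` the law `q = qmeas T` of the localisation parameter satisfies a
transport-entropy inequality with constant `T (log n)²`.  `Pop T` is the Markov operator of the
chain `θ → X → θ'` (`X ∼ μ_{θ,T}`, `θ' = T X + √T G`), reversible with respect to `q`.
`Plan` describes an entropic transport plan between `q` and `p·q`.
-/

open MeasureTheory Real Set Matrix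
open scoped RealInnerProductSpace ENNReal

noncomputable section

namespace Vale.Agent.P245.Polylog

open Vale.Agent.P245.Local Vale.Agent.P245.Local.Base

variable {n : ℕ}

/-- `L = 1 + log n` -/
def lg (n : ℕ) : ℝ := 1 + log (n : ℝ)

/-- exponent used in the covariance window -/
def pex (n : ℕ) : ℕ := ⌈log (n : ℝ)⌉₊ + 2

/-- height of the covariance window -/
def Nwin (n : ℕ) : ℝ := exp 4 ^ (pex n + 2)

/-- the level of the covariance window -/
def Rwin : ℝ := exp 4

/-- continuous weight, `≥ 1` outside the covariance window -/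
def wwin (B : Base n) (s : ℝ) (θ : E n) : ℝ :=
  2 / Nwin n * (B.psiJ (pex n + 2) (Nwin n)).val s θ

/-- Gaussian smoothing: `E f (T x + √T G)` -/
def Nop (T : ℝ) (f : E n → ℝ) (x : E n) : ℝ := ∫ w, f (locMap T (x, w)) ∂gam n

/-- the Markov operator of the chain `θ → X → θ'` -/
def Pop (B : Base n) (T : ℝ) (f : E n → ℝ) (θ : E n) : ℝ := B.avg T θ (Nop T f)

/-- `(Pᵏ b(·, v))(x)` -/
def Phi (B : Base n) (T : ℝ) (k : ℕ) (v x : E n) : ℝ :=
  ((Pop B T)^[k] fun y => B.breg T y v) x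

/-- derivative of `b(·, v)` in `v`, coordinate `i` -/
def gvec (B : Base n) (T : ℝ) (v : E n) (i : Fin n) (y : E n) : ℝ :=
  B.avg T (y + v) (fun x => x i) - B.avg T y (fun x => x i)

/-- `(Pᵏ (∂ᵢ b)(·, v))(x)` -/
def Gk (B : Base n) (T : ℝ) (k : ℕ) (v : E n) (i : Fin n) (x : E n) : ℝ :=
  ((Pop B T)^[k] (gvec B T v i)) x

/-- Jacobian in `x` of `Gk` -/
def Mk (B : Base n) (T : ℝ) (k : ℕ) (v x : E n) : Mat n :=
  Matrix.of fun i j => fderiv ℝ (Gk B T k v i) x (eb j)

/-- Jacobian matrix -/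
def jac (F : E n → E n) (x : E n) : Mat n := Matrix.of fun i j => fderiv ℝ F x (eb j) i

/-- `gker k y` is `(1 + h)/2` before the last averaging: `avg T x (gker k y)` is the density in `x`,
with respect to `q`, of the law of the chain after `k + 1` steps from `y`, mixed with `q`. -/
def gker (B : Base n) (T : ℝ) : ℕ → E n → E n → ℝ
  | 0, y, z => (1 + Base.W T y z / B.Z T y) / 2
  | k + 1, y, z => Nop T (fun x => B.avg T x (gker B T k y)) z

/-- relative entropy of the mixed law after `k + 1` steps from `y` -/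
def info (B : Base n) (T : ℝ) (k : ℕ) (y : E n) : ℝ :=
  ∫ x, B.avg T x (gker B T k y) * log (B.avg T x (gker B T k y)) ∂B.qmeas T

/-- regular potential with a Gaussian tail -/
structure PotOk (U : E n → ℝ) : Prop where
  smooth : ContDiff ℝ 1 U
  lower : ∃ a b : ℝ, 0 < b ∧ ∀ x, b * ‖x‖ ^ 2 - a ≤ U x
  upper : ∃ a : ℝ, ∀ x, U x ≤ a * (1 + ‖x‖ ^ 2)
  grad : ∃ a : ℝ, ∀ x, ‖fderiv ℝ U x‖ ≤ a * (1 + ‖x‖)

/-- `tr A - n - log det A` -/
def Omega (A : Mat n) : ℝ := A.trace - n - log A.det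

/-- potential of `q`: `qmeas T` has density `exp (-Wq)` -/
def Wq (B : Base n) (T : ℝ) (θ : E n) : ℝ :=
  ‖θ‖ ^ 2 / (2 * T) - B.Lam T θ + (n : ℝ) / 2 * log (2 * π * T)

/-- kernel of an entropic plan -/
def kker (ε : ℝ) (f ψ : E n → ℝ) (g z : E n) : ℝ := exp ((⟪g, z⟫ - f g - ψ z) / ε)

/-- an entropic plan between `q` and `p q`, with `p` supported in a ball -/
structure IsPlan (B : Base n) (T ε r : ℝ) (p f ψ : E n → ℝ) : Prop where
  posT : 0 < T
  posε : 0 < ε
  posr : 0 < r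
  meas : Measurable p
  nonneg : ∀ z, 0 ≤ p z
  bdd : ∃ K : ℝ, ∀ z, p z ≤ K
  supp : ∀ z, r < ‖z‖ → p z = 0
  mass : ∫ z, p z ∂B.qmeas T = 1
  contf : Continuous f
  contψ : Continuous ψ
  left : ∀ g, ∫ z, p z * kker ε f ψ g z ∂B.qmeas T = 1
  right : ∀ z, ∫ g, kker ε f ψ g z ∂B.qmeas T = 1

/-- barycentric projection -/
def Smap (B : Base n) (T ε : ℝ) (p f ψ : E n → ℝ) (g : E n) : E n :=
  WithLp.toLp 2 fun i => ∫ z, p z * kker ε f ψ g z * z i ∂B.qmeas T

/-- displacement -/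
def disp (B : Base n) (T ε : ℝ) (p f ψ : E n → ℝ) (g : E n) : E n :=
  Smap B T ε p f ψ g - g

/-- conditional covariance divided by `ε`: the Jacobian of `Smap` -/
def Scov (B : Base n) (T ε : ℝ) (p f ψ : E n → ℝ) (g : E n) : Mat n :=
  Matrix.of fun i j => ε⁻¹ * ((∫ z, p z * kker ε f ψ g z * (z i * z j) ∂B.qmeas T) -
    Smap B T ε p f ψ g i * Smap B T ε p f ψ g j)

/-- quadratic cost of the plan -/
def cost (B : Base n) (T ε : ℝ) (p f ψ : E n → ℝ) : ℝ :=
  ∫ g, ∫ z, p z * kker ε f ψ g z * ‖z - g‖ ^ 2 ∂B.qmeas T ∂B.qmeas T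

end Vale.Agent.P245.Polylog
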