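import Vale.Agent.P245.Polylog.EntropyPot

/-!
# P245: proof of the entropy inequality
-/

open MeasureTheory Real Set Matrix
open scoped RealInnerProductSpace ENNReal

noncomputable section

namespace Vale.Agent.P245.Polylog

open Vale.Agent.P245.Local Vale.Agent.P245.Local.Base

namespace EntropyAux

variable {n : ℕ} {B : Base n} {T ε r η : ℝ} {p f ψ : E n → ℝ}

namespace Setting

variable (s : Setting B T ε r p f ψ)
include s

/-- growth bound for the plan on its support -/
theorem kker_le : ∃ C c : ℝ, ∀ g z : E n, ‖z‖ ≤ r → kker ε f ψ g z ≤ C * exp (c * ‖g‖) := by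
  obtain ⟨C, hC⟩ := s.bdf
  obtain ⟨M, hM⟩ := (isCompact_closedBall (0 : E n) r).exists_bound_of_continuousOn
    s.plan.contψ.continuousOn
  refine ⟨exp ((C + M) / ε), 2 * r / ε, fun g z hz => ?_⟩
  rw [kker, ← exp_add, exp_le_exp, div_mul_eq_mul_div, ← add_div]
  refine div_le_div_of_nonneg_right ?_ s.plan.posε.le
  have h1 := (real_inner_le_norm g z).trans (mul_le_mul_of_nonneg_left hz (norm_nonneg g))
  have h2 := hM z (mem_closedBall_zero_iff.2 hz)
  rw [norm_eq_abs] at h2
  linarith [hC g, neg_abs_le (f g), neg_abs_le (ψ z)]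

theorem continuous_kker : Continuous fun a : E n × E n => kker ε f ψ a.1 a.2 := by
  have := s.plan.contf
  have := s.plan.contψ
  unfold kker; fun_prop

/-- integrability against the plan -/
theorem integrable_plan {w : E n → ℝ} (hw : Measurable w) {K : ℝ} (hK : ∀ z, |w z| ≤ K)
    (hsupp : ∀ z, r < ‖z‖ → w z = 0) {G : E n → E n → ℝ}
    (hG : Continuous fun a : E n × E n => G a.1 a.2) {C c : ℝ}
    (hb : ∀ g z, ‖z‖ ≤ r → |G g z| ≤ C * exp (c * ‖g‖)) :
    Integrable (fun a : E n × E n => w a.2 * kker ε f ψ a.1 a.2 * G a.1 a.2)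
      ((B.qmeas T).prod (B.qmeas T)) := by
  obtain ⟨C₁, c₁, hk⟩ := s.kker_le
  obtain ⟨δ, I, -, hI⟩ := exp_norm_qmeas B s.posT
  refine (((hI (c₁ + c)).1.comp_fst (B.qmeas T)).const_mul (|K| * |C₁| * |C|)).mono'
    (((hw.comp measurable_snd).mul s.continuous_kker.measurable).mul
      hG.measurable).aestronglyMeasurable (.of_forall fun a => ?_)
  rw [norm_eq_abs]
  rcases lt_or_ge r ‖a.2‖ with hz | hz
  · rw [hsupp _ hz]; simp; positivity
  rw [abs_mul, abs_mul, abs_of_pos (show 0 < kker ε f ψ a.1 a.2 from exp_pos _)]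
  calc |w a.2| * kker ε f ψ a.1 a.2 * |G a.1 a.2|
      ≤ |K| * (|C₁| * exp (c₁ * ‖a.1‖)) * (|C| * exp (c * ‖a.1‖)) :=
        mul_le_mul (mul_le_mul ((hK _).trans (le_abs_self K))
            ((hk _ _ hz).trans (mul_le_mul_of_nonneg_right (le_abs_self _) (exp_pos _).le))
            (exp_pos _).le (abs_nonneg K))
          ((hb _ _ hz).trans (mul_le_mul_of_nonneg_right (le_abs_self _) (exp_pos _).le))
          (abs_nonneg _) (by positivity)
    _ = |K| * |C₁| * |C| * (exp (c₁ * ‖a.1‖) * exp (c * ‖a.1‖)) := by ring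
    _ = _ := by rw [← exp_add]; ring_nf

theorem plogp_ok : Measurable (fun z => p z * log (p z)) ∧
    (∃ K, ∀ z, |p z * log (p z)| ≤ K) ∧ ∀ z, r < ‖z‖ → p z * log (p z) = 0 := by
  refine ⟨s.plan.meas.mul s.plan.meas.log, ?_, fun z hz => by rw [s.plan.supp z hz, zero_mul]⟩
  obtain ⟨K, hK⟩ := s.plan.bdd
  obtain ⟨M, hM⟩ := (isCompact_Icc (a := (0 : ℝ)) (b := K)).exists_bound_of_continuousOn
    Real.continuous_mul_log.continuousOn
  exact ⟨M, fun z => by simpa [norm_eq_abs] using hM (p z) ⟨s.plan.nonneg z, hK z⟩⟩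

/-- second moments of the conditional law -/
theorem quad_cov (g v : E n) :
    ∫ z, p z * kker ε f ψ g z * ⟪v, z - Smap B T ε p f ψ g⟫ ^ 2 ∂B.qmeas T =
      ε * (⇑v ⬝ᵥ (Scov B T ε p f ψ g *ᵥ ⇑v)) := by
  set S := Smap B T ε p f ψ g
  have hpl := s.plan
  have i1 : ∀ i j, Integrable (fun z => p z * kker ε f ψ g z * (z i * z j)) (B.qmeas T) :=
    fun i j => hpl.integrable_pk g (by fun_prop)
  have i0 : ∀ i, Integrable (fun z => p z * kker ε f ψ g z * z i) (B.qmeas T) :=
    fun i => hpl.integrable_pk g (by fun_prop)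
  have i2 : Integrable (fun z => p z * kker ε f ψ g z * (1 : ℝ)) (B.qmeas T) :=
    hpl.integrable_pk g continuous_const
  have e : ∀ z : E n, p z * kker ε f ψ g z * ⟪v, z - S⟫ ^ 2 = ∑ i, ∑ j, v i * v j *
      (p z * kker ε f ψ g z * (z i * z j) - S j * (p z * kker ε f ψ g z * z i)
        - S i * (p z * kker ε f ψ g z * z j) + S i * S j * (p z * kker ε f ψ g z * 1)) :=
    fun z => by
      rw [inner_eq_sum, sq, Finset.sum_mul_sum, Finset.mul_sum]
      refine Finset.sum_congr rfl fun i _ => ?_
      rw [Finset.mul_sum]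
      exact Finset.sum_congr rfl fun j _ => by simp only [PiLp.sub_apply]; ring
  have ij : ∀ i j, Integrable (fun z => v i * v j *
      (p z * kker ε f ψ g z * (z i * z j) - S j * (p z * kker ε f ψ g z * z i)
        - S i * (p z * kker ε f ψ g z * z j) + S i * S j * (p z * kker ε f ψ g z * 1)))
      (B.qmeas T) := fun i j =>
    ((((i1 i j).sub ((i0 i).const_mul _)).sub ((i0 j).const_mul _)).add (i2.const_mul _)).const_mul _
  have hone : ∫ z, p z * kker ε f ψ g z * (1 : ℝ) ∂B.qmeas T = 1 := by
    simp only [mul_one]; exact hpl.left g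
  have hS : ∀ i, ∫ z, p z * kker ε f ψ g z * z i ∂B.qmeas T = S i := fun i => rfl
  simp only [e]
  rw [integral_finsetSum _ fun i _ => integrable_finsetSum _ fun j _ => ij i j]
  simp only [integral_finsetSum _ fun j _ => ij _ j, integral_const_mul]
  simp only [dotProduct, mulVec, Finset.mul_sum, hpl.Scov_apply]
  refine Finset.sum_congr rfl fun i _ => Finset.sum_congr rfl fun j _ => ?_
  rw [integral_add (((i1 i j).sub' ((i0 i).const_mul _)).sub' ((i0 j).const_mul _))
      (i2.const_mul _), integral_sub ((i1 i j).sub' ((i0 i).const_mul _)) ((i0 j).const_mul _),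
    integral_sub (i1 i j) ((i0 i).const_mul _), integral_const_mul, integral_const_mul,
    integral_const_mul, hone, hS, hS]
  have := hpl.posε.ne'
  field_simp
  ring

/-- Gibbs' inequality for the conditional law in `z` -/
theorem gibbs (hη : 0 < η) (g : E n) :
    Wq B T (Smap B T ε p f ψ g) - Wq B T g -
        (1 / 2 * log (Scov B T ε p f ψ g + η • (1 : Mat n)).det +
          (n : ℝ) / 2 * (log (2 * π * ε) + 1)) +
        (∫ z, p z * kker ε f ψ g z * s.pot z g ∂B.qmeas T) ≤
      ∫ z, p z * log (p z) * kker ε f ψ g z ∂B.qmeas T := by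
  have hT := s.posT
  have hε := s.plan.posε
  set S := Smap B T ε p f ψ g
  set A := Scov B T ε p f ψ g + η • (1 : Mat n)
  have hA : A.PosDef := (PosDef.one.smul hη).posSemidef_add (s.psd g)
  set b := hA.1.eigenvectorBasis
  set l : Fin n → ℝ := fun i => ε * hA.1.eigenvalues i
  have hl : ∀ i, 0 < l i := fun i => mul_pos hε (hA.eigenvalues_pos i)
  have hq : ∀ i, ∫ z, p z * kker ε f ψ g z * ⟪b i, z - S⟫ ^ 2 ∂B.qmeas T ≤ l i := fun i => by
    rw [s.quad_cov g (b i)]
    refine mul_le_mul_of_nonneg_left ?_ hε.le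
    have h := hA.1.eigenvalues_eq i
    simp only [RCLike.re_to_real, star_trivial] at h
    rw [h]
    change _ ≤ ⇑(b i) ⬝ᵥ ((Scov B T ε p f ψ g + η • (1 : Mat n)) *ᵥ ⇑(b i))
    rw [add_mulVec, dotProduct_add, smul_mulVec, one_mulVec, dotProduct_smul, smul_eq_mul]
    have : 0 ≤ η * (⇑(b i) ⬝ᵥ ⇑(b i)) :=
      mul_nonneg hη.le (Finset.sum_nonneg fun j _ => mul_self_nonneg _)
    linarith
  set Wc := Wq B T
  have hWc : Continuous Wc := continuous_Wq B hT
  have hNc : Continuous fun z => logN b l S z := by unfold logN; fun_prop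
  have hkc : Continuous fun z : E n => (⟪g, z⟫ - f g - ψ z) / ε := by
    have := s.plan.contψ; fun_prop
  have hbN : Integrable (fun z => exp (logN b l S z + Wc z)) (B.qmeas T) := by
    rw [integrable_q_iff B hT]
    refine ((integrable_of_integral_eq_one (integral_exp_logN b hl S))).congr
      (.of_forall fun z => ?_)
    simp only [Wc, ← exp_add]; ring_nf
  have hbN1 : ∫ z, exp (logN b l S z + Wc z) ∂B.qmeas T = 1 := by
    rw [integral_q B hT, ← integral_exp_logN b hl S]
    refine integral_congr_ae (.of_forall fun z => ?_)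
    simp only [Wc, ← exp_add]; ring_nf
  obtain ⟨hpm, ⟨Kp, hKp⟩, hps⟩ := s.plogp_ok
  have iP : Integrable (fun z => p z * log (p z) * kker ε f ψ g z) (B.qmeas T) := by
    obtain ⟨C, c, hk⟩ := s.kker_le
    refine (integrable_const (|Kp| * (|C| * exp (c * ‖g‖)))).mono'
      (hpm.mul (s.continuous_kker.comp (Continuous.prodMk continuous_const continuous_id)
        ).measurable).aestronglyMeasurable (.of_forall fun z => ?_)
    rw [norm_eq_abs, abs_mul, abs_of_pos (show 0 < kker ε f ψ g z from exp_pos _)]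
    rcases lt_or_ge r ‖z‖ with hz | hz
    · rw [hps z hz, abs_zero, zero_mul]; positivity
    · exact mul_le_mul ((hKp z).trans (le_abs_self _))
        ((hk g z hz).trans (mul_le_mul_of_nonneg_right (le_abs_self C) (exp_pos _).le))
        (exp_pos _).le (abs_nonneg _)
  have iA := s.plan.integrable_pk g (F := fun _ => (1 : ℝ)) continuous_const
  have iK := s.plan.integrable_pk g hkc
  have iW := s.plan.integrable_pk g hWc
  have iN := s.plan.integrable_pk g hNc
  have hpt : ∀ z, p z * kker ε f ψ g z * 1 - exp (logN b l S z + Wc z) ≤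
      p z * log (p z) * kker ε f ψ g z + p z * kker ε f ψ g z * ((⟪g, z⟫ - f g - ψ z) / ε) -
        (p z * kker ε f ψ g z * logN b l S z + p z * kker ε f ψ g z * Wc z) := fun z => by
    have ha : 0 ≤ p z * kker ε f ψ g z := mul_nonneg (s.plan.nonneg z) (exp_pos _).le
    have h := mul_log_ge ha (exp_pos (logN b l S z + Wc z))
    rw [log_exp] at h
    rcases (s.plan.nonneg z).eq_or_lt with h0 | h0
    · rw [← h0] at h ⊢; simp at h ⊢; positivity
    · simp only [kker] at h ⊢
      rw [log_mul h0.ne' (exp_pos _).ne', log_exp] at h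
      linarith
  have h := integral_mono (iA.sub' hbN) ((iP.fun_add iK).sub' (iN.fun_add iW)) hpt
  rw [integral_sub iA hbN, integral_sub (iP.fun_add iK) (iN.fun_add iW), integral_add iP iK,
    integral_add iN iW, hbN1] at h
  simp only [mul_one] at h
  rw [s.plan.left g] at h
  -- the Gaussian term
  have hN : -((n : ℝ) / 2 * (log (2 * π * ε) + 1) + 1 / 2 * log A.det) ≤
      ∫ z, p z * kker ε f ψ g z * logN b l S z ∂B.qmeas T := by
    have e : ∀ z, p z * kker ε f ψ g z * logN b l S z =
        -(∑ i, (log (2 * π * l i) / 2 * (p z * kker ε f ψ g z * 1) +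
          (2 * l i)⁻¹ * (p z * kker ε f ψ g z * ⟪b i, z - S⟫ ^ 2))) := fun z => by
      rw [logN, mul_neg, Finset.mul_sum]
      congr 1
      exact Finset.sum_congr rfl fun i _ => by ring
    have iq : ∀ i, Integrable (fun z => p z * kker ε f ψ g z * ⟪b i, z - S⟫ ^ 2) (B.qmeas T) :=
      fun i => s.plan.integrable_pk g (by fun_prop)
    simp only [e]
    rw [integral_neg, integral_finsetSum _ fun i _ =>
      (iA.const_mul _).fun_add ((iq i).const_mul _), neg_le_neg_iff]
    have hdet : log A.det = ∑ i, log (hA.1.eigenvalues i) := by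
      rw [hA.1.det_eq_prod_eigenvalues, log_prod]
      · simp
      · exact fun i _ => by simpa using (hA.eigenvalues_pos i).ne'
    calc ∑ i, ∫ z, (log (2 * π * l i) / 2 * (p z * kker ε f ψ g z * 1) +
          (2 * l i)⁻¹ * (p z * kker ε f ψ g z * ⟪b i, z - S⟫ ^ 2)) ∂B.qmeas T
        ≤ ∑ i, ((log (2 * π * ε) + 1) / 2 + log (hA.1.eigenvalues i) / 2) := by
          refine Finset.sum_le_sum fun i _ => ?_
          have h1 := mul_le_mul_of_nonneg_left (hq i) (by have := hl i; positivity : 0 ≤ (2 * l i)⁻¹)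
          rw [show (2 * l i)⁻¹ * l i = 1 / 2 by have := (hl i).ne'; field_simp] at h1
          rw [integral_add (iA.const_mul _) ((iq i).const_mul _), integral_const_mul,
            integral_const_mul]
          simp only [mul_one]
          rw [s.plan.left g, mul_one, show 2 * π * l i = 2 * π * ε * hA.1.eigenvalues i by
            simp only [l]; ring, log_mul (by positivity) (hA.eigenvalues_pos i).ne']
          linarith
      _ = _ := by rw [Finset.sum_add_distrib, ← Finset.sum_div, ← Finset.sum_div, hdet]; simp; ring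
  -- convexity
  have hWS : Wc S ≤ ∫ z, p z * kker ε f ψ g z * Wc z ∂B.qmeas T := by
    have iS : ∀ k, Integrable (fun z => p z * kker ε f ψ g z * z k) (B.qmeas T) :=
      fun k => s.plan.integrable_pk g (by fun_prop)
    have hle : ∀ z, (Wc S - ∑ k, S k * dWq B T k S) * (p z * kker ε f ψ g z * 1) +
        ∑ k, dWq B T k S * (p z * kker ε f ψ g z * z k) ≤ p z * kker ε f ψ g z * Wc z := fun z => by
      have ha : 0 ≤ p z * kker ε f ψ g z := mul_nonneg (s.plan.nonneg z) (exp_pos _).le
      have h1 := Wq_add B hT S (z - S)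
      rw [add_sub_cancel] at h1
      have h2 := mul_le_mul_of_nonneg_left
        (show Wc S + ∑ k, (z - S) k * dWq B T k S ≤ Wc z by
          linarith [GradBound.breg_le B hT S (z - S)]) ha
      refine le_trans (le_of_eq ?_) h2
      have e1 : ∑ k, dWq B T k S * (p z * kker ε f ψ g z * z k) =
          p z * kker ε f ψ g z * ∑ k, z k * dWq B T k S := by
        rw [Finset.mul_sum]
        exact Finset.sum_congr rfl fun k _ => by ring
      have e2 : ∑ k, (z - S) k * dWq B T k S =
          (∑ k, z k * dWq B T k S) - ∑ k, S k * dWq B T k S := by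
        rw [← Finset.sum_sub_distrib]
        exact Finset.sum_congr rfl fun k _ => by rw [PiLp.sub_apply]; ring
      rw [e1, e2]; ring
    have h1 := integral_mono ((iA.const_mul _).fun_add
      (integrable_finsetSum _ fun k _ => (iS k).const_mul _)) iW hle
    rw [integral_add (iA.const_mul _) (integrable_finsetSum _ fun k _ => (iS k).const_mul _),
      integral_const_mul, integral_finsetSum _ fun k _ => (iS k).const_mul _] at h1
    simp only [integral_const_mul, mul_one] at h1
    rw [s.plan.left g, show (∑ k, dWq B T k S * ∫ z, p z * kker ε f ψ g z * z k ∂B.qmeas T) =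
      ∑ k, S k * dWq B T k S from Finset.sum_congr rfl fun k _ => mul_comm _ _] at h1
    linarith
  -- the potential
  have ePot : ∫ z, p z * kker ε f ψ g z * s.pot z g ∂B.qmeas T =
      Wc g - ∫ z, p z * kker ε f ψ g z * ((⟪g, z⟫ - f g - ψ z) / ε) ∂B.qmeas T := by
    have e : ∀ z, p z * kker ε f ψ g z * s.pot z g = Wc g * (p z * kker ε f ψ g z * 1) -
        p z * kker ε f ψ g z * ((⟪g, z⟫ - f g - ψ z) / ε) := fun z => by
      simp only [pot, Wc]; ring
    simp only [e]
    rw [integral_sub (iA.const_mul _) iK, integral_const_mul]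
    simp only [mul_one]
    rw [s.plan.left g, mul_one]
  rw [ePot]
  linarith

/-- the conditional law in `g` -/
theorem pot_lower (hG : GaussLsiProp) (hI : PotIbpProp) (z : E n) :
    (n : ℝ) / 2 * log (2 * π * ε) + n - ε * n / (2 * T) -
        1 / 2 * (∫ g, kker ε f ψ g z * (Scov B T ε p f ψ g).trace ∂B.qmeas T) ≤
      ∫ g, kker ε f ψ g z * s.pot z g ∂B.qmeas T := by
  have hT := s.posT
  have hε := s.plan.posε
  have hU := s.potOk z
  have h1 : ∫ g, exp (-s.pot z g) = 1 := by
    simp only [s.exp_neg_pot]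
    rw [← integral_q B hT]
    exact s.plan.right z
  have h := hG n (s.pot z) hU h1 ε hε
  have hF := mul_le_mul_of_nonneg_left (s.fisher_le hI z) (by positivity : 0 ≤ ε / 2)
  have i1 : Integrable fun g => exp (-s.pot z g) := integrable_of_integral_eq_one h1
  have i2 : Integrable fun g => exp (-s.pot z g) * (Scov B T ε p f ψ g).trace :=
    integrable_exp_pot hU s.contScov.matrix_trace (C := n * (2 * r ^ 2 / ε)) fun g => by
      refine ((Finset.abs_sum_le_sum_abs _ _).trans
        (Finset.sum_le_sum fun i _ => s.bdScov g i i)).trans ?_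
      simp only [Finset.sum_const, Finset.card_univ, Fintype.card_fin, nsmul_eq_mul]
      exact le_mul_of_one_le_right (by positivity) (le_add_of_nonneg_right (sq_nonneg _))
  have e : ∀ g, exp (-s.pot z g) * ((n : ℝ) / T + (Scov B T ε p f ψ g).trace / ε) =
      (n : ℝ) / T * exp (-s.pot z g) + ε⁻¹ * (exp (-s.pot z g) * (Scov B T ε p f ψ g).trace) :=
    fun g => by ring
  simp only [e] at hF
  rw [integral_add (i1.const_mul _) (i2.const_mul _), integral_const_mul, integral_const_mul,
    h1] at hF
  have e2 : ∀ F : E n → ℝ, ∫ g, kker ε f ψ g z * F g ∂B.qmeas T =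
      ∫ g, exp (-s.pot z g) * F g := fun F => by
    rw [integral_q B hT]
    simp only [s.exp_neg_pot, mul_assoc]
  rw [e2, e2]
  simp only [mul_neg, integral_neg] at h
  have e3 : ε / 2 * ((n : ℝ) / T * 1 + ε⁻¹ * ∫ g, exp (-s.pot z g) * (Scov B T ε p f ψ g).trace) =
      ε * n / (2 * T) + 1 / 2 * ∫ g, exp (-s.pot z g) * (Scov B T ε p f ψ g).trace := by
    field_simp
  linarith

theorem potOk_Wq : PotOk (Wq B T) := by
  have hT := s.posT
  obtain ⟨a, ha, hW⟩ := Wq_bounds B s.subg s.cen hT s.T4
  refine ⟨contDiff_Wq B hT, ⟨a, 1, one_pos, fun g => by simpa using (hW g).1⟩,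
    ⟨a, fun g => (hW g).2⟩, ⟨∑ k : Fin n, (|B.avg T 0 fun x => x k| + 2 / T), fun g => ?_⟩⟩
  rw [(hasFDerivAt_Wq B hT g).fderiv, GradBound.gcl, innerSL_apply_norm, Finset.sum_mul]
  refine le_trans ?_ (Finset.sum_le_sum (f := fun k => |dWq B T k g|) fun k _ => ?_)
  · refine le_of_pow_le_pow_left₀ two_ne_zero (Finset.sum_nonneg fun k _ => abs_nonneg _) ?_
    rw [EuclideanSpace.norm_sq_eq]
    refine le_trans (le_of_eq ?_)
      (Finset.sum_sq_le_sq_sum_of_nonneg fun k _ => abs_nonneg (dWq B T k g))
    exact Finset.sum_congr rfl fun k _ => by simp [sq_abs]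
  · have h3 : 0 ≤ 2 / T := by positivity
    linarith [abs_dWq_le B hT k g, mul_nonneg (abs_nonneg (B.avg T 0 fun x => x k)) (norm_nonneg g)]

theorem abs_disp_le (g : E n) (k : Fin n) : |disp B T ε p f ψ g k| ≤ r + ‖g‖ :=
  (abs_sub _ _).trans (add_le_add ((PiLp.norm_apply_le _ k).trans (s.normS g))
    (PiLp.norm_apply_le g k))

/-- integration by parts for the displacement -/
theorem drift_disp (hI : PotIbpProp) :
    ∫ g, ∑ k, disp B T ε p f ψ g k * dWq B T k g ∂B.qmeas T =
      (∫ g, (Scov B T ε p f ψ g).trace ∂B.qmeas T) - n := by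
  have hT := s.posT
  have hε := s.plan.posε
  have hr := s.plan.posr
  have hU := s.potOk_Wq
  have hS1 := s.smoothS
  set R := 2 * r ^ 2 / ε
  have hd : ∀ k, ContDiff ℝ 1 fun g => disp B T ε p f ψ g k := fun k =>
    (EuclideanSpace.proj (𝕜 := ℝ) k).contDiff.comp (hS1.sub contDiff_id)
  have hdd : ∀ (k : Fin n) g (u : E n), fderiv ℝ (fun g => disp B T ε p f ψ g k) g u =
      ⟪row' (Scov B T ε p f ψ g) k, u⟫ - u k := fun k g u => by
    have h := (EuclideanSpace.proj (𝕜 := ℝ) k).hasFDerivAt.comp g
      (((hS1.differentiable one_ne_zero) g).hasFDerivAt.sub (hasFDerivAt_id g))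
    have hd : fderiv ℝ (fun g => disp B T ε p f ψ g k) g = _ :=
      (h.congr_of_eventuallyEq (.of_forall fun x => by simp [disp])).fderiv
    rw [hd, ← s.jacS g, inner_row']
    simp only [ContinuousLinearMap.coe_comp, Function.comp_apply, _root_.sub_apply,
      ContinuousLinearMap.id_apply, PiLp.proj_apply, PiLp.sub_apply]
    congr 1
    conv_lhs => rw [sum_eb u, map_sum, WithLp.ofLp_sum, Finset.sum_apply]
    exact Finset.sum_congr rfl fun j _ => by simp [jac, mul_comm]
  have hfd : ∀ g k, fderiv ℝ (Wq B T) g (eb k) = dWq B T k g := fun g k => by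
    rw [(hasFDerivAt_Wq B hT g).fderiv, GradBound.gcl_apply]
    simp [eb]
  have hk : ∀ k, ∫ g, disp B T ε p f ψ g k * dWq B T k g ∂B.qmeas T =
      ∫ g, (Scov B T ε p f ψ g k k - 1) ∂B.qmeas T := fun k => by
    rw [integral_q B hT, integral_q B hT]
    have h := hI n (Wq B T) hU (fun g => disp B T ε p f ψ g k) (hd k) (r + n * R + 2)
      (fun g => (s.abs_disp_le g k).trans (by
        have : 0 ≤ (n * R + 2) + (r + n * R + 1) * ‖g‖ := by positivity
        linarith))
      (fun g => ContinuousLinearMap.opNorm_le_bound _ (by positivity) fun u => by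
        rw [norm_eq_abs, hdd, inner_row']
        refine (abs_sub _ _).trans ?_
        have h1 : |∑ j, Scov B T ε p f ψ g k j * u j| ≤ n * R * ‖u‖ := by
          refine (Finset.abs_sum_le_sum_abs _ _).trans ((Finset.sum_le_sum
            (g := fun _ => R * ‖u‖) fun j _ => ?_).trans_eq (by simp; ring))
          rw [abs_mul]
          exact mul_le_mul (s.bdScov g k j) (PiLp.norm_apply_le u j) (abs_nonneg _) (by positivity)
        have h2 : |u k| ≤ ‖u‖ := PiLp.norm_apply_le u k
        have h3 : (n * R + 1) * ‖u‖ ≤ (r + n * R + 2) * (1 + ‖g‖) * ‖u‖ := by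
          refine mul_le_mul_of_nonneg_right ?_ (norm_nonneg u)
          have : 0 ≤ (r + n * R + 2) * ‖g‖ := by positivity
          linarith
        linarith) k
    simp only [hfd] at h
    rw [h]
    refine integral_congr_ae (.of_forall fun g => ?_)
    simp only [hdd, inner_row']
    simp [eb]
  have iS : ∀ k, Integrable (fun g => Scov B T ε p f ψ g k k - 1) (B.qmeas T) := fun k =>
    (Integrable.of_bound (s.contScov.matrix_elem k k).aestronglyMeasurable R
      (.of_forall fun g => by rw [norm_eq_abs]; exact s.bdScov g k k)).sub (integrable_const _)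
  have iL : ∀ k, Integrable (fun g => disp B T ε p f ψ g k * dWq B T k g) (B.qmeas T) := fun k => by
    rw [integrable_q_iff B hT]
    obtain ⟨a, hga⟩ := hU.grad
    refine integrable_exp_pot hU ((hd k).continuous.mul (contDiff_dWq B hT k).continuous)
      (C := (r + 1) * (2 * |a|)) fun g => ?_
    have h1 := (fderiv ℝ (Wq B T) g).le_opNorm (eb k)
    rw [norm_eb, mul_one, norm_eq_abs, hfd] at h1
    rw [abs_mul]
    refine (mul_le_mul (s.abs_disp_le g k) (h1.trans ((hga g).trans
      (mul_le_mul_of_nonneg_right (le_abs_self a) (by positivity)))) (abs_nonneg _)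
      (by positivity)).trans ?_
    nlinarith [mul_nonneg (abs_nonneg a) (sq_nonneg (‖g‖ - 1)), norm_nonneg g, abs_nonneg a,
      mul_nonneg (mul_nonneg hr.le (abs_nonneg a)) (sq_nonneg (‖g‖ - 1)),
      mul_nonneg (abs_nonneg a) (sq_nonneg ‖g‖)]
  have iD : ∀ k, Integrable (fun g => Scov B T ε p f ψ g k k) (B.qmeas T) := fun k =>
    Integrable.of_bound (s.contScov.matrix_elem k k).aestronglyMeasurable R
      (.of_forall fun g => by rw [norm_eq_abs]; exact s.bdScov g k k)
  rw [integral_finsetSum _ fun k _ => iL k, Finset.sum_congr rfl fun k _ => hk k,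
    ← integral_finsetSum _ fun k _ => iS k]
  simp only [Finset.sum_sub_distrib, Finset.sum_const, Finset.card_univ, Fintype.card_fin,
    nsmul_eq_mul, mul_one]
  rw [integral_sub (integrable_finsetSum _ fun k _ => iD k) (integrable_const _), integral_const,
    probReal_univ, one_smul]
  rfl

theorem abs_trace_le (g : E n) : |(Scov B T ε p f ψ g).trace| ≤ n * (2 * r ^ 2 / ε) :=
  ((Finset.abs_sum_le_sum_abs _ _).trans
    (Finset.sum_le_sum fun i _ => s.bdScov g i i)).trans_eq (by simp)

theorem continuous_logdet (hη : 0 < η) :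
    Continuous fun g => log (Scov B T ε p f ψ g + η • (1 : Mat n)).det :=
  (s.contScov.add continuous_const).matrix_det.log fun g =>
    ((PosDef.one.smul hη).posSemidef_add (s.psd g)).det_pos.ne'

theorem abs_logdet_le (hη : 0 < η) (g : E n) :
    |log (Scov B T ε p f ψ g + η • (1 : Mat n)).det| ≤
      n * (|log η| + 2 * r ^ 2 / ε + η + 1) := by
  set A := Scov B T ε p f ψ g + η • (1 : Mat n)
  have hA : A.PosDef := (PosDef.one.smul hη).posSemidef_add (s.psd g)
  have hdet : log A.det = ∑ i, log (hA.1.eigenvalues i) := by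
    rw [hA.1.det_eq_prod_eigenvalues, log_prod]
    · simp
    · exact fun i _ => by simpa using (hA.eigenvalues_pos i).ne'
  have hev : ∀ i, η ≤ hA.1.eigenvalues i := fun i => by
    have h := hA.1.eigenvalues_eq i
    set v : Fin n → ℝ := ⇑(hA.1.eigenvectorBasis i)
    have hv : v ⬝ᵥ v = 1 := by
      have h2 : ‖hA.1.eigenvectorBasis i‖ ^ 2 = 1 := by
        rw [hA.1.eigenvectorBasis.orthonormal.1 i]; norm_num
      rw [EuclideanSpace.norm_sq_eq] at h2
      simpa [dotProduct, v, Real.norm_eq_abs, sq_abs, pow_two] using h2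
    simp only [RCLike.re_to_real, star_trivial] at h
    have h2 := (s.psd g).dotProduct_mulVec_nonneg v
    rw [star_trivial] at h2
    rw [h]
    change η ≤ v ⬝ᵥ ((Scov B T ε p f ψ g + η • (1 : Mat n)) *ᵥ v)
    rw [add_mulVec, dotProduct_add, smul_mulVec, one_mulVec, dotProduct_smul, hv, smul_eq_mul,
      mul_one]
    linarith
  have hlow : -((n : ℝ) * |log η|) ≤ log A.det := by
    rw [hdet]
    calc -((n : ℝ) * |log η|) = ∑ _i : Fin n, -|log η| := by simp
      _ ≤ _ := Finset.sum_le_sum fun i _ => (neg_abs_le _).trans (log_le_log hη (hev i))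
  have hup : log A.det ≤ A.trace := by
    rw [hdet, hA.1.trace_eq_sum_eigenvalues]
    refine Finset.sum_le_sum fun i _ => ?_
    simp only [RCLike.ofReal_real_eq_id, id_eq]
    linarith [log_le_sub_one_of_pos (hA.eigenvalues_pos i)]
  have htr : A.trace ≤ n * (2 * r ^ 2 / ε + η) := by
    have := (le_abs_self _).trans (s.abs_trace_le g)
    simp only [A, trace_add, trace_smul, trace_one, Fintype.card_fin, smul_eq_mul]
    linarith
  have hr : 0 ≤ 2 * r ^ 2 / ε := by have := s.plan.posε; positivity
  rw [abs_le]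
  constructor <;> nlinarith [abs_nonneg (log η), (Nat.cast_nonneg n : (0 : ℝ) ≤ n)]

/-- the entropy inequality -/
theorem main (hG : GaussLsiProp) (hI : PotIbpProp) (hη : 0 < η) :
    (∫ g, (‖disp B T ε p f ψ g‖ ^ 2 / (2 * T) - B.breg T g (disp B T ε p f ψ g)) ∂B.qmeas T) +
        1 / 2 * (∫ g, Omega (Scov B T ε p f ψ g + η • (1 : Mat n)) ∂B.qmeas T)
      ≤ (∫ z, p z * log (p z) ∂B.qmeas T) + (n : ℝ) * (η + ε / T) / 2 := by
  have hT := s.posT
  have hε := s.plan.posε
  obtain ⟨Kp, hKp⟩ := s.plan.bdd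
  have hpK : ∀ z, |p z| ≤ Kp := fun z => by rw [abs_of_nonneg (s.plan.nonneg z)]; exact hKp z
  obtain ⟨hpm, ⟨Kl, hKl⟩, hps⟩ := s.plogp_ok
  set R := (n : ℝ) * (2 * r ^ 2 / ε)
  have hR : 0 ≤ R := by positivity
  -- the three Fubini identities
  have i1 := s.integrable_plan hpm hKl hps (G := fun _ _ => (1 : ℝ)) continuous_const
    (C := 1) (c := 0) fun g z _ => by simp
  simp only [mul_one] at i1
  have i2 : Integrable (fun a : E n × E n => p a.2 * kker ε f ψ a.1 a.2 * s.pot a.2 a.1)
      ((B.qmeas T).prod (B.qmeas T)) := by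
    obtain ⟨a, ha, hW⟩ := Wq_bounds B s.subg s.cen hT s.T4
    obtain ⟨C, hC⟩ := s.bdf
    obtain ⟨M, hM⟩ := (isCompact_closedBall (0 : E n) r).exists_bound_of_continuousOn
      s.plan.contψ.continuousOn
    have hr := s.plan.posr
    set D := (|C| + |M| + 2 * r) / ε
    have hD : 0 ≤ D := by positivity
    refine s.integrable_plan s.plan.meas hpK s.plan.supp (G := fun g z => s.pot z g) ?_
      (C := 2 * (a + 1) + 2 * D) (c := 1) fun g z hz => ?_
    · have := s.plan.contf; have := s.plan.contψ; have := continuous_Wq B hT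
      unfold pot; fun_prop
    · have h1 : |(f g + ψ z - ⟪g, z⟫) / ε| ≤ D * (1 + ‖g‖) := by
        rw [abs_div, abs_of_pos hε, div_mul_eq_mul_div]
        refine div_le_div_of_nonneg_right ?_ hε.le
        have h2 := hM z (mem_closedBall_zero_iff.2 hz)
        rw [norm_eq_abs] at h2
        have h3 := (abs_real_inner_le_norm g z).trans
          (mul_le_mul_of_nonneg_left hz (norm_nonneg g))
        nlinarith [abs_sub (f g + ψ z) ⟪g, z⟫, abs_add_le (f g) (ψ z), hC g, le_abs_self C,
          le_abs_self M, norm_nonneg g, abs_nonneg C, abs_nonneg M]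
      have h4 := (hW g).1
      have h5 := (hW g).2
      have h6 : |Wq B T g| ≤ (a + 1) * (1 + ‖g‖ ^ 2) := by
        rw [abs_le]; constructor <;> nlinarith [sq_nonneg ‖g‖]
      have h7 : 1 + ‖g‖ ≤ 2 * exp (1 * ‖g‖) := by
        rw [one_mul]; linarith [add_one_le_exp ‖g‖, exp_pos ‖g‖]
      have h8 : 1 + ‖g‖ ^ 2 ≤ 2 * exp (1 * ‖g‖) := by
        rw [one_mul]
        nlinarith [quadratic_le_exp_of_nonneg (norm_nonneg g), norm_nonneg g]
      show |Wq B T g + (f g + ψ z - ⟪g, z⟫) / ε| ≤ _
      nlinarith [abs_add_le (Wq B T g) ((f g + ψ z - ⟪g, z⟫) / ε),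
        mul_le_mul_of_nonneg_left h8 (by positivity : 0 ≤ a + 1),
        mul_le_mul_of_nonneg_left h7 hD]
  have i3 := s.integrable_plan s.plan.meas hpK s.plan.supp
    (G := fun g _ => (Scov B T ε p f ψ g).trace) (s.contScov.comp continuous_fst).matrix_trace
    (C := R) (c := 0) fun g z _ => by simpa using s.abs_trace_le g
  have eH : ∫ g, ∫ z, p z * log (p z) * kker ε f ψ g z ∂B.qmeas T ∂B.qmeas T =
      ∫ z, p z * log (p z) ∂B.qmeas T := by
    rw [integral_integral_swap i1]
    refine integral_congr_ae (.of_forall fun z => ?_)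
    simp only
    rw [integral_const_mul, s.plan.right z, mul_one]
  have eS : ∫ z, p z * ∫ g, kker ε f ψ g z * (Scov B T ε p f ψ g).trace ∂B.qmeas T ∂B.qmeas T =
      ∫ g, (Scov B T ε p f ψ g).trace ∂B.qmeas T := by
    simp only [← integral_const_mul, ← mul_assoc]
    rw [← integral_integral_swap i3]
    refine integral_congr_ae (.of_forall fun g => ?_)
    simp only
    rw [integral_mul_const, s.plan.left g, one_mul]
  -- the conditional law in `g`
  have ip : Integrable p (B.qmeas T) := .of_bound s.plan.meas.aestronglyMeasurable Kp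
    (.of_forall fun z => by rw [norm_eq_abs]; exact hpK z)
  have j2 : Integrable (fun z => p z * ∫ g, kker ε f ψ g z * s.pot z g ∂B.qmeas T) (B.qmeas T) := by
    refine i2.integral_prod_right.congr (.of_forall fun z => ?_)
    simp only [← integral_const_mul, mul_assoc]
  have j3 : Integrable (fun z => p z * ∫ g, kker ε f ψ g z * (Scov B T ε p f ψ g).trace ∂B.qmeas T)
      (B.qmeas T) := by
    refine i3.integral_prod_right.congr (.of_forall fun z => ?_)
    simp only [← integral_const_mul, mul_assoc]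
  set c0 := (n : ℝ) / 2 * log (2 * π * ε) + n - ε * n / (2 * T)
  have hU : c0 - 1 / 2 * (∫ g, (Scov B T ε p f ψ g).trace ∂B.qmeas T) ≤
      ∫ g, ∫ z, p z * kker ε f ψ g z * s.pot z g ∂B.qmeas T ∂B.qmeas T := by
    rw [integral_integral_swap i2]
    simp only [mul_assoc, integral_const_mul]
    refine le_trans (le_of_eq ?_) (integral_mono ((ip.const_mul c0).sub' (j3.const_mul (1 / 2))) j2
      fun z => ?_)
    · rw [integral_sub (ip.const_mul c0) (j3.const_mul _), integral_const_mul, integral_const_mul,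
        eS, s.plan.mass, mul_one]
    · have := mul_le_mul_of_nonneg_left (s.pot_lower hG hI z) (s.plan.nonneg z)
      simp only [c0]
      linarith
  -- integrate Gibbs
  set δ := disp B T ε p f ψ
  set ld : E n → ℝ := fun g => log (Scov B T ε p f ψ g + η • (1 : Mat n)).det
  have ild : Integrable ld (B.qmeas T) := .of_bound (s.continuous_logdet hη).aestronglyMeasurable _
    (.of_forall fun g => by rw [norm_eq_abs]; exact s.abs_logdet_le hη g)
  have itr : Integrable (fun g => (Scov B T ε p f ψ g).trace) (B.qmeas T) :=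
    .of_bound s.contScov.matrix_trace.aestronglyMeasurable R
      (.of_forall fun g => by rw [norm_eq_abs]; exact s.abs_trace_le g)
  have hSc := s.smoothS.continuous
  have hnorm : ∀ g, ‖δ g‖ ≤ r + ‖g‖ := fun g =>
    (norm_sub_le _ _).trans (add_le_add (s.normS g) le_rfl)
  have hWd : ∀ g, Wq B T (Smap B T ε p f ψ g) - Wq B T g =
      (∑ k, δ g k * dWq B T k g) + (‖δ g‖ ^ 2 / (2 * T) - B.breg T g (δ g)) := fun g => by
    have h := Wq_add B hT g (δ g)
    rw [show g + δ g = Smap B T ε p f ψ g from add_sub_cancel g _] at h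
    linarith
  have hcd : Continuous δ := hSc.sub continuous_id
  have iB : Integrable (fun g => ‖δ g‖ ^ 2 / (2 * T) - B.breg T g (δ g)) (B.qmeas T) := by
    refine (((integrable_const (2 * r ^ 2)).add
      ((integrable_norm_sq_qmeas B hT).const_mul 2)).const_mul (2 * T)⁻¹).mono' ?_
      (.of_forall fun g => ?_)
    · refine Continuous.aestronglyMeasurable ?_
      unfold breg
      simp only [B.inner_mean hT.le, B.avg_inner hT.le]
      have hav : ∀ k, Continuous fun g => B.avg T g fun x => x k := fun k =>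
        (GradBound.contDiff_avg_theta B hT (Good.coord k)).continuous
      have := B.continuous_Lam hT.le
      fun_prop
    · have h1 := GradBound.breg_le B hT g (δ g)
      have h2 := B.breg_nonneg hT.le g (δ g)
      have h3 : ‖δ g‖ ^ 2 / (2 * T) ≤ (2 * T)⁻¹ * (2 * r ^ 2 + 2 * ‖g‖ ^ 2) := by
        rw [div_eq_inv_mul]
        refine mul_le_mul_of_nonneg_left ?_ (by positivity)
        nlinarith [pow_le_pow_left₀ (norm_nonneg _) (hnorm g) 2, sq_nonneg (r - ‖g‖)]
      rw [norm_eq_abs, abs_of_nonneg (by linarith)]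
      simp only [Pi.add_apply]
      linarith
  have iW : Integrable (fun g => Wq B T (Smap B T ε p f ψ g) - Wq B T g) (B.qmeas T) := by
    obtain ⟨a, ha, hW⟩ := Wq_bounds B s.subg s.cen hT s.T4
    have hc := continuous_Wq B hT
    refine ((integrable_const ((a + 1) * (2 + r ^ 2))).add
      ((integrable_norm_sq_qmeas B hT).const_mul (a + 1))).mono'
      ((hc.comp hSc).sub hc).aestronglyMeasurable (.of_forall fun g => ?_)
    have hSr := pow_le_pow_left₀ (norm_nonneg _) (s.normS g) 2
    have b1 := (hW (Smap B T ε p f ψ g)).1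
    have b2 := (hW (Smap B T ε p f ψ g)).2
    have b3 := (hW g).1
    have b4 := (hW g).2
    rw [norm_eq_abs, abs_le]
    simp only [Pi.add_apply]
    constructor <;>
      nlinarith [sq_nonneg ‖g‖, sq_nonneg ‖Smap B T ε p f ψ g‖, mul_le_mul_of_nonneg_left hSr ha]
  have iD : Integrable (fun g => ∑ k, δ g k * dWq B T k g) (B.qmeas T) :=
    (iW.sub iB).congr (.of_forall fun g => by simp only [Pi.sub_apply, hWd g]; ring)
  set K0 := (n : ℝ) / 2 * (log (2 * π * ε) + 1)
  have hmain := integral_mono
    ((iW.sub' ((ild.const_mul (1 / 2)).fun_add (integrable_const K0))).fun_add i2.integral_prod_left)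
    i1.integral_prod_left (fun g => s.gibbs hη g)
  rw [integral_add (iW.sub' ((ild.const_mul _).fun_add (integrable_const _))) i2.integral_prod_left,
    integral_sub iW ((ild.const_mul _).fun_add (integrable_const _)),
    integral_add (ild.const_mul _) (integrable_const _), integral_const_mul, integral_const,
    probReal_univ, one_smul, eH] at hmain
  have eW : ∫ g, (Wq B T (Smap B T ε p f ψ g) - Wq B T g) ∂B.qmeas T =
      (∫ g, (Scov B T ε p f ψ g).trace ∂B.qmeas T) - n +
        ∫ g, (‖δ g‖ ^ 2 / (2 * T) - B.breg T g (δ g)) ∂B.qmeas T := by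
    simp only [hWd]
    rw [integral_add iD iB, s.drift_disp hI]
  have eΩ : ∫ g, Omega (Scov B T ε p f ψ g + η • (1 : Mat n)) ∂B.qmeas T =
      (∫ g, (Scov B T ε p f ψ g).trace ∂B.qmeas T) + (η * n - n) - ∫ g, ld g ∂B.qmeas T := by
    have e : ∀ g, Omega (Scov B T ε p f ψ g + η • (1 : Mat n)) =
        (Scov B T ε p f ψ g).trace + (η * n - n) - ld g := fun g => by
      simp only [Omega, ld, trace_add, trace_smul, trace_one, Fintype.card_fin, smul_eq_mul]
      ring
    simp only [e]
    rw [integral_sub (itr.fun_add (integrable_const _)) ild, integral_add itr (integrable_const _),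
      integral_const, probReal_univ, one_smul]
  rw [eΩ]
  rw [eW] at hmain
  simp only [K0, c0] at hmain hU
  have e5 : (n : ℝ) * (η + ε / T) / 2 = η * n / 2 + ε * n / (2 * T) := by ring
  linarith

end Setting

end EntropyAux

/-- the entropy inequality for entropic plans -/
theorem entropy_ineq (hG : GaussLsiProp) (hI : PotIbpProp) (hP : PlanCalcProp) : EntropyProp := by
  intro n hn B hS hC T ε r hT4 p f ψ h η hη
  obtain ⟨hf, hS1, hSc, hfd, hjac, hn', hbd, hpsd, hbf, -, -⟩ :=
    hP n hn B hS T ε r (by linarith) p f ψ h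
  exact (EntropyAux.Setting.mk h hS hC hT4 hf hS1 hSc hfd hjac hn' hbd hpsd hbf).main hG hI hη

end Vale.Agent.P245.Polylog
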