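import Vale.Agent.P245.Polylog.Statements
import Vale.Agent.P245.Local.LsiStrong
import Vale.Agent.P245.Local.Third
import Vale.Agent.P245.Local.Smoothing

/-!
# P245: regularity and bounds of the iterates of the chain

The gradient of a smoothing `Nop T f` is `T` times the smoothed gradient, and the gradient of an
average in the tilted measure is a covariance, whose norm is at most `T⁻¹` times the root mean
square gradient.  So the operator `Pop` contracts `sup Σᵢ |∇fᵢ|²`, and the bounds for `k = 0`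
(covariance at most `1/T`, third cumulant at most `2 T^{-3/2}`) persist along the iterates.
-/

open MeasureTheory Real Set Matrix Filter
open scoped RealInnerProductSpace ENNReal Topology

noncomputable section

namespace Vale.Agent.P245.Polylog

open Vale.Agent.P245.Local Vale.Agent.P245.Local.Base

namespace GradBound

variable {n : ℕ}

/-- the functional with coordinates `c` -/
def gcl (c : Fin n → ℝ) : E n →L[ℝ] ℝ := innerSL ℝ (WithLp.toLp 2 c : E n)

theorem gcl_apply (c : Fin n → ℝ) (u : E n) : gcl c u = ∑ k, u k * c k := by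
  simp only [gcl, innerSL_apply_apply, inner_eq_sum]
  exact Finset.sum_congr rfl fun k _ => mul_comm _ _

theorem norm_gcl_sq (c : Fin n → ℝ) : ‖gcl c‖ ^ 2 = ∑ k, c k ^ 2 := by
  simp only [gcl, innerSL_apply_norm, EuclideanSpace.norm_sq_eq, Real.norm_eq_abs, sq_abs]

theorem continuous_gcl {P : Type*} [TopologicalSpace P] {c : P → Fin n → ℝ}
    (h : ∀ k, Continuous fun a => c a k) : Continuous fun a => gcl (c a) := by
  have h1 : Continuous c := continuous_pi h
  unfold gcl
  fun_prop

theorem eq_gcl (D : E n →L[ℝ] ℝ) : D = gcl fun k => D (eb k) := by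
  ext u
  have hu : u = ∑ k, u k • eb k := by
    ext i; simp [eb, Pi.single_apply]
  rw [gcl_apply]
  conv_lhs => rw [hu, map_sum]
  simp [map_smul]

theorem norm_sq_eq (D : E n →L[ℝ] ℝ) : ‖D‖ ^ 2 = ∑ k, D (eb k) ^ 2 := by
  conv_lhs => rw [eq_gcl D]
  rw [norm_gcl_sq]

variable (B : Base n) {T : ℝ}

/-! ### derivatives in `θ` -/

theorem differentiableAt_num (hT : 0 ≤ T) (θ : E n) {F : E n → ℝ} (hF : Vale.Agent.P245.Local.Good F) :
    DifferentiableAt ℝ (fun η => B.num T η F) θ := by
  obtain ⟨K, k, hK, -, hb⟩ := hF.2.norm_le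
  refine (hasFDerivAt_integral_of_dominated_of_fderiv_le
    (F := fun η x => W T η x * F x) (F' := fun η x => F x • (W T η x • innerSL ℝ x))
    (bound := fun x => K * exp ((‖θ‖ + 1 + k + 1) * ‖x‖)) (Metric.ball_mem_nhds θ one_pos)
    (.of_forall fun η => ((by unfold W; fun_prop : Continuous fun x => W T η x).mul
      hF.1).aestronglyMeasurable)
    (B.good_integrable_W hT θ hF) ?_ (.of_forall fun x η hη => ?_)
    ((B.integrable_exp_norm _).const_mul K) (.of_forall fun x η _ => ?_)).differentiableAt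
  · exact (hF.1.smul ((by unfold W; fun_prop : Continuous fun x => W T θ x).smul
      (innerSL ℝ).continuous)).aestronglyMeasurable
  · have hη' : ‖η‖ ≤ ‖θ‖ + 1 := by
      linarith [norm_sub_norm_le η θ, mem_ball_iff_norm.1 hη]
    rw [norm_smul, norm_smul, Real.norm_eq_abs, Real.norm_eq_abs, abs_of_pos (W_pos T η x),
      innerSL_apply_norm]
    calc |F x| * (W T η x * ‖x‖)
        ≤ K * exp (k * ‖x‖) * (exp ((‖θ‖ + 1) * ‖x‖) * exp ‖x‖) := by
          refine mul_le_mul (hb x) (mul_le_mul (W_le hT hη' x)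
            (by linarith [add_one_le_exp ‖x‖]) (norm_nonneg _) (exp_pos _).le)
            (mul_nonneg (W_pos T η x).le (norm_nonneg _)) (by positivity)
      _ = _ := by rw [mul_assoc, ← exp_add, ← exp_add]; ring_nf
  · exact (hasFDerivAt_W T η x).mul_const (F x)

theorem differentiableAt_Z (hT : 0 ≤ T) (θ : E n) : DifferentiableAt ℝ (B.Z T) θ := by
  have e : B.Z T = fun η => B.num T η fun _ => 1 := funext fun η => (B.num_one T η).symm
  rw [e]; exact differentiableAt_num B hT θ (Good.const 1)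

theorem hasDerivAt_line (θ u : E n) (r : ℝ) : HasDerivAt (fun r : ℝ => θ + r • u) u r := by
  simpa using ((hasDerivAt_id r).smul_const u).const_add θ

theorem hasFDerivAt_avg_theta (hT : 0 < T) (θ : E n) {F : E n → ℝ}
    (hF : Vale.Agent.P245.Local.Good F) :
    HasFDerivAt (fun η => B.avg T η F) (gcl (B.covCoord T θ F)) θ := by
  have hd : DifferentiableAt ℝ (fun η => B.avg T η F) θ :=
    (differentiableAt_num B hT.le θ hF).mul
      ((differentiableAt_Z B hT.le θ).inv (B.Z_pos hT.le θ).ne')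
  refine hd.hasFDerivAt.congr_fderiv (ContinuousLinearMap.ext fun u => ?_)
  have h1 : HasDerivAt (fun r : ℝ => B.avg T (θ + r • u) F)
      (fderiv ℝ (fun η => B.avg T η F) θ u) 0 :=
    hd.hasFDerivAt.comp_hasDerivAt_of_eq (0 : ℝ) (hasDerivAt_line θ u 0) (by simp)
  have h2 := B.hasDerivAt_avg hF.1 hF.2 (hasDerivAt_const (0 : ℝ) T) (hasDerivAt_line θ u 0) hT
  rw [h1.unique h2, gcl_apply]
  simp only [zero_smul, add_zero, zero_div, zero_mul, sub_zero, B.avg_mul_inner hT.le θ hF u,
    B.avg_inner hT.le θ u, Finset.mul_sum, covCoord, ← Finset.sum_sub_distrib]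
  exact Finset.sum_congr rfl fun k _ => by ring

theorem hasFDerivAt_Lam (hT : 0 < T) (θ : E n) :
    HasFDerivAt (B.Lam T) (gcl fun k => B.avg T θ fun x => x k) θ := by
  have hd : DifferentiableAt ℝ (B.Lam T) θ :=
    (differentiableAt_Z B hT.le θ).log (B.Z_pos hT.le θ).ne'
  refine hd.hasFDerivAt.congr_fderiv (ContinuousLinearMap.ext fun u => ?_)
  have h1 : HasDerivAt (fun r : ℝ => B.Lam T (θ + r • u)) (fderiv ℝ (B.Lam T) θ u) 0 :=
    hd.hasFDerivAt.comp_hasDerivAt_of_eq (0 : ℝ) (hasDerivAt_line θ u 0) (by simp)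
  have h2 : HasDerivAt (fun r : ℝ => B.Lam T (θ + r • u)) (B.avg T θ fun x => ⟪u, x⟫) 0 := by
    refine ((B.hasDerivAt_Z (hasDerivAt_const (0 : ℝ) T) (hasDerivAt_line θ u 0) hT).log
      (B.Z_pos hT.le _).ne').congr_deriv ?_
    simp [avg]
  rw [h1.unique h2, gcl_apply, B.avg_inner hT.le θ u]

theorem contDiff_avg_theta (hT : 0 < T) {F : E n → ℝ} (hF : Vale.Agent.P245.Local.Good F) :
    ContDiff ℝ 1 fun η => B.avg T η F := by
  refine contDiff_one_iff_fderiv.2
    ⟨fun θ => (hasFDerivAt_avg_theta B hT θ hF).differentiableAt, ?_⟩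
  rw [show fderiv ℝ (fun η => B.avg T η F) = fun θ => gcl (B.covCoord T θ F) from
    funext fun θ => (hasFDerivAt_avg_theta B hT θ hF).fderiv]
  refine continuous_gcl fun k => ?_
  have c : ∀ {G : E n → ℝ}, Vale.Agent.P245.Local.Good G → Continuous fun θ => B.avg T θ G :=
    fun hG => B.continuous_avg hT.le hG.1.aestronglyMeasurable hG.2
  exact (c (hF.mul (Good.coord k))).sub ((c hF).mul (c (Good.coord k)))

/-! ### covariance bounds -/

theorem var_le (hT : 0 < T) (θ : E n) {f : E n → ℝ} (hf : ContDiff ℝ 1 f)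
    (hg : Vale.Agent.P245.Local.Good f) (hg' : Vale.Agent.P245.Local.Good fun x => ‖fderiv ℝ f x‖) :
    B.varAt T θ f ≤ T⁻¹ * B.avg T θ fun x => ‖fderiv ℝ f x‖ ^ 2 := by
  have h := (B.tilt T hT.le θ).poincare_strong hT
    (by simpa using B.strong_tilt B.strong_zero T hT.le θ) hf hg.2 hg'.2
  simpa only [integral_tilt, varAt] using h

theorem var_inner (hT : 0 < T) (θ u : E n) :
    B.varAt T θ (fun x => ⟪u, x⟫) ≤ T⁻¹ * ‖u‖ ^ 2 := by
  have h := var_le B hT θ (f := fun x => ⟪u, x⟫) (innerSL ℝ u).contDiff (Good.inner u)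
    (by simpa only [norm_fderiv_inner] using Good.const ‖u‖)
  simpa only [norm_fderiv_inner, B.avg_const hT.le] using h

theorem cov_sq_le (hT : 0 < T) (θ : E n) {F : E n → ℝ} (hF : Vale.Agent.P245.Local.Good F) :
    ‖gcl (B.covCoord T θ F)‖ ^ 2 ≤ T⁻¹ * B.varAt T θ F := by
  set u : E n := WithLp.toLp 2 (B.covCoord T θ F) with hu
  set S := ‖gcl (B.covCoord T θ F)‖ ^ 2 with hS
  have hSu : S = ‖u‖ ^ 2 := by rw [hS, gcl, innerSL_apply_norm]
  set M := B.avg T θ F with hM
  set a := B.avg T θ fun x => ⟪u, x⟫ with ha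
  have gF : Vale.Agent.P245.Local.Good fun x => F x - M := hF.sub (Good.const M)
  have gu : Vale.Agent.P245.Local.Good fun x => ⟪u, x⟫ - a := (Good.inner u).sub (Good.const a)
  have e : B.avg T θ (fun x => (F x - M) * (⟪u, x⟫ - a)) = S := by
    have e1 : (fun x => (F x - M) * (⟪u, x⟫ - a)) =
        fun x => (F x * ⟪u, x⟫ - a * F x) - (M * ⟪u, x⟫ - M * a) := by funext x; ring
    rw [e1, B.avg_sub hT.le θ ((hF.mul (Good.inner u)).sub (hF.const_mul a))
      (((Good.inner u).const_mul M).sub (Good.const (M * a))),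
      B.avg_sub hT.le θ (hF.mul (Good.inner u)) (hF.const_mul a),
      B.avg_sub hT.le θ ((Good.inner u).const_mul M) (Good.const (M * a)),
      B.avg_const_mul, B.avg_const_mul, B.avg_const hT.le, ← hM, ← ha,
      show a * M = M * a from mul_comm _ _, sub_self, sub_zero, ha,
      B.avg_mul_inner hT.le θ hF u, B.avg_inner hT.le θ u, hS, norm_gcl_sq, Finset.mul_sum,
      ← Finset.sum_sub_distrib]
    exact Finset.sum_congr rfl fun k _ => by simp only [hu, covCoord, ← hM]; ring
  have h1 := B.avg_cs hT.le θ gF gu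
  rw [e] at h1
  have h2 : B.avg T θ (fun x => (⟪u, x⟫ - a) ^ 2) ≤ T⁻¹ * S := by
    rw [hSu]; exact var_inner B hT θ u
  have hv0 : 0 ≤ B.varAt T θ F :=
    (B.avg_const hT.le θ 0).symm.le.trans
      (B.avg_mono hT.le θ (Good.const 0) gF.sq fun x => sq_nonneg _)
  rcases (sq_nonneg ‖gcl (B.covCoord T θ F)‖).eq_or_lt with h0 | h0
  · rw [hS, ← h0]; positivity
  refine le_of_mul_le_mul_right ?_ h0
  calc S * S = S ^ 2 := (sq S).symm
    _ ≤ B.varAt T θ F * (T⁻¹ * S) := h1.trans (mul_le_mul_of_nonneg_left h2 hv0)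
    _ = _ := by ring

theorem norm_avg_inner (hT : 0 < T) (θ u : E n) :
    ‖gcl (B.covCoord T θ fun x => ⟪u, x⟫)‖ ≤ ‖u‖ / T := by
  refine le_of_pow_le_pow_left₀ two_ne_zero (by positivity) ?_
  refine (cov_sq_le B hT θ (Good.inner u)).trans
    ((mul_le_mul_of_nonneg_left (var_inner B hT θ u) (by positivity)).trans (le_of_eq ?_))
  field_simp

theorem avg_inner_lip (hT : 0 < T) (u y v : E n) :
    |B.avg T (y + v) (fun x => ⟪u, x⟫) - B.avg T y fun x => ⟪u, x⟫| ≤ ‖u‖ / T * ‖v‖ := by
  have h := Convex.norm_image_sub_le_of_norm_hasFDerivWithin_le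
    (f := fun η => B.avg T η fun x => ⟪u, x⟫) (C := ‖u‖ / T)
    (fun η _ => (hasFDerivAt_avg_theta B hT η (Good.inner u)).hasFDerivWithinAt)
    (fun η _ => norm_avg_inner B hT η u) convex_univ (mem_univ y) (mem_univ (y + v))
  simpa [Real.norm_eq_abs] using h

theorem breg_le (hT : 0 < T) (y v : E n) : B.breg T y v ≤ ‖v‖ ^ 2 / (2 * T) := by
  have h2 : 0 < T / 2 := half_pos hT
  set B' := B.tilt (T / 2) h2.le 0
  have hs : B'.Strong (T / 2) := by
    simpa using B.strong_tilt B.strong_zero (T / 2) h2.le 0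
  have h := B'.Lam_add_le h2 hs h2 y v
  have eZ : ∀ η, B'.Z (T / 2) η = B.Z T η / B.Z (T / 2) 0 := fun η => by
    rw [B.Z_tilt (T / 2) h2.le 0 (T / 2) η, zero_add, add_halves]
  have eA : B'.avg (T / 2) y (fun x => ⟪v, x⟫) = B.avg T y fun x => ⟪v, x⟫ := by
    rw [B.avg_tilt (T / 2) h2.le 0 (T / 2) y, zero_add, add_halves]
  have hp := B.Z_pos h2.le (0 : E n)
  rw [eA, Lam, Lam, eZ, eZ, log_div (B.Z_pos hT.le _).ne' hp.ne',
    log_div (B.Z_pos hT.le _).ne' hp.ne', add_halves] at h
  rw [breg, B.inner_mean hT.le, Lam, Lam]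
  have e : T⁻¹ * ‖v‖ ^ 2 / 2 = ‖v‖ ^ 2 / (2 * T) := by field_simp
  linarith

theorem covM_diff_sq (hT : 0 < T) (y v : E n) :
    ∑ i, ∑ j, (B.covM T (y + v) i j - B.covM T y i j) ^ 2 ≤ 4 * ‖v‖ ^ 2 / T ^ 3 := by
  set Δ := fun i j => B.covM T (y + v) i j - B.covM T y i j
  set P := ∑ i, ∑ j, Δ i j ^ 2 with hP
  set φ := fun r : ℝ => ∑ i, ∑ j, Δ i j * B.covM T (y + r • v) i j with hφ
  have hd : ∀ r, HasDerivAt φ
      (∑ i, ∑ j, Δ i j * ∑ k, v k * B.thirdM T (y + r • v) k i j) r := by
    intro r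
    refine HasDerivAt.fun_sum fun i _ => HasDerivAt.fun_sum fun j _ => ?_
    have h := (B.jok_covJ i j).deriv (fun _ => T) (fun s => y + s • v) r 0 v
      (hasDerivAt_const r T) (hasDerivAt_line y v r) hT
    rw [zero_mul, zero_add] at h
    exact h.const_mul (Δ i j)
  obtain ⟨r, -, hr⟩ := exists_hasDerivAt_eq_slope φ _ zero_lt_one
    (continuousOn_of_forall_continuousAt fun r _ => (hd r).continuousAt) fun r _ => hd r
  have hPeq : P = ∑ i, ∑ j, Δ i j * ∑ k, v k * B.thirdM T (y + r • v) k i j := by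
    rw [hr]
    simp only [hφ, one_smul, zero_smul, add_zero, sub_zero, div_one, ← Finset.sum_sub_distrib,
      ← mul_sub, hP, Δ, pow_two]
  set θ := y + r • v
  have hA : ∀ w : Fin n → ℝ, w ⬝ᵥ (B.covM T θ *ᵥ w) ≤ T⁻¹ * (w ⬝ᵥ w) := fun w => by
    have h := var_inner B hT θ (WithLp.toLp 2 w)
    rw [B.varAt_inner_eq hT.le, EuclideanSpace.norm_sq_eq] at h
    simpa [dotProduct, Real.norm_eq_abs, sq_abs, pow_two] using h
  have h3 := B.third_le hT θ (R := T⁻¹) (by positivity) hA (fun c => v c)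
  have hs : √(T⁻¹ / T) = T⁻¹ := by
    rw [div_eq_mul_inv, Real.sqrt_mul_self (by positivity)]
  have hv2 : (fun c => v c) ⬝ᵥ (fun c => v c) = ‖v‖ ^ 2 := by
    rw [EuclideanSpace.norm_sq_eq]
    simp [dotProduct, pow_two]
  have hQ : ∑ i, ∑ j, (∑ k, v k * B.thirdM T θ k i j) ^ 2 ≤ 4 * ‖v‖ ^ 2 / T ^ 3 := by
    have e : ∀ i j k, B.thirdM T θ k i j = B.thirdM T θ i k j := fun i j k => by
      rw [B.thirdM_eq hT.le, B.thirdM_eq hT.le]; congr 1; funext x; ring
    simp only [e]
    refine h3.trans ?_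
    rw [hs]
    calc 4 * ((fun c => v c) ⬝ᵥ (B.covM T θ *ᵥ fun c => v c)) * T⁻¹ * T⁻¹
        ≤ 4 * (T⁻¹ * ‖v‖ ^ 2) * T⁻¹ * T⁻¹ := by
          gcongr
          exact (hA _).trans_eq (by rw [hv2])
      _ = _ := by field_simp
  have hle : P ≤ ∑ i, ∑ j, (Δ i j ^ 2 / 2 + (∑ k, v k * B.thirdM T θ k i j) ^ 2 / 2) := by
    rw [hPeq]
    exact Finset.sum_le_sum fun i _ => Finset.sum_le_sum fun j _ => by
      nlinarith [sq_nonneg (Δ i j - ∑ k, v k * B.thirdM T θ k i j)]
  simp only [Finset.sum_add_distrib, ← Finset.sum_div, ← hP] at hle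
  linarith

/-! ### the operators -/

/-- `C¹`, bounded with bounded derivative -/
structure Reg (f : E n → ℝ) : Prop where
  smooth : ContDiff ℝ 1 f
  bd : ∃ C : ℝ, ∀ x, |f x| ≤ C ∧ ‖fderiv ℝ f x‖ ≤ C

variable {f : E n → ℝ}

theorem Reg.good (hf : Reg f) : Vale.Agent.P245.Local.Good f := by
  obtain ⟨C, hC⟩ := hf.bd
  exact Good.bdd hf.smooth.continuous fun x => (hC x).1

theorem Reg.good' (hf : Reg f) : Vale.Agent.P245.Local.Good fun x => ‖fderiv ℝ f x‖ := by
  obtain ⟨C, hC⟩ := hf.bd
  exact Good.bdd (C := C) (hf.smooth.continuous_fderiv (by norm_num)).norm fun x => by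
    rw [abs_norm]; exact (hC x).2

theorem continuous_locMap {T : ℝ} : Continuous fun p : E n × E n => locMap T p := by
  unfold locMap; fun_prop

theorem continuous_sec {P : Type*} [TopologicalSpace P] {F : P → E n → ℝ}
    (hF : Continuous fun a : P × E n => F a.1 a.2) (v : P) : Continuous (F v) :=
  hF.comp (Continuous.prodMk_right v)

theorem continuous_Nop_param {P : Type*} [TopologicalSpace P] [FirstCountableTopology P] {T : ℝ}
    {F : P → E n → ℝ} (hF : Continuous fun a : P × E n => F a.1 a.2) {C : P → ℝ}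
    (hC : Continuous C) (hb : ∀ a x, |F a x| ≤ C a) :
    Continuous fun a : P × E n => Nop T (F a.1) a.2 := by
  refine continuous_iff_continuousAt.2 fun a₀ => ?_
  unfold Nop
  refine continuousAt_of_dominated (bound := fun _ => C a₀.1 + 1)
    (.of_forall fun a => Continuous.aestronglyMeasurable ?_) ?_ (integrable_const _)
    (.of_forall fun w => Continuous.continuousAt ?_)
  · exact hF.comp (continuous_const.prodMk (continuous_locMap.comp
      (continuous_const.prodMk continuous_id)))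
  · filter_upwards [(hC.comp continuous_fst).continuousAt.eventually_lt
      (continuousAt_const (y := C a₀.1 + 1)) (by simp)] with a ha
    exact .of_forall fun w => (hb _ _).trans ha.le
  · exact hF.comp (continuous_fst.prodMk (continuous_locMap.comp
      (continuous_snd.prodMk continuous_const)))

theorem continuous_num_param {P : Type*} [TopologicalSpace P] [FirstCountableTopology P] {T : ℝ}
    (hT : 0 ≤ T) {F : P → E n → ℝ} (hF : Continuous fun a : P × E n => F a.1 a.2) {C : P → ℝ}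
    (hC : Continuous C) (hb : ∀ a x, |F a x| ≤ C a) {G : E n → ℝ}
    (hG : Vale.Agent.P245.Local.Good G) :
    Continuous fun a : P × E n => B.num T a.2 fun x => F a.1 x * G x := by
  obtain ⟨K, k, hK, -, hK'⟩ := hG.2.norm_le
  refine continuous_iff_continuousAt.2 fun a₀ => ?_
  unfold num
  refine continuousAt_of_dominated
    (bound := fun x => (|C a₀.1| + 1) * K * exp ((‖a₀.2‖ + 1 + k) * ‖x‖))
    (.of_forall fun a => Continuous.aestronglyMeasurable ?_) ?_
    ((B.integrable_exp_norm _).const_mul _) (.of_forall fun x => Continuous.continuousAt ?_)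
  · exact (by unfold W; fun_prop : Continuous fun x => W T a.2 x).mul
      ((hF.comp (continuous_const.prodMk continuous_id)).mul hG.1)
  · filter_upwards [(hC.comp continuous_fst).abs.continuousAt.eventually_lt
      (continuousAt_const (y := |C a₀.1| + 1)) (by simp),
      continuous_snd.norm.continuousAt.eventually_lt
      (continuousAt_const (y := ‖a₀.2‖ + 1)) (by simp)] with a ha ha'
    refine .of_forall fun x => ?_
    rw [norm_mul, norm_mul, Real.norm_eq_abs, Real.norm_eq_abs, Real.norm_eq_abs,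
      abs_of_pos (W_pos T _ x)]
    calc W T a.2 x * (|F a.1 x| * |G x|)
        ≤ exp ((‖a₀.2‖ + 1) * ‖x‖) * ((|C a₀.1| + 1) * (K * exp (k * ‖x‖))) := by
          refine mul_le_mul (W_le hT ha'.le x) (mul_le_mul (((hb _ _).trans (le_abs_self _)).trans
            ha.le) (hK' x) (abs_nonneg _) (by positivity)) (by positivity) (exp_pos _).le
      _ = _ := by rw [show (‖a₀.2‖ + 1 + k) * ‖x‖ = (‖a₀.2‖ + 1) * ‖x‖ + k * ‖x‖ by ring,
            exp_add]; ring
  · exact (by unfold W; fun_prop : Continuous fun a : P × E n => W T a.2 x).mul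
      ((hF.comp (continuous_fst.prodMk continuous_const)).mul continuous_const)

theorem continuous_avg_param {P : Type*} [TopologicalSpace P] [FirstCountableTopology P] {T : ℝ}
    (hT : 0 ≤ T) {F : P → E n → ℝ} (hF : Continuous fun a : P × E n => F a.1 a.2) {C : P → ℝ}
    (hC : Continuous C) (hb : ∀ a x, |F a x| ≤ C a) {G : E n → ℝ}
    (hG : Vale.Agent.P245.Local.Good G) :
    Continuous fun a : P × E n => B.avg T a.2 fun x => F a.1 x * G x :=
  (continuous_num_param B hT hF hC hb hG).div ((B.continuous_Z hT).comp continuous_snd)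
    fun a => (B.Z_pos hT a.2).ne'

theorem abs_Nop_le {C : ℝ} (hf : ∀ x, |f x| ≤ C) (z : E n) : |Nop T f z| ≤ C := by
  have h := norm_integral_le_of_norm_le_const (μ := gam n) (f := fun w => f (locMap T (z, w)))
    (C := C) (.of_forall fun w => hf _)
  simpa [Nop, Real.norm_eq_abs] using h

theorem continuous_Nop {C : ℝ} (hc : Continuous f) (hf : ∀ x, |f x| ≤ C) :
    Continuous (Nop T f) :=
  (continuous_Nop_param (P := Unit) (F := fun _ => f) (hc.comp continuous_snd)
    continuous_const (fun _ => hf)).comp (Continuous.prodMk_right ())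

theorem integrable_locMap {C : ℝ} (hc : Continuous f) (hf : ∀ x, |f x| ≤ C) (z : E n) :
    Integrable (fun w => f (locMap T (z, w))) (gam n) :=
  .of_bound (hc.comp (by unfold locMap; fun_prop)).aestronglyMeasurable C
    (.of_forall fun w => hf _)

theorem sq_Nop_le {C : ℝ} (hc : Continuous f) (hf : ∀ x, |f x| ≤ C) (z : E n) :
    Nop T f z ^ 2 ≤ Nop T (fun x => f x ^ 2) z := by
  set m := Nop T f z with hm
  have i1 := integrable_locMap (T := T) hc hf z
  have i2 := integrable_locMap (T := T) (f := fun x => f x ^ 2) (hc.pow 2) (C := C ^ 2)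
    (fun x => by rw [abs_pow]; exact pow_le_pow_left₀ (abs_nonneg _) (hf x) 2) z
  have h : 0 ≤ ∫ w, (f (locMap T (z, w)) ^ 2 - 2 * m * f (locMap T (z, w))) + m ^ 2 ∂gam n :=
    integral_nonneg fun w => by
      show (0 : ℝ) ≤ _
      nlinarith [sq_nonneg (f (locMap T (z, w)) - m)]
  have i3 : Integrable (fun w => f (locMap T (z, w)) ^ 2 - 2 * m * f (locMap T (z, w))) (gam n) :=
    i2.sub (i1.const_mul _)
  rw [integral_add i3 (integrable_const _),
    integral_sub i2 (i1.const_mul _), integral_const_mul, integral_const, probReal_univ,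
    one_smul] at h
  show m ^ 2 ≤ _
  simp only [Nop] at hm ⊢
  rw [← hm] at h
  nlinarith

theorem sum_Nop_sq {ι : Type*} [Fintype ι] {g : ι → E n → ℝ} {C : ι → ℝ}
    (hc : ∀ i, Continuous (g i)) (hb : ∀ i x, |g i x| ≤ C i) {S : ℝ}
    (hS : ∀ x, ∑ i, g i x ^ 2 ≤ S) (z : E n) : ∑ i, Nop T (g i) z ^ 2 ≤ S := by
  have i2 : ∀ i, Integrable (fun w => g i (locMap T (z, w)) ^ 2) (gam n) := fun i =>
    integrable_locMap (f := fun x => g i x ^ 2) ((hc i).pow 2) (C := C i ^ 2)
      (fun x => by rw [abs_pow]; exact pow_le_pow_left₀ (abs_nonneg _) (hb i x) 2) z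
  refine (Finset.sum_le_sum fun i _ => sq_Nop_le (hc i) (hb i) z).trans ?_
  simp only [Nop]
  rw [← integral_finsetSum _ fun i _ => i2 i]
  refine (integral_mono (integrable_finsetSum _ fun i _ => i2 i) (integrable_const S)
    fun w => hS _).trans (le_of_eq ?_)
  simp

theorem hasFDerivAt_Nop (hf : Reg f) (z : E n) :
    HasFDerivAt (Nop T f) (∫ w, T • fderiv ℝ f (locMap T (z, w)) ∂gam n) z := by
  obtain ⟨C, hC⟩ := hf.bd
  have hc := hf.smooth.continuous
  have hc' := hf.smooth.continuous_fderiv (by norm_num : (1 : WithTop ℕ∞) ≠ 0)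
  unfold Nop
  refine hasFDerivAt_integral_of_dominated_of_fderiv_le
    (F' := fun x w => T • fderiv ℝ f (locMap T (x, w))) (bound := fun _ => |T| * C) univ_mem
    (.of_forall fun x => (hc.comp (by unfold locMap; fun_prop)).aestronglyMeasurable)
    (integrable_locMap hc (fun x => (hC x).1) z)
    ((hc'.comp (by unfold locMap; fun_prop)).const_smul T).aestronglyMeasurable
    (.of_forall fun w x _ => ?_) (integrable_const _) (.of_forall fun w x _ => ?_)
  · rw [norm_smul, Real.norm_eq_abs]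
    exact mul_le_mul_of_nonneg_left (hC _).2 (abs_nonneg T)
  · have h1 : HasFDerivAt (fun y : E n => locMap T (y, w)) (T • ContinuousLinearMap.id ℝ (E n)) x :=
      ((hasFDerivAt_id x).const_smul T).add_const (√T • w)
    exact (((hf.smooth.differentiable (by norm_num)) _).hasFDerivAt.comp x h1).congr_fderiv
      (by ext u; simp)

theorem Nop_deriv_apply (hf : Reg f) (z u : E n) :
    fderiv ℝ (Nop T f) z u = T * Nop T (fun x => fderiv ℝ f x u) z := by
  obtain ⟨C, hC⟩ := hf.bd
  have hi : Integrable (fun w => T • fderiv ℝ f (locMap T (z, w))) (gam n) :=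
    Integrable.of_bound (((hf.smooth.continuous_fderiv (by norm_num)).comp
      (continuous_locMap.comp (continuous_const.prodMk continuous_id))).const_smul T
      ).aestronglyMeasurable (|T| * C) (.of_forall fun w => by
        rw [norm_smul, Real.norm_eq_abs]
        exact mul_le_mul_of_nonneg_left (hC _).2 (abs_nonneg T))
  rw [(hasFDerivAt_Nop hf z).fderiv, ContinuousLinearMap.integral_apply hi]
  simp [Nop, integral_const_mul]

/-- The derivatives of a family under smoothing. -/
theorem sum_Nop_deriv {ι : Type*} [Fintype ι] {g : ι → E n → ℝ} (hg : ∀ i, Reg (g i)) {S : ℝ}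
    (hS : ∀ x, ∑ i, ‖fderiv ℝ (g i) x‖ ^ 2 ≤ S) (z : E n) :
    ∑ i, ‖fderiv ℝ (Nop T (g i)) z‖ ^ 2 ≤ T ^ 2 * S := by
  simp only [norm_sq_eq, Nop_deriv_apply (hg _), mul_pow, ← Finset.mul_sum]
  refine mul_le_mul_of_nonneg_left ?_ (sq_nonneg T)
  choose C hC using fun i => (hg i).bd
  have := sum_Nop_sq (T := T) (g := fun (p : ι × Fin n) x => fderiv ℝ (g p.1) x (eb p.2))
    (C := fun p => C p.1)
    (fun p => ((hg p.1).smooth.continuous_fderiv (by norm_num)).clm_apply continuous_const)
    (fun p x => by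
      have h1 := (fderiv ℝ (g p.1) x).le_opNorm (eb p.2)
      rw [show ‖(eb p.2 : E n)‖ = 1 by simp [eb], mul_one, Real.norm_eq_abs] at h1
      exact h1.trans (hC _ x).2)
    (S := S) (fun x => by
      rw [Fintype.sum_prod_type]; simpa only [norm_sq_eq] using hS x) z
  rwa [Fintype.sum_prod_type] at this

theorem Reg.Nop (hT : 0 ≤ T) (hf : Reg f) : Reg (Nop T f) := by
  obtain ⟨C, hC⟩ := hf.bd
  have hC0 : 0 ≤ C := (norm_nonneg _).trans (hC 0).2
  refine ⟨contDiff_one_iff_fderiv.2 ⟨fun z => (hasFDerivAt_Nop hf z).differentiableAt, ?_⟩,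
    C + T * C, fun z => ⟨(abs_Nop_le (fun x => (hC x).1) z).trans
      (le_add_of_nonneg_right (by positivity)), ?_⟩⟩
  · rw [show fderiv ℝ (Polylog.Nop T f) = fun z => gcl fun j =>
      T * Polylog.Nop T (fun x => fderiv ℝ f x (eb j)) z from funext fun z => by
        conv_lhs => rw [eq_gcl (fderiv ℝ (Polylog.Nop T f) z)]
        simp only [Nop_deriv_apply hf]]
    refine continuous_gcl fun j => continuous_const.mul (continuous_Nop (C := C)
      ((hf.smooth.continuous_fderiv (by norm_num)).clm_apply continuous_const) fun x => ?_)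
    have h1 := (fderiv ℝ f x).le_opNorm (eb j)
    rw [show ‖(eb j : E n)‖ = 1 by simp [eb], mul_one, Real.norm_eq_abs] at h1
    exact h1.trans (hC x).2
  · have h := sum_Nop_deriv (T := T) (g := fun _ : Unit => f) (fun _ => hf) (S := C ^ 2)
      (fun x => by simpa using pow_le_pow_left₀ (norm_nonneg _) (hC x).2 2) z
    simp only [Finset.univ_unique, Finset.sum_singleton, ← mul_pow] at h
    have := le_of_pow_le_pow_left₀ two_ne_zero (by positivity) h
    linarith

theorem fderiv_Pop (hT : 0 < T) (hf : Reg f) (x : E n) :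
    HasFDerivAt (Pop B T f) (gcl (B.covCoord T x (Nop T f))) x :=
  hasFDerivAt_avg_theta B hT x (hf.Nop hT.le).good

theorem pop_grad {ι : Type*} [Fintype ι] (hT : 0 < T) {g : ι → E n → ℝ} (hg : ∀ i, Reg (g i))
    {S : ℝ} (hS : ∀ x, ∑ i, ‖fderiv ℝ (g i) x‖ ^ 2 ≤ S) (x : E n) :
    ∑ i, ‖fderiv ℝ (Pop B T (g i)) x‖ ^ 2 ≤ S := by
  have hN := fun i => (hg i).Nop hT.le
  calc ∑ i, ‖fderiv ℝ (Pop B T (g i)) x‖ ^ 2
      ≤ ∑ i, T⁻¹ * (T⁻¹ * B.avg T x fun z => ‖fderiv ℝ (Nop T (g i)) z‖ ^ 2) := by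
        refine Finset.sum_le_sum fun i _ => ?_
        rw [(fderiv_Pop B hT (hg i) x).fderiv]
        exact (cov_sq_le B hT x (hN i).good).trans (mul_le_mul_of_nonneg_left
          (var_le B hT x (hN i).smooth (hN i).good (hN i).good') (by positivity))
    _ = T⁻¹ * T⁻¹ * B.avg T x fun z => ∑ i, ‖fderiv ℝ (Nop T (g i)) z‖ ^ 2 := by
        rw [B.avg_sum _ hT.le x fun i _ => (hN i).good'.sq, Finset.mul_sum]
        exact Finset.sum_congr rfl fun i _ => by ring
    _ ≤ T⁻¹ * T⁻¹ * B.avg T x fun _ => T ^ 2 * S :=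
        mul_le_mul_of_nonneg_left (B.avg_mono hT.le x (Good.sum _ fun i _ => (hN i).good'.sq)
          (Good.const _) fun z => sum_Nop_deriv hg hS z) (by positivity)
    _ = S := by rw [B.avg_const hT.le]; field_simp

theorem pop_sq {ι : Type*} [Fintype ι] (hT : 0 < T) {g : ι → E n → ℝ} (hg : ∀ i, Reg (g i))
    {S : ℝ} (hS : ∀ x, ∑ i, g i x ^ 2 ≤ S) (x : E n) : ∑ i, Pop B T (g i) x ^ 2 ≤ S := by
  have hN := fun i => (hg i).Nop hT.le
  choose C hC using fun i => (hg i).bd
  calc ∑ i, Pop B T (g i) x ^ 2 ≤ ∑ i, B.avg T x fun z => Nop T (g i) z ^ 2 :=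
        Finset.sum_le_sum fun i _ => B.sq_avg_le hT.le x (hN i).good
    _ = B.avg T x fun z => ∑ i, Nop T (g i) z ^ 2 :=
        (B.avg_sum _ hT.le x fun i _ => (hN i).good.sq).symm
    _ ≤ B.avg T x fun _ => S := B.avg_mono hT.le x (Good.sum _ fun i _ => (hN i).good.sq)
        (Good.const S) fun z => sum_Nop_sq (fun i => (hg i).smooth.continuous)
          (fun i x => (hC i x).1) hS z
    _ = S := B.avg_const hT.le x S

theorem Reg.Pop (hT : 0 < T) (hf : Reg f) : Reg (Pop B T f) := by
  obtain ⟨C, hC⟩ := hf.bd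
  have hC0 : 0 ≤ C := (norm_nonneg _).trans (hC 0).2
  refine ⟨contDiff_avg_theta B hT (hf.Nop hT.le).good, C, fun x => ⟨?_, ?_⟩⟩
  · refine abs_le_of_sq_le_sq ?_ hC0
    simpa using pop_sq B hT (g := fun _ : Unit => f) (fun _ => hf) (S := C ^ 2)
      (fun z => by simpa using sq_le_sq' (abs_le.1 (hC z).1).1 (abs_le.1 (hC z).1).2) x
  · refine le_of_pow_le_pow_left₀ two_ne_zero hC0 ?_
    simpa using pop_grad B hT (g := fun _ : Unit => f) (fun _ => hf) (S := C ^ 2)
      (fun z => by simpa using pow_le_pow_left₀ (norm_nonneg _) (hC z).2 2) x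

theorem Pop_lin {ι : Type*} [Fintype ι] (hT : 0 < T) {g : ι → E n → ℝ} (hg : ∀ i, Reg (g i))
    (e : ι → ℝ) :
    Pop B T (fun y => ∑ i, e i * g i y) = fun x => ∑ i, e i * Pop B T (g i) x := by
  choose C hC using fun i => (hg i).bd
  have hN : Nop T (fun y => ∑ i, e i * g i y) = fun z => ∑ i, e i * Nop T (g i) z := by
    funext z
    simp only [Nop]
    rw [integral_finsetSum _ fun i _ =>
      ((integrable_locMap (hg i).smooth.continuous (fun x => (hC i x).1) z).const_mul (e i))]
    simp only [integral_const_mul]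
  funext x
  show B.avg T x (Nop T fun y => ∑ i, e i * g i y) = _
  rw [hN, B.avg_sum _ hT.le x fun i _ => ((hg i).Nop hT.le).good.const_mul _]
  exact Finset.sum_congr rfl fun i _ => B.avg_const_mul T x _ _

/-! ### the iterates -/

theorem iter_reg (hT : 0 < T) (hf : Reg f) : ∀ k, Reg ((Polylog.Pop B T)^[k] f)
  | 0 => hf
  | k + 1 => by rw [Function.iterate_succ_apply']; exact (iter_reg hT hf k).Pop B hT

theorem iter_grad {ι : Type*} [Fintype ι] (hT : 0 < T) {g : ι → E n → ℝ} (hg : ∀ i, Reg (g i))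
    {S : ℝ} (hS : ∀ x, ∑ i, ‖fderiv ℝ (g i) x‖ ^ 2 ≤ S) :
    ∀ k x, ∑ i, ‖fderiv ℝ ((Polylog.Pop B T)^[k] (g i)) x‖ ^ 2 ≤ S
  | 0, x => hS x
  | k + 1, x => by
    simp only [Function.iterate_succ_apply']
    exact pop_grad B hT (fun i => iter_reg B hT (hg i) k) (iter_grad hT hg hS k) x

theorem iter_sq {ι : Type*} [Fintype ι] (hT : 0 < T) {g : ι → E n → ℝ} (hg : ∀ i, Reg (g i))
    {S : ℝ} (hS : ∀ x, ∑ i, g i x ^ 2 ≤ S) :
    ∀ k x, ∑ i, ((Polylog.Pop B T)^[k] (g i)) x ^ 2 ≤ S
  | 0, x => hS x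
  | k + 1, x => by
    simp only [Function.iterate_succ_apply']
    exact pop_sq B hT (fun i => iter_reg B hT (hg i) k) (iter_sq hT hg hS k) x

theorem iter_lin {ι : Type*} [Fintype ι] (hT : 0 < T) {g : ι → E n → ℝ} (hg : ∀ i, Reg (g i))
    (e : ι → ℝ) : ∀ k, (Polylog.Pop B T)^[k] (fun y => ∑ i, e i * g i y) =
      fun x => ∑ i, e i * ((Polylog.Pop B T)^[k] (g i)) x
  | 0 => rfl
  | k + 1 => by
    simp only [Function.iterate_succ_apply', iter_lin hT hg e k]
    exact Pop_lin B hT (fun i => iter_reg B hT (hg i) k) e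

/-! ### the base functions -/

theorem sum_gvec_mul (hT : 0 < T) (v y : E n) (e : Fin n → ℝ) :
    ∑ i, e i * gvec B T v i y =
      B.avg T (y + v) (fun x => ⟪(WithLp.toLp 2 e : E n), x⟫) -
        B.avg T y fun x => ⟪(WithLp.toLp 2 e : E n), x⟫ := by
  simp only [B.avg_inner hT.le, gvec, mul_sub, Finset.sum_sub_distrib]

theorem gvec_sq (hT : 0 < T) (v y : E n) : ∑ i, gvec B T v i y ^ 2 ≤ ‖v‖ ^ 2 / T ^ 2 := by
  set u : E n := WithLp.toLp 2 fun i => gvec B T v i y
  have hS : ∑ i, gvec B T v i y ^ 2 = ‖u‖ ^ 2 := by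
    simp only [u, EuclideanSpace.norm_sq_eq, Real.norm_eq_abs, sq_abs]
  have h := (le_abs_self _).trans (avg_inner_lip B hT u y v)
  rw [← sum_gvec_mul B hT v y fun i => gvec B T v i y] at h
  simp only [← pow_two] at h
  rw [hS] at h ⊢
  have e : ‖v‖ ^ 2 / T ^ 2 = (‖v‖ / T) ^ 2 := (div_pow _ _ _).symm
  have e' : ‖u‖ / T * ‖v‖ = ‖u‖ * (‖v‖ / T) := by ring
  nlinarith [sq_nonneg (‖u‖ - ‖v‖ / T)]

theorem abs_gvec_le (hT : 0 < T) (v : E n) (i : Fin n) (y : E n) :
    |gvec B T v i y| ≤ ‖v‖ / T := by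
  refine abs_le_of_sq_le_sq ?_ (by positivity)
  rw [div_pow]
  exact (Finset.single_le_sum (f := fun i => gvec B T v i y ^ 2) (fun j _ => sq_nonneg _)
    (Finset.mem_univ i)).trans (gvec_sq B hT v y)

theorem hasFDerivAt_gvec (hT : 0 < T) (v : E n) (i : Fin n) (y : E n) :
    HasFDerivAt (gvec B T v i)
      (gcl (B.covCoord T (y + v) fun x => x i) - gcl (B.covCoord T y fun x => x i)) y :=
  ((hasFDerivAt_comp_add_right v).2 (hasFDerivAt_avg_theta B hT (y + v) (Good.coord i))).sub
    (hasFDerivAt_avg_theta B hT y (Good.coord i))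

theorem gvec_grad (hT : 0 < T) (v y : E n) :
    ∑ i, ‖fderiv ℝ (gvec B T v i) y‖ ^ 2 ≤ 4 * ‖v‖ ^ 2 / T ^ 3 := by
  refine le_of_eq_of_le (Finset.sum_congr rfl fun i _ => ?_) (covM_diff_sq B hT y v)
  rw [norm_sq_eq, (hasFDerivAt_gvec B hT v i y).fderiv]
  refine Finset.sum_congr rfl fun j _ => ?_
  simp [gcl_apply, eb, covCoord, covM_apply]

theorem reg_gvec (hT : 0 < T) (v : E n) (i : Fin n) : Reg (gvec B T v i) := by
  refine ⟨((contDiff_avg_theta B hT (Good.coord i)).comp (contDiff_id.add contDiff_const)).sub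
    (contDiff_avg_theta B hT (Good.coord i)), ‖v‖ / T + √(4 * ‖v‖ ^ 2 / T ^ 3), fun y => ?_⟩
  have hs := Real.sqrt_nonneg (4 * ‖v‖ ^ 2 / T ^ 3)
  have hd : (0 : ℝ) ≤ ‖v‖ / T := by positivity
  refine ⟨(abs_gvec_le B hT v i y).trans (le_add_of_nonneg_right hs), ?_⟩
  refine le_trans ?_ (le_add_of_nonneg_left hd)
  refine Real.le_sqrt_of_sq_le ?_
  exact (Finset.single_le_sum (f := fun i => ‖fderiv ℝ (gvec B T v i) y‖ ^ 2)
    (fun j _ => sq_nonneg _) (Finset.mem_univ i)).trans (gvec_grad B hT v y)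

theorem continuous_breg (hT : 0 < T) : Continuous fun a : E n × E n => B.breg T a.2 a.1 := by
  have hL := B.continuous_Lam hT.le
  have hc : ∀ i : Fin n, Continuous fun y => B.avg T y fun x => x i := fun i =>
    B.continuous_avg hT.le (Good.coord i).1.aestronglyMeasurable (Good.coord i).2
  simp only [breg, B.inner_mean hT.le, B.avg_inner hT.le]
  fun_prop

theorem continuous_gvec (hT : 0 < T) (i : Fin n) :
    Continuous fun a : E n × E n => gvec B T a.1 i a.2 := by
  have hc := B.continuous_avg hT.le (Good.coord i).1.aestronglyMeasurable (Good.coord i).2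
  exact (hc.comp (continuous_snd.add continuous_fst)).sub (hc.comp continuous_snd)

theorem phi_bound (hT : 0 < T) : ∀ k,
    (Continuous fun a : E n × E n => Phi B T k a.1 a.2) ∧
      ∀ v x, 0 ≤ Phi B T k v x ∧ Phi B T k v x ≤ ‖v‖ ^ 2 / (2 * T)
  | 0 => ⟨continuous_breg B hT, fun v x => ⟨B.breg_nonneg hT.le x v, breg_le B hT x v⟩⟩
  | k + 1 => by
    obtain ⟨hc, hb⟩ := phi_bound hT k
    have e : ∀ v x, Phi B T (k + 1) v x = B.avg T x (Nop T (Phi B T k v)) := fun v x => by
      show ((Polylog.Pop B T)^[k + 1] _) x = _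
      rw [Function.iterate_succ_apply']; rfl
    have habs : ∀ v x, |Phi B T k v x| ≤ ‖v‖ ^ 2 / (2 * T) := fun v x => by
      rw [abs_of_nonneg (hb v x).1]; exact (hb v x).2
    have hN := continuous_Nop_param (T := T) hc (by fun_prop) habs
    constructor
    · simp only [e]
      have := continuous_avg_param B hT.le hN (by fun_prop : Continuous fun v : E n => ‖v‖ ^ 2 / (2 * T))
        (fun v x => abs_Nop_le (habs v) x) (Good.const 1)
      simpa only [mul_one] using this
    · intro v x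
      have g : Vale.Agent.P245.Local.Good (Nop T (Phi B T k v)) :=
        Good.bdd (continuous_sec (F := fun v => Nop T (Phi B T k v)) hN v) fun z => abs_Nop_le (habs v) z
      rw [e]
      constructor
      · exact (B.avg_const hT.le x 0).symm.le.trans (B.avg_mono hT.le x (Good.const 0) g
          fun z => integral_nonneg fun w => (hb v _).1)
      · exact (B.avg_mono hT.le x g (Good.const _)
          fun z => (le_abs_self _).trans (abs_Nop_le (habs v) z)).trans_eq (B.avg_const hT.le x _)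

theorem abs_Gk_le (hT : 0 < T) (k : ℕ) (v : E n) (i : Fin n) (x : E n) :
    |Gk B T k v i x| ≤ ‖v‖ / T := by
  refine abs_le_of_sq_le_sq ?_ (by positivity)
  rw [div_pow]
  exact (Finset.single_le_sum (f := fun i => Gk B T k v i x ^ 2) (fun j _ => sq_nonneg _)
    (Finset.mem_univ i)).trans (iter_sq B hT (reg_gvec B hT v) (gvec_sq B hT v) k x)

theorem Gk_succ (T : ℝ) (k : ℕ) (v : E n) (i : Fin n) :
    Gk B T (k + 1) v i = Polylog.Pop B T (Gk B T k v i) := by
  funext x
  show ((Polylog.Pop B T)^[k + 1] _) x = _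
  rw [Function.iterate_succ_apply']; rfl

theorem continuous_Gk (hT : 0 < T) : ∀ k i, Continuous fun a : E n × E n => Gk B T k a.1 i a.2
  | 0, i => continuous_gvec B hT i
  | k + 1, i => by
    have hN := continuous_Nop_param (T := T) (continuous_Gk hT k i) (by fun_prop)
      fun v x => abs_Gk_le B hT k v i x
    have := continuous_avg_param B hT.le hN (by fun_prop : Continuous fun v : E n => ‖v‖ / T)
      (fun v x => abs_Nop_le (abs_Gk_le B hT k v i) x) (Good.const 1)
    simp only [mul_one] at this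
    simp only [Gk_succ, Polylog.Pop]
    exact this

theorem continuous_Mk (hT : 0 < T) (k : ℕ) :
    Continuous fun a : E n × E n => Mk B T k a.1 a.2 := by
  refine continuous_pi fun i => continuous_pi fun j => ?_
  show Continuous fun a : E n × E n => fderiv ℝ (Gk B T k a.1 i) a.2 (eb j)
  have hc : ∀ {F : E n → ℝ}, Vale.Agent.P245.Local.Good F → Continuous fun y => B.avg T y F :=
    fun hF => B.continuous_avg hT.le hF.1.aestronglyMeasurable hF.2
  rcases k with - | k
  · have e : ∀ v y, fderiv ℝ (Gk B T 0 v i) y (eb j) =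
        B.covM T (y + v) i j - B.covM T y i j := fun v y => by
      show fderiv ℝ (gvec B T v i) y (eb j) = _
      rw [(hasFDerivAt_gvec B hT v i y).fderiv]
      simp [gcl_apply, eb, covCoord, covM_apply]
    have hcov : Continuous fun y => B.covM T y i j :=
      (hc ((Good.coord i).mul (Good.coord j))).sub ((hc (Good.coord i)).mul (hc (Good.coord j)))
    simp only [e]
    exact (hcov.comp (continuous_snd.add continuous_fst)).sub (hcov.comp continuous_snd)
  · have e : ∀ v y, fderiv ℝ (Gk B T (k + 1) v i) y (eb j) =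
        B.covCoord T y (Nop T (Gk B T k v i)) j := fun v y => by
      have hr : Reg (Gk B T k v i) := iter_reg B hT (reg_gvec B hT v i) k
      rw [Gk_succ, (fderiv_Pop B hT hr y).fderiv]
      simp [gcl_apply, eb]
    have hN := continuous_Nop_param (T := T) (continuous_Gk B hT k i) (by fun_prop)
      fun v x => abs_Gk_le B hT k v i x
    have hC : Continuous fun v : E n => ‖v‖ / T := by fun_prop
    have h1 := continuous_avg_param B hT.le hN hC
      (fun v x => abs_Nop_le (abs_Gk_le B hT k v i) x) (Good.coord j)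
    have h2 := continuous_avg_param B hT.le hN hC
      (fun v x => abs_Nop_le (abs_Gk_le B hT k v i) x) (Good.const 1)
    simp only [mul_one] at h2
    simp only [e, covCoord]
    exact h1.sub (h2.mul ((hc (Good.coord j)).comp continuous_snd))

/-- differentiation in a parameter under a weighted integral -/
theorem hasFDerivAt_param {μ : Measure (E n)} {ω : E n → ℝ} (hω : Continuous ω)
    (hωi : Integrable ω μ) {F : E n → E n → ℝ} {G : E n → Fin n → E n → ℝ} {CF K : ℝ} {v : E n}
    (hd : ∀ w z, HasFDerivAt (fun u => F u z) (gcl fun i => G w i z) w)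
    (hFc : ∀ w, Continuous (F w)) (hGc : ∀ i, Continuous (G v i)) (hFb : ∀ z, |F v z| ≤ CF)
    (hGb : ∀ w, ‖w - v‖ < 1 → ∀ z, ‖gcl fun i => G w i z‖ ≤ K) :
    HasFDerivAt (fun w => ∫ z, ω z * F w z ∂μ) (gcl fun i => ∫ z, ω z * G v i z ∂μ) v := by
  have hcg : Continuous fun z => gcl fun i => G v i z := continuous_gcl hGc
  have hK : ∀ z, ‖gcl fun i => G v i z‖ ≤ K := hGb v (by simp)
  have hint : Integrable (fun z => ω z • gcl fun i => G v i z) μ := by
    refine (hωi.norm.mul_const K).mono' (hω.smul hcg).aestronglyMeasurable (.of_forall fun z => ?_)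
    rw [norm_smul]
    exact mul_le_mul_of_nonneg_left (hK z) (norm_nonneg _)
  have h := hasFDerivAt_integral_of_dominated_of_fderiv_le (μ := μ)
    (F := fun w z => ω z * F w z) (F' := fun w z => ω z • gcl fun i => G w i z)
    (bound := fun z => ‖ω z‖ * K) (Metric.ball_mem_nhds v one_pos)
    (.of_forall fun w => (hω.mul (hFc w)).aestronglyMeasurable)
    (hωi.mul_bdd (c := CF) (hFc v).aestronglyMeasurable (.of_forall hFb))
    hint.aestronglyMeasurable
    (.of_forall fun z w hw => by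
      rw [norm_smul]
      exact mul_le_mul_of_nonneg_left (hGb w (mem_ball_iff_norm.1 hw) z) (norm_nonneg _))
    (hωi.norm.mul_const K)
    (.of_forall fun z w _ => (hd w z).const_mul (ω z))
  refine h.congr_fderiv (ContinuousLinearMap.ext fun u => ?_)
  have hi : ∀ i, Integrable (fun z => u i * (ω z * G v i z)) μ := fun i =>
    (hωi.mul_bdd (c := K) (hGc i).aestronglyMeasurable (.of_forall fun z => by
      have h1 := (gcl fun i => G v i z).le_opNorm (eb i)
      rw [show ‖(eb i : E n)‖ = 1 by simp [eb], mul_one] at h1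
      simp [gcl_apply, eb] at h1
      exact h1.trans (hK z))).const_mul (u i)
  rw [ContinuousLinearMap.integral_apply hint, gcl_apply]
  simp only [← integral_const_mul]
  rw [← integral_finsetSum _ fun i _ => hi i]
  congr 1; funext z
  simp only [ContinuousLinearMap.smul_apply, gcl_apply, smul_eq_mul, Finset.mul_sum]
  exact Finset.sum_congr rfl fun i _ => by ring

theorem hasFDerivAt_Phi (hT : 0 < T) : ∀ k (v x : E n),
    HasFDerivAt (fun w => Phi B T k w x) (gcl fun i => Gk B T k v i x) v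
  | 0, v, x => by
    show HasFDerivAt (fun w => B.breg T x w) (gcl fun i => gvec B T v i x) v
    have h1 : HasFDerivAt (fun w => B.Lam T (x + w)) (gcl fun i => B.avg T (x + v) fun z => z i) v :=
      (hasFDerivAt_comp_add_left x).2 (hasFDerivAt_Lam B hT (x + v))
    refine ((h1.sub_const (B.Lam T x)).sub
      ((innerSL ℝ (B.mean T x)).hasFDerivAt)).congr_fderiv (ContinuousLinearMap.ext fun u => ?_)
    simp only [ContinuousLinearMap.sub_apply, innerSL_apply_apply, gcl_apply, B.inner_mean hT.le,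
      B.avg_inner hT.le, gvec, mul_sub, Finset.sum_sub_distrib]
  | k + 1, v, x => by
    obtain ⟨hc, hb⟩ := phi_bound B hT k
    have habs : ∀ v x, |Phi B T k v x| ≤ ‖v‖ ^ 2 / (2 * T) := fun v x => by
      rw [abs_of_nonneg (hb v x).1]; exact (hb v x).2
    have hG : ∀ w z, ‖gcl fun i => Gk B T k w i z‖ ≤ ‖w‖ / T := fun w z => by
      refine le_of_pow_le_pow_left₀ two_ne_zero (by positivity) ?_
      rw [norm_gcl_sq, div_pow]
      exact iter_sq B hT (reg_gvec B hT w) (gvec_sq B hT w) k z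
    have hball : ∀ w : E n, ‖w - v‖ < 1 → ‖w‖ / T ≤ (‖v‖ + 1) / T := fun w hw => by
      gcongr; linarith [norm_sub_norm_le w v]
    have hGkc : ∀ w i, Continuous (Gk B T k w i) := fun w i =>
      continuous_sec (F := fun w => Gk B T k w i) (continuous_Gk B hT k i) w
    have hloc : ∀ z, Continuous fun w : E n => locMap T (z, w) := fun z => by
      unfold locMap; fun_prop
    -- through the smoothing
    have hN : ∀ u z, HasFDerivAt (fun w => Nop T (Phi B T k w) z)
        (gcl fun i => Nop T (Gk B T k u i) z) u := fun u z => by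
      have h := hasFDerivAt_param (μ := gam n) (ω := fun _ => 1) continuous_const
        (integrable_const _) (F := fun w y => Phi B T k w (locMap T (z, y)))
        (G := fun w i y => Gk B T k w i (locMap T (z, y))) (v := u)
        (K := (‖u‖ + 1) / T) (CF := ‖u‖ ^ 2 / (2 * T))
        (fun w y => hasFDerivAt_Phi hT k w (locMap T (z, y)))
        (fun w => (continuous_sec (F := Phi B T k) hc w).comp (hloc z))
        (fun i => (hGkc u i).comp (hloc z)) (fun y => habs u _)
        (fun w hw y => (hG w _).trans (by gcongr; linarith [norm_sub_norm_le w u]))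
      simpa only [one_mul, Nop] using h
    have hNc : Continuous fun a : E n × E n => Nop T (Phi B T k a.1) a.2 :=
      continuous_Nop_param hc (by fun_prop) habs
    have hNb : ∀ w z, ‖gcl fun i => Nop T (Gk B T k w i) z‖ ≤ ‖w‖ / T := fun w z => by
      refine le_of_pow_le_pow_left₀ two_ne_zero (by positivity) ?_
      rw [norm_gcl_sq, div_pow]
      exact sum_Nop_sq (hGkc w) (abs_Gk_le B hT k w) (S := ‖w‖ ^ 2 / T ^ 2)
        (iter_sq B hT (reg_gvec B hT w) (gvec_sq B hT w) k) z
    have h := hasFDerivAt_param (μ := B.μ) (ω := W T x) (by unfold W; fun_prop)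
      (B.integrable_W hT.le x) (F := fun w => Nop T (Phi B T k w))
      (G := fun w i => Nop T (Gk B T k w i)) (v := v) (K := (‖v‖ + 1) / T)
      (CF := ‖v‖ ^ 2 / (2 * T)) hN
      (fun w => continuous_sec (F := fun w => Nop T (Phi B T k w)) hNc w)
      (fun i => continuous_Nop (hGkc v i) (abs_Gk_le B hT k v i))
      (fun z => abs_Nop_le (habs v) z)
      (fun w hw z => (hNb w z).trans (hball w hw))
    have e : (fun w => Phi B T (k + 1) w x) =
        fun w => (B.Z T x)⁻¹ * ∫ z, W T x z * Nop T (Phi B T k w) z ∂B.μ := by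
      funext w
      show ((Polylog.Pop B T)^[k + 1] _) x = _
      rw [Function.iterate_succ_apply', inv_mul_eq_div]; rfl
    rw [e]
    refine (h.const_mul (B.Z T x)⁻¹).congr_fderiv (ContinuousLinearMap.ext fun u => ?_)
    simp only [ContinuousLinearMap.smul_apply, gcl_apply, smul_eq_mul, Finset.mul_sum, Gk_succ,
      Polylog.Pop, avg, num]
    exact Finset.sum_congr rfl fun i _ => by ring

theorem quad_le (hT : 0 < T) (k : ℕ) (v x : E n) (e : Fin n → ℝ) :
    |e ⬝ᵥ (Mk B T k v x *ᵥ e)| ≤ 2 / T * (e ⬝ᵥ e) := by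
  set u : E n := WithLp.toLp 2 e with hu
  set g := fun y => ∑ i, e i * gvec B T v i y with hg
  have hge : g = fun y => B.avg T (y + v) (fun z => ⟪u, z⟫) - B.avg T y fun z => ⟪u, z⟫ :=
    funext fun y => sum_gvec_mul B hT v y e
  have hgd : ∀ y, HasFDerivAt g (gcl (B.covCoord T (y + v) fun z => ⟪u, z⟫) -
      gcl (B.covCoord T y fun z => ⟪u, z⟫)) y := by
    rw [hge]
    exact fun y => ((hasFDerivAt_comp_add_right v).2
      (hasFDerivAt_avg_theta B hT (y + v) (Good.inner u))).sub
      (hasFDerivAt_avg_theta B hT y (Good.inner u))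
  have hgb : ∀ y, ‖fderiv ℝ g y‖ ≤ 2 * ‖u‖ / T := fun y => by
    rw [(hgd y).fderiv]
    refine (norm_sub_le _ _).trans ?_
    have := norm_avg_inner B hT (y + v) u
    have := norm_avg_inner B hT y u
    rw [mul_div_assoc]; linarith
  have hgr : Reg g := by
    refine ⟨?_, ‖u‖ / T * ‖v‖ + 2 * ‖u‖ / T, fun y => ⟨?_, ?_⟩⟩
    · rw [hge]
      exact ((contDiff_avg_theta B hT (Good.inner u)).comp (contDiff_id.add contDiff_const)).sub
        (contDiff_avg_theta B hT (Good.inner u))
    · rw [hge]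
      exact (avg_inner_lip B hT u y v).trans (le_add_of_nonneg_right (by positivity))
    · exact (hgb y).trans (le_add_of_nonneg_left (by positivity))
  have hnorm := iter_grad B hT (g := fun _ : Unit => g) (fun _ => hgr) (S := (2 * ‖u‖ / T) ^ 2)
    (fun y => by simpa using pow_le_pow_left₀ (norm_nonneg _) (hgb y) 2) k x
  simp only [Finset.univ_unique, Finset.sum_singleton] at hnorm
  have hn := le_of_pow_le_pow_left₀ two_ne_zero (by positivity) hnorm
  have hlin : (Polylog.Pop B T)^[k] g = fun y => ∑ i, e i * Gk B T k v i y :=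
    iter_lin B hT (reg_gvec B hT v) e k
  have hGd : ∀ i, DifferentiableAt ℝ (Gk B T k v i) x := fun i =>
    (iter_reg B hT (reg_gvec B hT v i) k).smooth.differentiable (by norm_num) x
  have e1 : e ⬝ᵥ (Mk B T k v x *ᵥ e) = fderiv ℝ ((Polylog.Pop B T)^[k] g) x u := by
    rw [hlin, (HasFDerivAt.fun_sum fun i (_ : i ∈ Finset.univ) =>
      (hGd i).hasFDerivAt.const_mul (e i)).fderiv]
    simp only [ContinuousLinearMap.coe_sum', Finset.sum_apply, ContinuousLinearMap.smul_apply,
      smul_eq_mul, dotProduct, Matrix.mulVec, Mk, Matrix.of_apply]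
    refine Finset.sum_congr rfl fun i _ => congrArg _ ?_
    conv_rhs => rw [eq_gcl (fderiv ℝ (Gk B T k v i) x), gcl_apply]
    exact Finset.sum_congr rfl fun j _ => mul_comm _ _
  have e2 : e ⬝ᵥ e = ‖u‖ ^ 2 := by
    rw [EuclideanSpace.norm_sq_eq]
    simp [hu, dotProduct, pow_two]
  rw [e1, e2]
  refine ((fderiv ℝ _ x).le_opNorm u).trans
    ((mul_le_mul_of_nonneg_right hn (norm_nonneg _)).trans (le_of_eq ?_))
  ring

end GradBound

open GradBound in
theorem grad : GradProp := by
  intro n _ B T hT k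
  refine ⟨(phi_bound B hT k).1, continuous_Gk B hT k, continuous_Mk B hT k, fun v =>
    ⟨fun i => (iter_reg B hT (reg_gvec B hT v i) k).smooth, fun x => ⟨⟨_, hasFDerivAt_Phi B hT k v x,
      fun u => gcl_apply _ u⟩, ((phi_bound B hT k).2 v x).1, ((phi_bound B hT k).2 v x).2,
      iter_sq B hT (reg_gvec B hT v) (gvec_sq B hT v) k x, ?_, quad_le B hT k v x⟩⟩⟩
  have h := iter_grad B hT (reg_gvec B hT v) (gvec_grad B hT v) k x
  simp only [norm_sq_eq] at h
  exact h

end Vale.Agent.P245.Polylog
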