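import Vale.Agent.P245.Polylog.PlanCalc
import Vale.Agent.P245.Polylog.Grad
import Vale.Agent.P245.Local.Window

/-!
# P245: the entropy inequality for entropic plans

With `q = exp (-Wq)` and a plan `π = p k`, the conditional law in `z` is compared with a Gaussian
of covariance `ε (Scov + η)` (Gibbs), and the conditional law in `g`, with potential
`Wq g + (f g + ψ z - ⟪g, z⟫) / ε`, by the Gaussian log-Sobolev inequality.
-/

open MeasureTheory Real Set Matrix
open scoped RealInnerProductSpace ENNReal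

noncomputable section

namespace Vale.Agent.P245.Polylog

open Vale.Agent.P245.Local Vale.Agent.P245.Local.Base

namespace EntropyAux

variable {n : ℕ} (B : Base n) {T : ℝ}

/-- a row of a matrix as a vector -/
def row' (A : Mat n) (i : Fin n) : E n := WithLp.toLp 2 (A i)

theorem inner_row' (A : Mat n) (i : Fin n) (v : E n) : ⟪row' A i, v⟫ = ∑ j, A i j * v j := by
  simp [row', PiLp.inner_apply, mul_comm]

theorem sum_eb (u : E n) : u = ∑ j, u j • eb j := by
  ext i; simp [eb, Pi.single_apply]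

/-! ### the density of `q` -/

theorem exp_neg_Wq (hT : 0 < T) (θ : E n) :
    exp (-Wq B T θ) = (√T ^ n)⁻¹ * (gdens ((√T)⁻¹ • θ) * B.Z T θ) := by
  have hs : 0 < √T := sqrt_pos.2 hT
  have h2p : (0 : ℝ) < 2 * π := by positivity
  have hl : (n : ℝ) / 2 * log (2 * π * T) = log (√T ^ n * √(2 * π) ^ n) := by
    rw [log_mul h2p.ne' hT.ne', log_mul (pow_ne_zero n hs.ne') (by positivity), log_pow, log_pow,
      log_sqrt hT.le, log_sqrt h2p.le]
    ring
  rw [Wq, hl, neg_add, exp_add, neg_sub, exp_sub, Real.exp_neg (log _), exp_log (by positivity), Lam,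
    exp_log (B.Z_pos hT.le θ), gdens, norm_smul, mul_pow, norm_eq_abs, abs_of_pos (inv_pos.2 hs),
    inv_pow, sq_sqrt hT.le, Real.exp_neg, show T⁻¹ * ‖θ‖ ^ 2 / 2 = ‖θ‖ ^ 2 / (2 * T) by field_simp]
  field_simp

theorem continuous_Wq (hT : 0 < T) : Continuous (Wq B T) := by
  have := B.continuous_Lam hT.le
  unfold Wq; fun_prop

theorem qmeas_density (hT : 0 < T) :
    B.qmeas T = volume.withDensity fun θ => ENNReal.ofReal (exp (-Wq B T θ)) := by
  have hs : 0 < √T := sqrt_pos.2 hT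
  have hG : ∀ {F : E n → ℝ≥0∞}, Measurable F →
      ∫⁻ z, F (√T • z) = ENNReal.ofReal (√T ^ n)⁻¹ * ∫⁻ θ, F θ := fun {F} hF => by
    rw [← lintegral_map hF (by fun_prop : Measurable fun z : E n => √T • z),
      Measure.map_addHaar_smul (volume : Measure (E n)) hs.ne', lintegral_smul_measure,
      finrank_euclideanSpace_fin, abs_of_pos (by positivity), smul_eq_mul]
  ext s hs'
  rw [withDensity_apply _ hs', ← lintegral_indicator hs', ← lintegral_indicator_one hs',
    B.lintegral_qmeas hT.le (measurable_one.indicator hs'), lintegral_gam]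
  have hm : Measurable fun θ : E n =>
      ENNReal.ofReal (gdens ((√T)⁻¹ • θ) * B.Z T θ) * s.indicator 1 θ :=
    (((continuous_gdens.comp (by fun_prop : Continuous fun θ : E n => (√T)⁻¹ • θ)).mul
      (B.continuous_Z hT.le)).measurable.ennreal_ofReal).mul (measurable_one.indicator hs')
  have e1 : ∀ z : E n, ENNReal.ofReal (gdens z) *
      (ENNReal.ofReal (B.Z T (√T • z)) * s.indicator 1 (√T • z)) =
      (fun θ : E n => ENNReal.ofReal (gdens ((√T)⁻¹ • θ) * B.Z T θ) * s.indicator 1 θ) (√T • z) :=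
    fun z => by
      simp only [inv_smul_smul₀ hs.ne', ENNReal.ofReal_mul (gdens_pos z).le, mul_assoc]
  rw [lintegral_congr e1, hG hm,
    ← lintegral_const_mul _ hm]
  congr 1; funext θ
  by_cases h : θ ∈ s
  · simp only [Set.indicator_of_mem h, Pi.one_apply, mul_one]
    rw [exp_neg_Wq B hT θ, ← ENNReal.ofReal_mul (by positivity)]
  · simp [h]

theorem integral_q (hT : 0 < T) (F : E n → ℝ) :
    ∫ θ, F θ ∂B.qmeas T = ∫ θ, exp (-Wq B T θ) * F θ := by
  rw [qmeas_density B hT, integral_withDensity_eq_integral_toReal_smul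
    (show Measurable fun θ => ENNReal.ofReal (exp (-Wq B T θ)) from
      (continuous_Wq B hT).neg.rexp.measurable.ennreal_ofReal)
    (.of_forall fun _ => ENNReal.ofReal_lt_top)]
  simp [ENNReal.toReal_ofReal (exp_pos _).le]

theorem integrable_q_iff (hT : 0 < T) (F : E n → ℝ) :
    Integrable F (B.qmeas T) ↔ Integrable fun θ => exp (-Wq B T θ) * F θ := by
  rw [qmeas_density B hT, integrable_withDensity_iff_integrable_smul'
    (show Measurable fun θ => ENNReal.ofReal (exp (-Wq B T θ)) from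
      (continuous_Wq B hT).neg.rexp.measurable.ennreal_ofReal)
    (.of_forall fun _ => ENNReal.ofReal_lt_top)]
  simp [ENNReal.toReal_ofReal (exp_pos _).le]

/-! ### the potential of `q` -/

/-- coordinates of the gradient of `Wq` -/
def dWq (T : ℝ) (k : Fin n) (θ : E n) : ℝ := θ k / T - B.avg T θ fun x => x k

theorem hasFDerivAt_Wq (hT : 0 < T) (θ : E n) :
    HasFDerivAt (Wq B T) (GradBound.gcl fun k => dWq B T k θ) θ := by
  have h := (((hasStrictFDerivAt_norm_sq θ).hasFDerivAt.mul_const (2 * T)⁻¹).sub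
    (GradBound.hasFDerivAt_Lam B hT θ)).add_const ((n : ℝ) / 2 * log (2 * π * T))
  refine (h.congr_of_eventuallyEq (.of_forall fun x => ?_)).congr_fderiv ?_
  · simp [Wq, div_eq_mul_inv]
  refine ContinuousLinearMap.ext fun u => ?_
  simp only [_root_.sub_apply, FunLike.coe_smul, Pi.smul_apply, Pi.mul_apply, Pi.natCast_apply,
    GradBound.gcl_apply, dWq, innerSL_apply_apply, inner_eq_sum θ u, smul_eq_mul, nsmul_eq_mul, Finset.mul_sum,
    ← Finset.sum_sub_distrib]
  exact Finset.sum_congr rfl fun k _ => by push_cast; field_simp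

theorem contDiff_dWq (hT : 0 < T) (k : Fin n) : ContDiff ℝ 1 (dWq B T k) :=
  ((EuclideanSpace.proj (𝕜 := ℝ) k).contDiff.div_const T).sub
    (GradBound.contDiff_avg_theta B hT (Good.coord k))

theorem contDiff_Wq (hT : 0 < T) : ContDiff ℝ 1 (Wq B T) := by
  refine contDiff_one_iff_fderiv.2 ⟨fun θ => (hasFDerivAt_Wq B hT θ).differentiableAt, ?_⟩
  rw [funext fun θ => (hasFDerivAt_Wq B hT θ).fderiv]
  exact GradBound.continuous_gcl fun k => (contDiff_dWq B hT k).continuous

theorem coord_eq (k : Fin n) : (fun x : E n => x k) = fun x => ⟪eb k, x⟫ :=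
  funext fun x => by rw [real_inner_comm, inner_eb]

theorem norm_eb (k : Fin n) : ‖(eb k : E n)‖ = 1 := by simp [eb, PiLp.norm_single]

theorem abs_dWq_le (hT : 0 < T) (k : Fin n) (θ : E n) :
    |dWq B T k θ| ≤ |B.avg T 0 fun x => x k| + 2 / T * ‖θ‖ := by
  have h := GradBound.avg_inner_lip B hT (eb k) 0 θ
  rw [← coord_eq, norm_eb, zero_add] at h
  have h2 : |θ k / T| ≤ ‖θ‖ / T := by
    rw [abs_div, abs_of_pos hT]
    exact div_le_div_of_nonneg_right (PiLp.norm_apply_le θ k) hT.le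
  rw [dWq]
  have e : 1 / T * ‖θ‖ = ‖θ‖ / T := by ring
  have e2 : 2 / T * ‖θ‖ = 2 * (‖θ‖ / T) := by ring
  linarith [abs_sub (θ k / T) (B.avg T θ fun x => x k),
    abs_sub_abs_le_abs_sub (B.avg T θ fun x => x k) (B.avg T 0 fun x => x k)]

theorem fderiv_dWq (hT : 0 < T) (k : Fin n) (θ : E n) :
    (∀ u, |fderiv ℝ (dWq B T k) θ u| ≤ 2 / T * ‖u‖) ∧
      fderiv ℝ (dWq B T k) θ (eb k) ≤ 1 / T := by
  have h := (((EuclideanSpace.proj (𝕜 := ℝ) k).hasFDerivAt (x := θ)).mul_const T⁻¹).sub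
    (GradBound.hasFDerivAt_avg_theta B hT θ (Good.coord k))
  have hd : fderiv ℝ (dWq B T k) θ = _ :=
    (h.congr_of_eventuallyEq (.of_forall fun x => by simp [dWq, div_eq_mul_inv])).fderiv
  refine ⟨fun u => ?_, ?_⟩
  · rw [hd]
    simp only [_root_.sub_apply, FunLike.coe_smul, Pi.smul_apply, smul_eq_mul]
    have h1 : ‖GradBound.gcl (B.covCoord T θ fun x => x k)‖ ≤ 1 / T := by
      have := GradBound.norm_avg_inner B hT θ (eb k)
      rwa [← coord_eq, norm_eb] at this
    have h2 := ((GradBound.gcl (B.covCoord T θ fun x => x k)).le_opNorm u).trans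
      (mul_le_mul_of_nonneg_right h1 (norm_nonneg u))
    rw [norm_eq_abs] at h2
    have h3 : |T⁻¹ * EuclideanSpace.proj (𝕜 := ℝ) k u| ≤ 1 / T * ‖u‖ := by
      rw [abs_mul, abs_of_pos (inv_pos.2 hT), one_div]
      exact mul_le_mul_of_nonneg_left (PiLp.norm_apply_le u k) (inv_nonneg.2 hT.le)
    rw [show 2 / T * ‖u‖ = 1 / T * ‖u‖ + 1 / T * ‖u‖ by ring]
    exact (abs_sub _ _).trans (add_le_add h3 h2)
  · rw [hd]
    simp only [_root_.sub_apply, FunLike.coe_smul, Pi.smul_apply, smul_eq_mul,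
      GradBound.gcl_apply]
    have hv : 0 ≤ B.covCoord T θ (fun x => x k) k := by
      have := B.sq_avg_le hT.le θ (Good.coord k)
      simp only [covCoord]
      simp only [sq] at this
      linarith
    simp only [eb, Pi.single_apply, PiLp.proj_apply, PiLp.ofLp_single, ite_mul,
      one_mul, zero_mul, Finset.sum_ite_eq', Finset.mem_univ, if_true, mul_one, one_div]
    linarith

theorem Wq_add (hT : 0 < T) (g u : E n) :
    Wq B T (g + u) = Wq B T g + ∑ k, u k * dWq B T k g +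
      (‖u‖ ^ 2 / (2 * T) - B.breg T g u) := by
  have hm : ⟪B.mean T g, u⟫ = ∑ k, u k * B.avg T g fun x => x k := by
    rw [B.inner_mean hT.le, B.avg_inner hT.le]
  have e : ∑ k, u k * dWq B T k g =
      ⟪g, u⟫ / T - ∑ k, u k * B.avg T g fun x => x k := by
    rw [inner_eq_sum, Finset.sum_div, ← Finset.sum_sub_distrib]
    exact Finset.sum_congr rfl fun k _ => by rw [dWq]; ring
  rw [e, breg, Wq, Wq, hm, norm_add_sq_real]
  field_simp
  ring

theorem Wq_bounds (hS : B.Subg) (hC : B.Centred) (hT : 0 < T) (hT4 : T ≤ 1 / 4) :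
    ∃ a : ℝ, 0 ≤ a ∧ ∀ θ, ‖θ‖ ^ 2 - a ≤ Wq B T θ ∧ Wq B T θ ≤ a * (1 + ‖θ‖ ^ 2) := by
  set c := (n : ℝ) / 2 * log (2 * π * T)
  refine ⟨(2 * T)⁻¹ + 1 + |c| + 3 / 8 * (T * n), by positivity, fun θ => ⟨?_, ?_⟩⟩
  · have h1 := B.Lam_le hS hT.le θ
    have h2 : 2 * ‖θ‖ ^ 2 ≤ ‖θ‖ ^ 2 / (2 * T) := by
      rw [le_div_iff₀ (by positivity)]; nlinarith [sq_nonneg ‖θ‖]
    have h3 : 0 ≤ (2 * T)⁻¹ + 3 / 8 * (T * n) := by positivity
    show _ ≤ ‖θ‖ ^ 2 / (2 * T) - B.Lam T θ + c
    linarith [neg_abs_le c, sq_nonneg ‖θ‖]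
  · have h1 := B.le_Lam hS hC hT.le θ
    have h3 : 0 ≤ (1 + |c| + 3 / 8 * (T * n)) * ‖θ‖ ^ 2 := by positivity
    have h4 : 0 ≤ (2 * T)⁻¹ := by positivity
    show ‖θ‖ ^ 2 / (2 * T) - B.Lam T θ + c ≤ _
    rw [div_eq_mul_inv]
    nlinarith [le_abs_self c]

/-! ### Gaussian reference laws -/

/-- logarithm of a Gaussian density with eigenbasis `b` and eigenvalues `l` -/
def logN (b : OrthonormalBasis (Fin n) ℝ (E n)) (l : Fin n → ℝ) (S z : E n) : ℝ :=
  -(∑ i, (log (2 * π * l i) / 2 + ⟪b i, z - S⟫ ^ 2 / (2 * l i)))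

theorem integral_exp_logN (b : OrthonormalBasis (Fin n) ℝ (E n)) {l : Fin n → ℝ}
    (hl : ∀ i, 0 < l i) (S : E n) : ∫ z, exp (logN b l S z) = 1 := by
  set φ : Fin n → ℝ → ℝ := fun i y => exp (-(log (2 * π * l i) / 2)) * exp (-(2 * l i)⁻¹ * y ^ 2)
  have e1 : ∀ z, exp (logN b l S z) = ∏ i, φ i (b.repr (z - S) i) := fun z => by
    rw [logN, ← Finset.sum_neg_distrib, exp_sum]
    refine Finset.prod_congr rfl fun i _ => ?_
    simp only [φ, ← exp_add, b.repr_apply_apply]
    congr 1; ring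
  simp only [e1]
  rw [integral_sub_right_eq_self (μ := (volume : Measure (E n)))
      (fun z => ∏ i, φ i (b.repr z i)) S,
    b.repr.measurePreserving.integral_comp b.repr.toHomeomorph.measurableEmbedding
      (fun y : E n => ∏ i, φ i (y i)),
    ← (PiLp.volume_preserving_toLp (Fin n)).integral_comp
      (MeasurableEquiv.toLp 2 (Fin n → ℝ)).measurableEmbedding (fun y : E n => ∏ i, φ i (y i))]
  rw [integral_fintype_prod_volume_eq_prod]
  refine Finset.prod_eq_one fun i _ => ?_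
  simp only [φ]
  rw [integral_const_mul, integral_gaussian, exp_neg, ← log_sqrt (by have := hl i; positivity),
    exp_log (by have := hl i; positivity), show π / (2 * l i)⁻¹ = 2 * π * l i by field_simp]
  exact inv_mul_cancel₀ (by have := hl i; positivity)

theorem mul_log_ge {a b : ℝ} (ha : 0 ≤ a) (hb : 0 < b) : a - b ≤ a * log a - a * log b := by
  rcases ha.eq_or_lt with rfl | ha'
  · simp [hb.le]
  have h := mul_le_mul_of_nonneg_left (log_le_sub_one_of_pos (div_pos hb ha')) ha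
  rw [log_div hb.ne' ha'.ne', mul_sub, mul_sub, mul_one, mul_div_cancel₀ _ ha'.ne'] at h
  linarith

/-- `exp (-U)` times quadratic growth is integrable -/
theorem integrable_exp_pot {U F : E n → ℝ} (hU : PotOk U) (hF : Continuous F) {C : ℝ}
    (h : ∀ x, |F x| ≤ C * (1 + ‖x‖ ^ 2)) : Integrable fun x => exp (-U x) * F x := by
  obtain ⟨a, b, hb, hlo⟩ := hU.lower
  have hC : 0 ≤ C := by have := (abs_nonneg _).trans (h 0); simpa using this
  refine ((integrable_exp_neg_sq (n := n) (half_pos hb)).const_mul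
    (exp a * (C * (1 + 2 / b)))).mono' (hU.smooth.continuous.neg.rexp.mul hF).aestronglyMeasurable
    (.of_forall fun x => ?_)
  rw [norm_eq_abs, abs_mul, abs_exp]
  have h1 : exp (-U x) ≤ exp a * exp (-(b * ‖x‖ ^ 2)) := by
    rw [← exp_add]; exact exp_le_exp.2 (by linarith [hlo x])
  have h2 : 1 + ‖x‖ ^ 2 ≤ (1 + 2 / b) * exp (b / 2 * ‖x‖ ^ 2) := by
    have h3 := mul_le_mul_of_nonneg_left (add_one_le_exp (b / 2 * ‖x‖ ^ 2))
      (show 0 ≤ 1 + 2 / b by positivity)
    have h4 : 2 / b * (b / 2 * ‖x‖ ^ 2) = ‖x‖ ^ 2 := by field_simp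
    have h5 : 0 ≤ b / 2 * ‖x‖ ^ 2 + 2 / b := by positivity
    linarith
  calc exp (-U x) * |F x|
      ≤ exp a * exp (-(b * ‖x‖ ^ 2)) * (C * ((1 + 2 / b) * exp (b / 2 * ‖x‖ ^ 2))) :=
        mul_le_mul h1 ((h x).trans (mul_le_mul_of_nonneg_left h2 hC)) (abs_nonneg _) (by positivity)
    _ = exp a * (C * (1 + 2 / b)) * (exp (-(b * ‖x‖ ^ 2)) * exp (b / 2 * ‖x‖ ^ 2)) := by ring
    _ = _ := by rw [← exp_add]; ring_nf

/-! ### the plan -/

/-- hypotheses of the entropy inequality -/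
structure Setting (B : Base n) (T ε r : ℝ) (p f ψ : E n → ℝ) : Prop where
  plan : IsPlan B T ε r p f ψ
  subg : B.Subg
  cen : B.Centred
  T4 : T ≤ 1 / 4
  smoothf : ContDiff ℝ 2 f
  smoothS : ContDiff ℝ 1 (Smap B T ε p f ψ)
  contScov : Continuous (Scov B T ε p f ψ)
  derivf : ∀ g v, fderiv ℝ f g v = ⟪Smap B T ε p f ψ g, v⟫
  jacS : ∀ g, jac (Smap B T ε p f ψ) g = Scov B T ε p f ψ g
  normS : ∀ g, ‖Smap B T ε p f ψ g‖ ≤ r
  bdScov : ∀ g i j, |Scov B T ε p f ψ g i j| ≤ 2 * r ^ 2 / ε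
  psd : ∀ g, (Scov B T ε p f ψ g).PosSemidef
  bdf : ∃ C : ℝ, ∀ g, |f g| ≤ C + r * ‖g‖

namespace Setting

variable {B} {ε r : ℝ} {p f ψ : E n → ℝ} (s : Setting B T ε r p f ψ)
include s

theorem posT : 0 < T := s.plan.posT

/-- the potential of the conditional law in `g` -/
def pot (_ : Setting B T ε r p f ψ) (z g : E n) : ℝ := Wq B T g + (f g + ψ z - ⟪g, z⟫) / ε

theorem exp_neg_pot (z g : E n) : exp (-s.pot z g) = exp (-Wq B T g) * kker ε f ψ g z := by
  rw [pot, kker, ← exp_add]; congr 1; ring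

theorem hasFDerivAt_pot (z g : E n) :
    HasFDerivAt (s.pot z) (GradBound.gcl fun k =>
      dWq B T k g + (Smap B T ε p f ψ g k - z k) / ε) g := by
  have h := (hasFDerivAt_Wq B s.posT g).add
    ((((s.smoothf.differentiable (by norm_num)) g).hasFDerivAt.add_const (ψ z)).sub
      ((innerSL ℝ z).hasFDerivAt (x := g)) |>.mul_const ε⁻¹)
  refine (h.congr_of_eventuallyEq (.of_forall fun x => ?_)).congr_fderiv ?_
  · simp [pot, div_eq_mul_inv, real_inner_comm x z]
  refine ContinuousLinearMap.ext fun u => ?_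
  simp only [_root_.add_apply, _root_.sub_apply, FunLike.coe_smul, Pi.smul_apply,
    GradBound.gcl_apply, innerSL_apply_apply, s.derivf, inner_eq_sum, smul_eq_mul,
    ← Finset.sum_sub_distrib, Finset.mul_sum, ← Finset.sum_add_distrib]
  exact Finset.sum_congr rfl fun k _ => by ring

theorem fderiv_pot (z g : E n) (k : Fin n) :
    fderiv ℝ (s.pot z) g (eb k) = dWq B T k g + (Smap B T ε p f ψ g k - z k) / ε := by
  rw [(s.hasFDerivAt_pot z g).fderiv, GradBound.gcl_apply]
  simp [eb]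

theorem potOk (z : E n) : PotOk (s.pot z) := by
  have hT := s.posT
  have hε := s.plan.posε
  obtain ⟨a, ha, hW⟩ := Wq_bounds B s.subg s.cen hT s.T4
  obtain ⟨C, hC⟩ := s.bdf
  have hlin : ∀ g, |(f g + ψ z - ⟪g, z⟫) / ε| ≤ (|C| + |ψ z| + (r + ‖z‖) * ‖g‖) / ε := fun g => by
    rw [abs_div, abs_of_pos hε]
    refine div_le_div_of_nonneg_right ?_ hε.le
    linarith [abs_sub (f g + ψ z) ⟪g, z⟫, abs_add_le (f g) (ψ z), hC g, le_abs_self C,
      abs_real_inner_le_norm g z]
  set A := (|C| + |ψ z|) / ε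
  set D := (r + ‖z‖) / ε
  have hD : 0 ≤ D := by have := s.plan.posr; positivity
  have hlin' : ∀ g, |(f g + ψ z - ⟪g, z⟫) / ε| ≤ A + D * ‖g‖ := fun g =>
    (hlin g).trans (le_of_eq (by simp only [A, D]; ring))
  refine ⟨?_, ⟨a + A + D ^ 2, 1 / 2, by norm_num, fun g => ?_⟩,
    ⟨a + A + D, fun g => ?_⟩, ?_⟩
  · have := s.smoothf.of_le (m := 1) (by norm_num)
    exact (contDiff_Wq B hT).add ((((this.add contDiff_const).sub
      (contDiff_id.inner ℝ contDiff_const))).div_const ε)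
  · rw [pot]
    nlinarith [(abs_le.1 (hlin' g)).1, (hW g).1, sq_nonneg (‖g‖ / 2 - D)]
  · rw [pot]
    have hA : 0 ≤ A := by positivity
    nlinarith [(abs_le.1 (hlin' g)).2, (hW g).2, sq_nonneg (‖g‖ - 1), norm_nonneg g,
      mul_nonneg hA (sq_nonneg ‖g‖), mul_nonneg hD (sq_nonneg (‖g‖ - 1))]
  · refine ⟨∑ k, (|B.avg T 0 fun x => x k| + 2 / T + (r + ‖z‖) / ε), fun g => ?_⟩
    rw [(s.hasFDerivAt_pot z g).fderiv, GradBound.gcl, innerSL_apply_norm, Finset.sum_mul]
    refine le_trans ?_ (Finset.sum_le_sum (f := fun k =>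
      |dWq B T k g + (Smap B T ε p f ψ g k - z k) / ε|) fun k _ => ?_)
    · set c := fun k => dWq B T k g + (Smap B T ε p f ψ g k - z k) / ε
      refine le_of_pow_le_pow_left₀ two_ne_zero (Finset.sum_nonneg fun k _ => abs_nonneg _) ?_
      rw [EuclideanSpace.norm_sq_eq]
      refine le_trans (le_of_eq ?_) (Finset.sum_sq_le_sq_sum_of_nonneg fun k _ => abs_nonneg (c k))
      exact Finset.sum_congr rfl fun k _ => by simp [sq_abs]; rfl
    · refine (abs_add_le _ _).trans ?_
      rw [abs_div, abs_of_pos hε]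
      have h1 : |Smap B T ε p f ψ g k - z k| / ε ≤ D := by
        refine div_le_div_of_nonneg_right ((abs_sub _ _).trans (add_le_add ?_ ?_)) hε.le
        · exact (PiLp.norm_apply_le (Smap B T ε p f ψ g) k).trans (s.normS g)
        · exact PiLp.norm_apply_le z k
      have h2 := abs_dWq_le B hT k g
      show _ ≤ (_ + _ + D) * (1 + ‖g‖)
      have h3 : 0 ≤ 2 / T + D := by positivity
      have h4 := abs_nonneg (B.avg T 0 fun x => x k)
      have h5 : 0 ≤ 2 / T := by positivity
      linarith [mul_nonneg h4 (norm_nonneg g), mul_nonneg hD (norm_nonneg g),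
        mul_nonneg h5 (norm_nonneg g)]

/-- the Fisher information of the potential is the expectation of its Laplacian -/
theorem fisher_le (hI : PotIbpProp) (z : E n) :
    ∫ g, exp (-s.pot z g) * ‖fderiv ℝ (s.pot z) g‖ ^ 2 ≤
      ∫ g, exp (-s.pot z g) * ((n : ℝ) / T + (Scov B T ε p f ψ g).trace / ε) := by
  have hT := s.posT
  have hε := s.plan.posε
  have hU := s.potOk z
  set F : Fin n → E n → ℝ := fun k g => dWq B T k g + (Smap B T ε p f ψ g k - z k) / ε
  have hSk : ∀ k, ContDiff ℝ 1 fun g => Smap B T ε p f ψ g k := fun k =>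
    (EuclideanSpace.proj (𝕜 := ℝ) k).contDiff.comp s.smoothS
  have hFc : ∀ k, ContDiff ℝ 1 (F k) := fun k =>
    (contDiff_dWq B hT k).add (((hSk k).sub contDiff_const).div_const ε)
  have hFd : ∀ k g u, fderiv ℝ (F k) g u =
      fderiv ℝ (dWq B T k) g u + ⟪row' (Scov B T ε p f ψ g) k, u⟫ / ε := fun k g u => by
    have h := (((contDiff_dWq B hT k).differentiable one_ne_zero) g).hasFDerivAt.add
      ((((EuclideanSpace.proj (𝕜 := ℝ) k).hasFDerivAt.comp g
        ((s.smoothS.differentiable one_ne_zero) g).hasFDerivAt).sub_const (z k)).mul_const ε⁻¹)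
    have hd : fderiv ℝ (F k) g = _ :=
      (h.congr_of_eventuallyEq (.of_forall fun x => by simp [F, div_eq_mul_inv])).fderiv
    rw [hd, ← s.jacS g, inner_row']
    simp only [_root_.add_apply, FunLike.coe_smul, Pi.smul_apply, smul_eq_mul,
      ContinuousLinearMap.coe_comp, Function.comp_apply, PiLp.proj_apply]
    conv_lhs =>
      rw [show fderiv ℝ (Smap B T ε p f ψ) g u =
        fderiv ℝ (Smap B T ε p f ψ) g (∑ j, u j • eb j) from by rw [← sum_eb u]]
    rw [map_sum, WithLp.ofLp_sum, Finset.sum_apply, div_eq_inv_mul]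
    congr 2
    exact Finset.sum_congr rfl fun j _ => by simp [jac, mul_comm]
  set R := 2 * r ^ 2 / ε
  have hrow : ∀ k g (u : E n), |⟪row' (Scov B T ε p f ψ g) k, u⟫| ≤ n * R * ‖u‖ := fun k g u => by
    rw [inner_row']
    refine (Finset.abs_sum_le_sum_abs _ _).trans ?_
    calc ∑ j, |Scov B T ε p f ψ g k j * u j| ≤ ∑ _j : Fin n, R * ‖u‖ :=
          Finset.sum_le_sum fun j _ => by
            rw [abs_mul]
            exact mul_le_mul (s.bdScov g k j) (PiLp.norm_apply_le u j) (abs_nonneg _) (by positivity)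
      _ = _ := by simp; ring
  obtain ⟨a₀, hg⟩ := hU.grad
  have hI' : ∀ k, ∫ g, exp (-s.pot z g) * (F k g * fderiv ℝ (s.pot z) g (eb k)) =
      ∫ g, exp (-s.pot z g) * fderiv ℝ (F k) g (eb k) := fun k => by
    refine hI n (s.pot z) hU (F k) (hFc k)
      (|a₀| + 2 / T + n * R / ε) (fun g => ?_) (fun g => ?_) k
    · have e : F k g = fderiv ℝ (s.pot z) g (eb k) := (s.fderiv_pot z g k).symm
      have h1 := (fderiv ℝ (s.pot z) g).le_opNorm (eb k)
      rw [norm_eb, mul_one, norm_eq_abs, ← e] at h1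
      refine h1.trans ((hg g).trans (mul_le_mul_of_nonneg_right ?_ (by positivity)))
      have : 0 ≤ 2 / T + n * R / ε := by positivity
      linarith [le_abs_self a₀]
    · refine ContinuousLinearMap.opNorm_le_bound _ (by positivity) fun u => ?_
      rw [norm_eq_abs, hFd]
      refine (abs_add_le _ _).trans ?_
      have h1 := (fderiv_dWq B hT k g).1 u
      have h2 : |⟪row' (Scov B T ε p f ψ g) k, u⟫ / ε| ≤ n * R / ε * ‖u‖ := by
        rw [abs_div, abs_of_pos hε, div_mul_eq_mul_div]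
        exact div_le_div_of_nonneg_right (hrow k g u) hε.le
      have h3 : (2 / T + n * R / ε) * ‖u‖ ≤ (|a₀| + 2 / T + n * R / ε) * (1 + ‖g‖) * ‖u‖ := by
        refine mul_le_mul_of_nonneg_right ?_ (norm_nonneg u)
        have : 0 ≤ (|a₀| + 2 / T + n * R / ε) * ‖g‖ := by positivity
        linarith [abs_nonneg a₀]
      linarith
  have hdiag : ∀ g, (∑ k, fderiv ℝ (F k) g (eb k)) ≤
      (n : ℝ) / T + (Scov B T ε p f ψ g).trace / ε := fun g => by
    calc ∑ k, fderiv ℝ (F k) g (eb k) ≤ ∑ k, (1 / T + Scov B T ε p f ψ g k k / ε) :=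
          Finset.sum_le_sum fun k _ => by
            rw [hFd, inner_row']
            refine add_le_add (fderiv_dWq B hT k g).2 (le_of_eq ?_)
            simp [eb]
      _ = _ := by simp [Finset.sum_add_distrib, trace, Finset.sum_div]; ring
  have iL : ∀ k, Integrable fun g => exp (-s.pot z g) * (F k g * fderiv ℝ (s.pot z) g (eb k)) :=
    fun k => integrable_exp_pot hU ((hFc k).continuous.mul
      ((hU.smooth.continuous_fderiv one_ne_zero).clm_apply continuous_const))
      (C := 2 * a₀ ^ 2) fun g => by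
        have e : F k g = fderiv ℝ (s.pot z) g (eb k) := (s.fderiv_pot z g k).symm
        have h1 := (fderiv ℝ (s.pot z) g).le_opNorm (eb k)
        rw [norm_eb, mul_one, norm_eq_abs, ← e] at h1
        rw [← e, abs_mul]
        nlinarith [h1.trans (hg g), abs_nonneg (F k g), sq_nonneg (a₀ * (1 - ‖g‖))]
  have iR : ∀ k, Integrable fun g => exp (-s.pot z g) * fderiv ℝ (F k) g (eb k) :=
    fun k => integrable_exp_pot hU (((hFc k).continuous_fderiv one_ne_zero).clm_apply
      continuous_const) (C := 2 / T + n * R / ε) fun g => by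
        rw [hFd]
        have h1 := (fderiv_dWq B hT k g).1 (eb k)
        have h2 := hrow k g (eb k)
        rw [norm_eb, mul_one] at h1 h2
        refine (abs_add_le _ _).trans ?_
        rw [abs_div, abs_of_pos hε]
        have : 0 ≤ (2 / T + n * R / ε) * ‖g‖ ^ 2 := by positivity
        linarith [div_le_div_of_nonneg_right h2 hε.le]
  have e1 : ∀ g, exp (-s.pot z g) * ‖fderiv ℝ (s.pot z) g‖ ^ 2 =
      ∑ k, exp (-s.pot z g) * (F k g * fderiv ℝ (s.pot z) g (eb k)) := fun g => by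
    rw [GradBound.norm_sq_eq, Finset.mul_sum]
    refine Finset.sum_congr rfl fun k _ => ?_
    rw [s.fderiv_pot z g k]
    simp only [F]; ring
  simp only [e1]
  rw [integral_finsetSum _ fun k _ => iL k, Finset.sum_congr rfl fun k _ => hI' k,
    ← integral_finsetSum _ fun k _ => iR k]
  refine integral_mono (integrable_finsetSum _ fun k _ => iR k) ?_ fun g => ?_
  · refine integrable_exp_pot hU (continuous_const.add (s.contScov.matrix_trace.div_const ε))
      (C := (n : ℝ) / T + n * R / ε) fun g => ?_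
    have h1 : |(Scov B T ε p f ψ g).trace| ≤ n * R := by
      refine (Finset.abs_sum_le_sum_abs _ _).trans ?_
      simpa using Finset.sum_le_sum fun i (_ : i ∈ Finset.univ) => s.bdScov g i i
    refine (abs_add_le _ _).trans ?_
    rw [abs_div (trace _), abs_of_pos hε, abs_of_nonneg (by positivity : 0 ≤ (n : ℝ) / T)]
    have : 0 ≤ ((n : ℝ) / T + n * R / ε) * ‖g‖ ^ 2 := by positivity
    linarith [div_le_div_of_nonneg_right h1 hε.le]
  · rw [← Finset.mul_sum]
    exact mul_le_mul_of_nonneg_left (hdiag g) (exp_pos _).le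

end Setting

end EntropyAux

end Vale.Agent.P245.Polylog
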