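import Vale.Agent.P245.Polylog.Statements
import Vale.Agent.P245.Local.Lsi
import Vale.Agent.P245.Local.Regularise

/-!
# P245: from the infimal-convolution property to the polylogarithmic log-Sobolev bound
-/

open MeasureTheory Real Set
open scoped RealInnerProductSpace ENNReal Gradient

noncomputable section

namespace Vale.Agent.P245.Polylog

open Vale.Agent.P245.Local Vale.Agent.P245.Local.Base

attribute [local irreducible] wwin

variable {n : ℕ}

theorem one_le_lg {n : ℕ} (hn : 1 ≤ n) : 1 ≤ lg n := by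
  have : (0 : ℝ) ≤ log (n : ℝ) := log_nonneg (by exact_mod_cast hn)
  rw [lg]; linarith

/-- the covariance window is a locally good set -/
theorem goodLoc_of_covLe (B : Base n) {t : ℝ} (ht : 0 ≤ t) {β : ℝ} (hbeta : 9600 * Rwin ≤ β)
    {g : E n} (hcov : B.CovLe t g Rwin) : B.GoodLoc t β g := fun u hu => by
  have hR : (0 : ℝ) < Rwin := exp_pos 4
  have h2 : 40 * √Rwin * ‖u‖ ≤ 1 := by
    refine abs_le_of_sq_le_sq' (b := (1 : ℝ)) ?_ zero_le_one |>.2
    rw [mul_pow, mul_pow, sq_sqrt hR.le]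
    nlinarith [mul_le_mul_of_nonneg_right hbeta (sq_nonneg ‖u‖)]
  exact (B.breg_small ht hR hcov h2).trans
    (mul_le_mul_of_nonneg_right hbeta (sq_nonneg _))

theorem half_le_window (B : Base n) {t : ℝ} {w : E n → ℝ} (hwm : Continuous w)
    (hw : ∀ θ, 0 ≤ w θ ∧ w θ ≤ 2) (hle : ∫ θ, w θ ∂B.qmeas t ≤ 1 / 4) :
    1 / 2 ≤ (B.qmeas t).real {θ | w θ < 1} := by
  have hi : Integrable w (B.qmeas t) := .of_bound hwm.aestronglyMeasurable 2
    (.of_forall fun θ => by rw [Real.norm_eq_abs, abs_of_nonneg (hw θ).1]; exact (hw θ).2)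
  have hM := mul_meas_ge_le_integral_of_nonneg (μ := B.qmeas t)
    (.of_forall fun θ => (hw θ).1) hi 1
  have hc' : {θ | w θ < 1} = {θ | 1 ≤ w θ}ᶜ := by ext θ; simp
  rw [hc', probReal_compl_eq_one_sub (isClosed_le continuous_const hwm).measurableSet]
  linarith

/-- the regular case -/
theorem lsi_base_log (hP : ∀ n, PoincareStrongProp n) (hL : ∀ n, LsiStrongProp n)
    (hW : WindowProp) (hD : DPropLog) :
    ∃ C : ℝ, 0 < C ∧ ∀ n : ℕ, 1 ≤ n → ∀ B : Base n, B.Subg → B.Centred → ∀ h : E n → ℝ,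
      ContDiff ℝ 1 h → ∀ η K : ℝ, 0 < η → (∀ x, η ≤ h x) → (∀ x, h x ≤ K) →
      (∀ x, ‖fderiv ℝ h x‖ ≤ K) →
      (∫ x, h x * log (h x) ∂B.μ) - (∫ x, h x ∂B.μ) * log (∫ x, h x ∂B.μ)
        ≤ C * lg n ^ 4 * ∫ x, ‖fderiv ℝ h x‖ ^ 2 / h x ∂B.μ := by
  obtain ⟨c₁, hc₁, hwin⟩ := hW
  obtain ⟨c₂, hc₂, hdp⟩ := hD
  set c := min (min c₁ (12 * c₂)) (εcrit / (9600 * Rwin)) with hc
  have hR : 0 < Rwin := exp_pos 4
  have hcpos : 0 < c :=
    lt_min (lt_min hc₁ (by linarith)) (div_pos εcrit_pos (by positivity))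
  refine ⟨200 / c, by positivity, ?_⟩
  intro n hn B hS hCen h hh η K hη hlo hhi hDh
  have hl := one_le_lg hn
  have hl4 : 1 ≤ lg n ^ 4 := one_le_pow₀ hl
  set t := c / lg n ^ 4 with ht
  have htpos : 0 < t := by positivity
  have htc : t ≤ c := div_le_self hcpos.le hl4
  obtain ⟨hwc, hw02, -, hwcov, hwint⟩ := hwin n hn B hS
  have hwm : Continuous (wwin B t) :=
    hwc.comp_continuous (by fun_prop : Continuous fun θ : E n => (t, θ))
      fun θ => ⟨htpos.le, mem_univ θ⟩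
  have hbeta : 9600 * Rwin ≤ εcrit / t := by
    rw [le_div_iff₀ htpos]
    have := htc.trans (min_le_right _ _)
    rw [le_div_iff₀ (by positivity)] at this
    linarith
  have hts : t ≤ c₁ / lg n ^ 2 := by
    refine (div_le_div_of_nonneg_right ((min_le_left _ _).trans (min_le_left _ _))
      (by positivity)).trans ?_
    exact div_le_div_of_nonneg_left hc₁.le (by positivity) (pow_le_pow_right₀ hl (by norm_num))
  have hle : ∫ θ, wwin B t θ ∂B.qmeas t ≤ 1 / 4 := by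
    refine (hwint t htpos hts).trans ?_
    have : (1 : ℝ) ≤ (n : ℝ) ^ 2 := one_le_pow₀ (by exact_mod_cast hn)
    exact one_div_le_one_div_of_le (by norm_num) (by linarith)
  have hmass := half_le_window B hwm (hw02 t htpos.le) hle
  have hGm : MeasurableSet {θ | wwin B t θ < 1} := (isOpen_lt hwm continuous_const).measurableSet
  have hGs : ∀ g ∈ {θ | wwin B t θ < 1}, B.GoodLoc t (εcrit / t) g := fun g hg =>
    goodLoc_of_covLe B htpos.le hbeta (hwcov t htpos.le g hg)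
  have hDt : B.DProp (t / 12) 3 := (hdp n hn B hS hCen).mono (by positivity) (by
    rw [ht, div_div, div_le_div_iff₀ (by positivity) (by positivity)]
    have : c ≤ 12 * c₂ := (min_le_left _ _).trans (min_le_right _ _)
    nlinarith [pow_pos (one_pos.trans_le hl) 4])
  have := B.lsi_of_dprop (hP n) (hL n) htpos hGm hGs hmass hDt
    (⟨hh, hη, hlo, hhi, hDh⟩ : Local.Nice h η K)
  rw [show 200 / c * lg n ^ 4 = 200 / t by rw [ht, div_div_eq_mul_div]; ring]
  exact this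

/-- The polylogarithmic bound for every log-concave density. -/
theorem lsi_log (hP : ∀ n, PoincareStrongProp n) (hL : ∀ n, LsiStrongProp n)
    (hW : WindowProp) (hD : DPropLog) :
    ∃ C : ℝ, 0 < C ∧ ∀ n : ℕ, 1 ≤ n →
      ∀ (ρ : E n → ℝ) (μ : Measure (E n)),
        Measurable ρ → (∀ x, 0 ≤ ρ x) → Convex ℝ {x | 0 < ρ x} →
        ConcaveOn ℝ {x | 0 < ρ x} (fun x => log (ρ x)) →
        μ = volume.withDensity (fun x => ENNReal.ofReal (ρ x)) → IsProbabilityMeasure μ →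
        (∀ v : E n, ∫ x, inner ℝ v x ∂μ = 0) →
        ∀ a : ℝ, 0 < a →
          (∀ θ : E n, ‖θ‖ = 1 →
            ∫⁻ x, ENNReal.ofReal (exp (inner ℝ x θ ^ 2 / a ^ 2)) ∂μ ≤ 2) →
          ∀ f : E n → ℝ, ContDiff ℝ (⊤ : ℕ∞) f → HasCompactSupport f →
            (∫ x, f x ^ 2 * log (f x ^ 2) ∂μ)
                - (∫ x, f x ^ 2 ∂μ) * log (∫ x, f x ^ 2 ∂μ)
              ≤ C * (1 + log (n : ℝ)) ^ 4 * a ^ 2 * ∫ x, ‖gradient f x‖ ^ 2 ∂μ := by
  obtain ⟨C, hC0, hbase⟩ := lsi_base_log hP hL hW hD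
  refine ⟨16 * C, by positivity, ?_⟩
  intro n hn ρ μ hρm hρ0 hcs hlc hμ hprob hcen a ha hsub f hf hfs
  have hl := one_le_lg hn
  have h := ent_sq_le_of_base (n := n) (μ := μ) (C := C * lg n ^ 4) (by positivity)
    (hbase n hn) hρm hρ0 hcs hlc hμ hcen ha hsub hf hfs
  rw [show 16 * C * (1 + log (n : ℝ)) ^ 4 = 16 * (C * lg n ^ 4) by rw [lg]; ring]
  exact h

end Vale.Agent.P245.Polylog
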