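import Vale.Agent.P245.Polylog.FisherFlow
import Vale.Agent.P245.Local.Assemble
import Vale.Agent.P245.Local.Smoothing

/-!
# P245: decay of the information along the chain
-/

open MeasureTheory Real Set Matrix
open scoped RealInnerProductSpace ENNReal

noncomputable section

namespace Vale.Agent.P245.Polylog

open Vale.Agent.P245.Local Vale.Agent.P245.Local.Base

variable {n : ℕ} (B : Base n) {T : ℝ} {g : E n → ℝ} {η K : ℝ}

/-! ### one step -/

theorem contDiff_avg (hT : 0 < T) (hg : Local.Nice g η K) :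
    ContDiff ℝ 1 fun θ => B.avg T θ g := by
  set ν := B.μ.withDensity fun x => ENNReal.ofReal (g x) with hν
  haveI : IsFiniteMeasure ν :=
    isFiniteMeasure_withDensity_ofReal (integrable_bdd_comp hg.bddM).hasFiniteIntegral
  have hnum : ∀ θ, B.num T θ g = part ν T θ := fun θ => by
    rw [part, hν, integral_withDensity_eq_integral_toReal_smul
      (hg.smooth.continuous.measurable.ennreal_ofReal) (.of_forall fun _ => ENNReal.ofReal_lt_top)]
    simp [num, ENNReal.toReal_ofReal (hg.h_pos _).le, mul_comm]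
  have e : (fun θ => B.avg T θ g) = fun θ => part ν T θ / part B.μ T θ := funext fun θ => by
    rw [avg, hnum]; rfl
  rw [e]
  exact ((contDiff_part (μ := ν) hT).of_le (by norm_num)).div
    ((contDiff_part (μ := B.μ) hT).of_le (by norm_num)) fun θ => (part_pos hT θ).ne'

theorem norm_fderiv_avg_sq (hT : 0 < T) (hg : Local.Nice g η K) (θ : E n) :
    ‖fderiv ℝ (fun θ => B.avg T θ g) θ‖ ^ 2 = fu B g T θ * B.avg T θ g := by
  rw [fu, div_mul_cancel₀ _ (avg_pos B hg hT.le θ).ne', ← Local.sum_clm_sq]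
  refine Finset.sum_congr rfl fun k _ => ?_
  congr 1
  have hc : HasDerivAt (fun r : ℝ => θ + r • eb k) (eb k) (0 : ℝ) := by
    simpa using ((hasDerivAt_id (0 : ℝ)).smul_const (eb k)).const_add θ
  have h1 := ((contDiff_avg B hT hg).differentiable one_ne_zero
    (θ + (0 : ℝ) • eb k)).hasFDerivAt.comp_hasDerivAt (0 : ℝ) hc
  have h2 := h1.unique (B.hasDerivAt_avg_eb hT θ (poly_of_nice hg).good k)
  simpa [covCoord, eb, ei] using h2

theorem bddM_fu (hT : 0 < T) (hg : Local.Nice g η K) : BddM (fu B g T) (K * (n / T)) :=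
  ⟨((fisherJ_val B g ▸ (jok_fisherJ B hg).nice : B.Nice (fu B g)).continuous hT.le).measurable,
    fun θ => by rw [abs_of_nonneg (fu_nonneg B hg hT.le θ)]; exact fu_le_bdd B hg hT θ⟩

theorem sq_integral_le {ν : Measure (E n)} {v a : E n → ℝ}
    (hv : Integrable v ν) (ha : Integrable a ν) (hr : Integrable (fun w => v w ^ 2 / a w) ν)
    (hv0 : ∀ w, 0 ≤ v w) (ha0 : ∀ w, 0 < a w) :
    (∫ w, v w ∂ν) ^ 2 ≤ (∫ w, a w ∂ν) * ∫ w, v w ^ 2 / a w ∂ν := by
  set P := ∫ w, v w ∂ν with hPdef
  set A := ∫ w, a w ∂ν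
  set S := ∫ w, v w ^ 2 / a w ∂ν
  have hP : 0 ≤ P := integral_nonneg hv0
  have hA : 0 ≤ A := integral_nonneg fun w => (ha0 w).le
  have hS : 0 ≤ S := integral_nonneg fun w => div_nonneg (sq_nonneg _) (ha0 w).le
  have key : ∀ l : ℝ, 0 < l → 2 * P ≤ l * A + l⁻¹ * S := fun l hl => by
    simp only [P, A, S, ← integral_const_mul]
    rw [← integral_add (ha.const_mul _) (hr.const_mul _)]
    refine integral_mono (hv.const_mul _) ((ha.const_mul _).add (hr.const_mul _)) fun w => ?_
    have := ha0 w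
    have h : l * a w + l⁻¹ * (v w ^ 2 / a w) - 2 * v w = (l * a w - v w) ^ 2 / (l * a w) := by
      field_simp; ring
    have : 0 ≤ (l * a w - v w) ^ 2 / (l * a w) := by positivity
    simp only [Pi.add_apply]
    linarith
  rcases hP.eq_or_lt with h0 | h0
  · rw [← h0]; simpa using mul_nonneg hA hS
  rcases hA.eq_or_lt with hA0 | hA0
  · have h := key ((S + 1) / P) (by positivity)
    rw [← hA0, mul_zero, zero_add, inv_div] at h
    have : P / (S + 1) * S ≤ P := by
      rw [div_mul_eq_mul_div, div_le_iff₀ (by positivity)]; nlinarith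
    linarith
  · have h := key (P / A) (by positivity)
    rw [div_mul_cancel₀ _ hA0.ne', inv_div, two_mul] at h
    have h1 : P ≤ A / P * S := by linarith
    calc P ^ 2 = P * P := pow_two P
      _ ≤ P * (A / P * S) := mul_le_mul_of_nonneg_left h1 hP
      _ = A * S := by field_simp

theorem step_nice (hT : 0 < T) (hg : Local.Nice g η K) :
    (∃ K', Local.Nice (Nop T fun x => B.avg T x g) η K') ∧
      fisher B.μ (Nop T fun x => B.avg T x g) ≤ T ^ 2 * B.qavg T (fu B g T) := by
  set a : E n → ℝ := fun θ => B.avg T θ g with ha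
  have hac : ContDiff ℝ 1 a := contDiff_avg B hT hg
  set D := √(K * (n / T) * K) with hD
  have hDb : ∀ θ, ‖fderiv ℝ a θ‖ ≤ D := fun θ => by
    rw [hD, ← sqrt_sq (norm_nonneg (fderiv ℝ a θ))]
    refine sqrt_le_sqrt ?_
    rw [norm_fderiv_avg_sq B hT hg]
    exact mul_le_mul (fu_le_bdd B hg hT θ) (avg_mem B hg hT.le θ).2 (avg_pos B hg hT.le θ).le
      ((abs_nonneg _).trans ((bddM_fu B hT hg).2 θ))
  have hl : ∀ z : E n, Continuous fun w : E n => locMap T (z, w) := fun z => by
    unfold locMap; fun_prop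
  have hai : ∀ z, Integrable (fun w => a (locMap T (z, w))) (gam n) := fun z =>
    (integrable_const K).mono' (hac.continuous.comp (hl z)).aestronglyMeasurable (.of_forall fun w => by
      rw [Real.norm_eq_abs, abs_of_pos (avg_pos B hg hT.le _)]; exact (avg_mem B hg hT.le _).2)
  have hDc : Continuous (fderiv ℝ a) := hac.continuous_fderiv one_ne_zero
  have hd : ∀ z, HasFDerivAt (Nop T a) (∫ w, T • fderiv ℝ a (locMap T (z, w)) ∂gam n) z := by
    intro z
    refine hasFDerivAt_integral_of_dominated_of_fderiv_le (μ := gam n) (s := univ)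
      (F := fun z' w => a (locMap T (z', w))) (F' := fun z' w => T • fderiv ℝ a (locMap T (z', w)))
      (bound := fun _ => T * D) Filter.univ_mem
      (.of_forall fun z' => (hac.continuous.comp (hl z')).aestronglyMeasurable) (hai z)
      ((hDc.comp (hl z)).const_smul T).aestronglyMeasurable
      (.of_forall fun w z' _ => ?_) (integrable_const _) (.of_forall fun w z' _ => ?_)
    · rw [norm_smul, Real.norm_eq_abs, abs_of_pos hT]
      exact mul_le_mul_of_nonneg_left (hDb _) hT.le
    · have h := ((hac.differentiable one_ne_zero (locMap T (z', w))).hasFDerivAt).comp z'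
        (((hasFDerivAt_id z').const_smul T).add_const (√T • w))
      refine h.congr_fderiv ?_
      ext v; simp [locMap]
  have hfd : fderiv ℝ (Nop T a) = fun z => ∫ w, T • fderiv ℝ a (locMap T (z, w)) ∂gam n :=
    funext fun z => (hd z).fderiv
  have hnorm : ∀ z, ‖fderiv ℝ (Nop T a) z‖ ≤ T * ∫ w, ‖fderiv ℝ a (locMap T (z, w))‖ ∂gam n :=
    fun z => by
      rw [hfd, ← integral_const_mul]
      refine (norm_integral_le_integral_norm _).trans_eq ?_
      simp only [norm_smul, Real.norm_eq_abs, abs_of_pos hT]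
  have hNi : ∀ z, Integrable (fun w => ‖fderiv ℝ a (locMap T (z, w))‖) (gam n) := fun z =>
    (integrable_const D).mono' ((hDc.comp (hl z)).norm).aestronglyMeasurable
      (.of_forall fun w => by simpa using hDb _)
  have hN1 : ∀ z, η ≤ Nop T a z ∧ Nop T a z ≤ K := fun z => by
    constructor
    · simpa [Nop] using integral_mono (integrable_const η) (hai z)
        fun w => (avg_mem B hg hT.le (locMap T (z, w))).1
    · simpa [Nop] using integral_mono (hai z) (integrable_const K)
        fun w => (avg_mem B hg hT.le (locMap T (z, w))).2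
  have hnice : Local.Nice (Nop T a) η (max K (T * D)) := by
    refine ⟨?_, hg.pos, fun z => (hN1 z).1, fun z => (hN1 z).2.trans (le_max_left _ _), fun z => ?_⟩
    · rw [contDiff_one_iff_fderiv]
      refine ⟨fun z => (hd z).differentiableAt, ?_⟩
      rw [hfd]
      refine continuous_of_dominated (bound := fun _ => T * D)
        (fun z => ((hDc.comp (hl z)).const_smul T).aestronglyMeasurable)
        (fun z => .of_forall fun w => ?_) (integrable_const _) (.of_forall fun w => ?_)
      · rw [norm_smul, Real.norm_eq_abs, abs_of_pos hT]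
        exact mul_le_mul_of_nonneg_left (hDb _) hT.le
      · exact (hDc.comp (by unfold locMap; fun_prop)).const_smul T
    · refine (hnorm z).trans (le_trans ?_ (le_max_right _ _))
      refine mul_le_mul_of_nonneg_left ?_ hT.le
      simpa using integral_mono (hNi z) (integrable_const D) fun w => hDb _
  refine ⟨⟨_, hnice⟩, ?_⟩
  have hb := bddM_fu B hT hg
  have hSb : BddM (fun z => ∫ w, fu B g T (locMap T (z, w)) ∂gam n) (K * (n / T)) := by
    refine ⟨((hb.1.comp (measurable_locMap T)).stronglyMeasurable.integral_prod_right'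
      (f := fun p : E n × E n => fu B g T (locMap T p))).measurable, fun z => ?_⟩
    simpa using norm_integral_le_of_norm_le_const (μ := gam n) (C := K * (n / T))
      (f := fun w => fu B g T (locMap T (z, w))) (.of_forall fun w => by simpa using hb.2 _)
  rw [qavg, B.integral_qmeas hb, ← integral_const_mul, fisher]
  refine integral_mono (integrable_bdd_comp hnice.bddM_fisher)
    ((integrable_bdd_comp hSb).const_mul _) fun z => ?_
  have e : ∀ w, ‖fderiv ℝ a (locMap T (z, w))‖ ^ 2 / a (locMap T (z, w)) =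
      fu B g T (locMap T (z, w)) := fun w => by
    rw [norm_fderiv_avg_sq B hT hg, mul_div_assoc, div_self (avg_pos B hg hT.le _).ne', mul_one]
  have hr : Integrable (fun w => fu B g T (locMap T (z, w))) (gam n) :=
    (integrable_const (K * (n / T))).mono' (hb.1.comp (hl z).measurable).aestronglyMeasurable
      (.of_forall fun w => by simpa using hb.2 _)
  have hCS := sq_integral_le (hNi z) (hai z) (by simpa only [e] using hr)
    (fun w => norm_nonneg _) (fun w => avg_pos B hg hT.le _)
  simp only [e] at hCS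
  have hpos : 0 < Nop T a z := hg.pos.trans_le (hN1 z).1
  rw [div_le_iff₀ hpos]
  refine (pow_le_pow_left₀ (norm_nonneg _) (hnorm z) 2).trans ?_
  rw [mul_pow, mul_assoc]
  refine mul_le_mul_of_nonneg_left (hCS.trans_eq ?_) (sq_nonneg T)
  rw [Nop, mul_comm]

/-! ### the iterates -/

theorem gker_zero_bound (hT : 0 < T) (y z : E n) :
    W T y z * (1 + ‖y - T • z‖) ≤ (2 + T) * exp (‖y‖ ^ 2 / (2 * T)) := by
  set r := ‖y - T • z‖ with hr
  have e : ⟪y, z⟫ - T / 2 * ‖z‖ ^ 2 = ‖y‖ ^ 2 / (2 * T) + -(r ^ 2 / (2 * T)) := by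
    rw [hr, norm_sub_sq_real, real_inner_smul_right, norm_smul, mul_pow, Real.norm_eq_abs, sq_abs]
    field_simp; ring
  rw [W, e, exp_add, mul_assoc, mul_comm _ (exp (‖y‖ ^ 2 / (2 * T)))]
  refine mul_le_mul_of_nonneg_left ?_ (exp_pos _).le
  rw [exp_neg, inv_mul_le_iff₀ (exp_pos _)]
  have h1 := add_one_le_exp (r ^ 2 / (2 * T))
  have h2 : 0 ≤ r ^ 2 / (2 * T) := by positivity
  have h3 : r ≤ T / 2 + r ^ 2 / (2 * T) := by
    have : T / 2 + r ^ 2 / (2 * T) - r = (r - T) ^ 2 / (2 * T) := by field_simp; ring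
    have : 0 ≤ (r - T) ^ 2 / (2 * T) := by positivity
    linarith
  nlinarith

theorem hasFDerivAt_gker_zero (y z : E n) :
    HasFDerivAt (gker B T 0 y) ((W T y z / (2 * B.Z T y)) • innerSL ℝ (y - T • z)) z := by
  have a := (innerSL ℝ y).hasFDerivAt (x := z)
  have b := (hasStrictFDerivAt_norm_sq z).hasFDerivAt.const_mul (T / 2)
  have h := ((((a.sub b).exp).mul_const (B.Z T y)⁻¹).const_add 1).mul_const (2 : ℝ)⁻¹
  refine (h.congr_fderiv ?_).congr_of_eventuallyEq (.of_forall fun x => ?_)
  · ext v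
    simp [W, inner_sub_left, real_inner_smul_left]
    ring
  · simp [gker, W, div_eq_mul_inv]

theorem nice_zero (hT : 0 < T) (y : E n) : ∃ η K, Local.Nice (gker B T 0 y) η K := by
  have hZ := B.Z_pos hT.le y
  set K0 := (2 + T) * exp (‖y‖ ^ 2 / (2 * T)) / B.Z T y with hK0
  have h0 : 0 ≤ K0 := by positivity
  refine ⟨1 / 2, 1 / 2 + K0, ⟨?_, by norm_num, fun x => ?_, fun x => ?_, fun x => ?_⟩⟩
  · show ContDiff ℝ 1 fun z => (1 + W T y z / B.Z T y) / 2
    exact ((contDiff_const.add ((((innerSL ℝ y).contDiff.sub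
      (contDiff_const.mul (contDiff_norm_sq ℝ))).exp).div_const _))).div_const _
  · show 1 / 2 ≤ (1 + W T y x / B.Z T y) / 2
    have := div_nonneg (W_pos T y x).le hZ.le
    linarith
  · show (1 + W T y x / B.Z T y) / 2 ≤ _
    have h1 : W T y x / B.Z T y ≤ K0 := div_le_div_of_nonneg_right
      ((le_mul_of_one_le_right (W_pos _ _ _).le (by linarith [norm_nonneg (y - T • x)])).trans
        (gker_zero_bound hT y x)) hZ.le
    linarith
  · rw [(hasFDerivAt_gker_zero B y x).fderiv, norm_smul, innerSL_apply_norm, Real.norm_eq_abs,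
      abs_of_nonneg (div_nonneg (W_pos T y x).le (by positivity))]
    have h1 : W T y x * ‖y - T • x‖ ≤ (2 + T) * exp (‖y‖ ^ 2 / (2 * T)) :=
      (mul_le_mul_of_nonneg_left (by linarith) (W_pos T y x).le).trans (gker_zero_bound hT y x)
    have h2 : W T y x / (2 * B.Z T y) * ‖y - T • x‖ ≤ K0 / 2 := by
      rw [hK0, div_mul_eq_mul_div, div_div, mul_comm (B.Z T y) 2]
      gcongr
    linarith

theorem nice_gker (hT : 0 < T) (y : E n) : ∀ k, ∃ η K, Local.Nice (gker B T k y) η K
  | 0 => nice_zero B hT y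
  | k + 1 => by
    obtain ⟨η, K, h⟩ := nice_gker hT y k
    obtain ⟨⟨K', hK'⟩, -⟩ := step_nice B hT h
    exact ⟨η, K', hK'⟩

theorem integral_gker (hT : 0 < T) (y : E n) : ∀ k, ∫ z, gker B T k y z ∂B.μ = 1
  | 0 => by
    show ∫ z, (1 + W T y z / B.Z T y) / 2 ∂B.μ = 1
    rw [integral_div, integral_add (integrable_const _) ((B.integrable_W hT.le y).div_const _),
      integral_div, integral_const, probReal_univ, one_smul,
      show (∫ z, W T y z ∂B.μ) = B.Z T y from rfl, div_self (B.Z_pos hT.le y).ne']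
    norm_num
  | k + 1 => by
    obtain ⟨η, K, h⟩ := nice_gker B hT y k
    have hb : BddM (fun x => B.avg T x (gker B T k y)) K :=
      ⟨(contDiff_avg B hT h).continuous.measurable, fun x => B.abs_avg_le_bdd hT.le x h.bddM⟩
    rw [← integral_gker hT y k, ← B.integral_qmeas_avg hT.le h.bddM, B.integral_qmeas hb]
    rfl

/-! ### measurability -/

theorem measurable_avg_pair (hT : 0 ≤ T) {f : E n × E n → ℝ} (hf : Measurable f) :
    Measurable fun p : E n × E n => B.avg T p.2 fun z => f (p.1, z) := by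
  simp only [avg, num]
  refine Measurable.div ?_ ((B.continuous_Z hT).measurable.comp measurable_snd)
  exact (((by unfold W; fun_prop : Continuous fun q : (E n × E n) × E n => W T q.1.2 q.2).measurable.mul
    (hf.comp (measurable_fst.fst.prodMk measurable_snd))).stronglyMeasurable.integral_prod_right'
      (f := fun q : (E n × E n) × E n => W T q.1.2 q.2 * f (q.1.1, q.2))).measurable

theorem measurable_gker (hT : 0 ≤ T) : ∀ k, Measurable fun p : E n × E n => gker B T k p.1 p.2
  | 0 => by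
    show Measurable fun p : E n × E n => (1 + W T p.1 p.2 / B.Z T p.1) / 2
    exact ((((by unfold W; fun_prop : Continuous fun p : E n × E n => W T p.1 p.2).measurable.div
      ((B.continuous_Z hT).measurable.comp measurable_fst))).const_add 1).div_const 2
  | k + 1 => by
    show Measurable fun p : E n × E n =>
      ∫ w, B.avg T (locMap T (p.2, w)) (gker B T k p.1) ∂gam n
    exact (((measurable_avg_pair B hT (measurable_gker hT k)).comp
      (measurable_fst.fst.prodMk ((measurable_locMap T).comp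
        (measurable_fst.snd.prodMk measurable_snd)))).stronglyMeasurable.integral_prod_right'
      (f := fun q : (E n × E n) × E n => B.avg T (locMap T (q.1.2, q.2)) (gker B T k q.1.1))).measurable

theorem measurable_info (hT : 0 ≤ T) (k : ℕ) : Measurable (info B T k) := by
  have h := measurable_avg_pair B hT (measurable_gker B hT k)
  exact ((h.mul h.log).stronglyMeasurable.integral_prod_right'
    (f := fun p : E n × E n =>
      B.avg T p.2 (gker B T k p.1) * log (B.avg T p.2 (gker B T k p.1)))).measurable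

theorem ofReal_avg {s : ℝ} (hs : 0 ≤ s) (θ : E n) {F : E n → ℝ} (hF : Good F) (h0 : ∀ x, 0 ≤ F x) :
    ENNReal.ofReal (B.avg s θ F) = ∫⁻ x, ENNReal.ofReal (F x) ∂(B.tilt s hs θ).μ := by
  rw [← B.integral_tilt s hs θ, ofReal_integral_eq_lintegral_ofReal
    ((B.tilt s hs θ).good_integrable hF) (.of_forall h0)]

theorem lintegral_gker (hT : 0 < T) :
    ∀ k z, ∫⁻ y, ENNReal.ofReal (gker B T k y z) ∂B.qmeas T = 1
  | 0, z => by
    have hm : Measurable fun y : E n => ENNReal.ofReal (W T y z / (2 * B.Z T y)) :=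
      (((by unfold W; fun_prop : Continuous fun y : E n => W T y z).measurable.div
        ((B.continuous_Z hT.le).measurable.const_mul 2))).ennreal_ofReal
    have e : ∀ y, ENNReal.ofReal (gker B T 0 y z) =
        ENNReal.ofReal (1 / 2) + ENNReal.ofReal (W T y z / (2 * B.Z T y)) := fun y => by
      rw [← ENNReal.ofReal_add (by norm_num)
        (div_nonneg (W_pos _ _ _).le (by have := B.Z_pos hT.le y; positivity))]
      congr 1
      show (1 + W T y z / B.Z T y) / 2 = _
      ring
    simp only [e]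
    rw [lintegral_add_right _ hm, lintegral_const, measure_univ, mul_one, B.lintegral_qmeas hT.le hm]
    have e2 : ∀ v : E n, ENNReal.ofReal (B.Z T (√T • v)) *
        ENNReal.ofReal (W T (√T • v) z / (2 * B.Z T (√T • v))) =
          ENNReal.ofReal (1 / 2) * ENNReal.ofReal (W T (√T • v) z) := fun v => by
      rw [← ENNReal.ofReal_mul (B.Z_pos hT.le _).le, ← ENNReal.ofReal_mul (by norm_num)]
      congr 1
      have := (B.Z_pos hT.le (√T • v)).ne'
      field_simp
    have h1 : ∫⁻ v, ENNReal.ofReal (W T (√T • v) z) ∂gam n = 1 := by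
      simpa using (lintegral_shift hT.le z fun _ => 1).symm
    simp only [e2]
    rw [lintegral_const_mul' _ _ ENNReal.ofReal_ne_top, h1, mul_one,
      ← ENNReal.ofReal_add (by norm_num) (by norm_num)]
    norm_num
  | k + 1, z => by
    have hm := measurable_avg_pair B hT.le (measurable_gker B hT.le k)
    have e : ∀ y, ENNReal.ofReal (gker B T (k + 1) y z) =
        ∫⁻ w, ENNReal.ofReal (B.avg T (locMap T (z, w)) (gker B T k y)) ∂gam n := fun y => by
      obtain ⟨η, K, h⟩ := nice_gker B hT y k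
      exact ofReal_integral_eq_lintegral_ofReal
        ((integrable_const K).mono' ((contDiff_avg B hT h).continuous.comp
          (by unfold locMap; fun_prop)).aestronglyMeasurable (.of_forall fun w => by
            simpa using B.abs_avg_le_bdd hT.le _ h.bddM))
        (.of_forall fun w => (avg_pos B h hT.le _).le)
    simp only [e]
    rw [lintegral_lintegral_swap]
    · have h1 : ∀ w, ∫⁻ y, ENNReal.ofReal (B.avg T (locMap T (z, w)) (gker B T k y)) ∂B.qmeas T = 1 := by
        intro w
        have e1 : ∀ y, ENNReal.ofReal (B.avg T (locMap T (z, w)) (gker B T k y)) =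
            ∫⁻ x, ENNReal.ofReal (gker B T k y x) ∂(B.tilt T hT.le (locMap T (z, w))).μ := fun y => by
          obtain ⟨η, K, h⟩ := nice_gker B hT y k
          exact ofReal_avg B hT.le _ (poly_of_nice h).good fun x => (h.h_pos x).le
        simp only [e1]
        rw [lintegral_lintegral_swap (measurable_gker B hT.le k).ennreal_ofReal.aemeasurable]
        simp [lintegral_gker hT k]
      simp [h1]
    · exact ((hm.comp (measurable_fst.prodMk ((measurable_locMap T).comp
        (measurable_const.prodMk measurable_snd)))).ennreal_ofReal).aemeasurable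

/-! ### the rare-event term -/

/-- kernel of the rare-event term -/
def kint (w : ℝ → E n → ℝ) (s : ℝ) (z x : E n) : ℝ :=
  W |s| (√|s| • z) x * (w |s| (√|s| • z) * ∑ k, B.zc |s| (√|s| • z) k x ^ 2)

/-- weight of the rare-event term -/
def Hker (w : ℝ → E n → ℝ) (T : ℝ) (x : E n) : ℝ≥0∞ :=
  ∫⁻ s in Ioc T (2 * T), ∫⁻ z, ENNReal.ofReal (kint B w s z x) ∂gam n

variable {w : ℝ → E n → ℝ}

theorem continuous_kint (hw : B.Nice w) :
    Continuous fun p : (E n × ℝ) × E n => kint B w p.1.2 p.2 p.1.1 := by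
  have hc : Continuous fun p : (E n × ℝ) × E n => (|p.1.2|, √|p.1.2| • p.2) :=
    (continuous_fst.snd.abs).prodMk ((continuous_fst.snd.abs.sqrt).smul continuous_snd)
  have hmem : ∀ p : (E n × ℝ) × E n, (|p.1.2|, √|p.1.2| • p.2) ∈ Ici (0 : ℝ) ×ˢ (univ : Set (E n)) :=
    fun p => ⟨mem_Ici.2 (abs_nonneg p.1.2), mem_univ _⟩
  have h1 : Continuous fun p : (E n × ℝ) × E n => W |p.1.2| (√|p.1.2| • p.2) p.1.1 := by
    unfold W; fun_prop
  have h2 := ContinuousOn.comp_continuous (g := fun q : ℝ × E n => w q.1 q.2)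
    (f := fun p : (E n × ℝ) × E n => (|p.1.2|, √|p.1.2| • p.2)) hw.1 hc hmem
  have h3 : ∀ k : Fin n, Continuous fun p : (E n × ℝ) × E n =>
      B.avg |p.1.2| (√|p.1.2| • p.2) fun x => x k := fun k => by
    have h0 : ContinuousOn (fun q : ℝ × E n => B.avg q.1 q.2 fun x => x k) (Ici 0 ×ˢ univ) :=
      (Base.Nice.avg B (Poly.coord k)).1
    have := ContinuousOn.comp_continuous h0
      (f := fun p : (E n × ℝ) × E n => (|p.1.2|, √|p.1.2| • p.2)) hc hmem
    exact this
  have h4 : ∀ k : Fin n, Continuous fun p : (E n × ℝ) × E n => p.1.1 k := fun k =>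
    (PiLp.continuous_apply 2 (fun _ : Fin n => ℝ) k).comp continuous_fst.fst
  have h5 : Continuous fun p : (E n × ℝ) × E n =>
      ∑ k, (p.1.1 k - B.avg |p.1.2| (√|p.1.2| • p.2) fun x => x k) ^ 2 :=
    continuous_finset_sum _ fun k _ => ((h4 k).sub (h3 k)).pow 2
  have := h1.mul (h2.mul h5)
  exact this

theorem measurable_Hker (hw : B.Nice w) : Measurable (Hker B w T) := by
  exact ((continuous_kint B hw).measurable.ennreal_ofReal.lintegral_prod_right'
    (f := fun p : (E n × ℝ) × E n => ENNReal.ofReal (kint B w p.1.2 p.2 p.1.1))).lintegral_prod_right'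
      (f := fun p : E n × ℝ => ∫⁻ z, ENNReal.ofReal (kint B w p.2 z p.1) ∂gam n)

theorem beta_le (hg : Local.Nice g η K) (hT : 0 < T) (hw : B.Nice w)
    (hw0 : ∀ s, 0 ≤ s → ∀ θ, 0 ≤ w s θ) :
    ENNReal.ofReal (∫ s in T..2 * T, ∫ z, B.Z s (√s • z) * (w s (√s • z) * fu B g s (√s • z)) ∂gam n)
      ≤ ∫⁻ x, ENNReal.ofReal (g x) * Hker B w T x ∂B.μ := by
  have hwu : B.Nice fun s θ => w s θ * fu B g s θ :=
    hw.mul (fisherJ_val B g ▸ (jok_fisherJ B hg).nice)
  have hc : ContinuousOn (fun s => ∫ z, B.Z s (√s • z) * (w s (√s • z) * fu B g s (√s • z)) ∂gam n)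
      (Icc T (2 * T)) := (B.continuousOn_gam_Z_mul hwu).mono fun r hr => hT.le.trans hr.1
  have hnn : ∀ s, 0 ≤ s → ∀ z : E n, 0 ≤ B.Z s (√s • z) * (w s (√s • z) * fu B g s (√s • z)) :=
    fun s hs z => mul_nonneg (B.Z_pos hs _).le (mul_nonneg (hw0 s hs _) (fu_nonneg B hg hs _))
  rw [intervalIntegral.integral_of_le (by linarith),
    ofReal_integral_eq_lintegral_ofReal ((hc.integrableOn_compact isCompact_Icc).mono_set Ioc_subset_Icc_self)]
  swap
  · exact (ae_restrict_iff' measurableSet_Ioc).2 (.of_forall fun s hs =>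
      integral_nonneg (hnn s (hT.le.trans hs.1.le)))
  have hstep : ∀ s ∈ Ioc T (2 * T),
      ENNReal.ofReal (∫ z, B.Z s (√s • z) * (w s (√s • z) * fu B g s (√s • z)) ∂gam n) ≤
        ∫⁻ x, ENNReal.ofReal (g x) * ∫⁻ z, ENNReal.ofReal (kint B w s z x) ∂gam n ∂B.μ := by
    intro s hs
    have hs0 : 0 ≤ s := hT.le.trans hs.1.le
    have hm : Measurable fun p : E n × E n => ENNReal.ofReal (kint B w s p.1 p.2) :=
      ((continuous_kint B hw).comp (by fun_prop :
        Continuous fun p : E n × E n => ((p.2, s), p.1))).measurable.ennreal_ofReal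
    rw [ofReal_integral_eq_lintegral_ofReal
      (hwu.gBound_Z_mul.integrable hs0 ((B.continuous_Z hs0).mul (hwu.continuous hs0)))
      (.of_forall (hnn s hs0))]
    have e : ∀ z, ENNReal.ofReal (B.Z s (√s • z) * (w s (√s • z) * fu B g s (√s • z))) ≤
        ∫⁻ x, ENNReal.ofReal (g x) * ENNReal.ofReal (kint B w s z x) ∂B.μ := fun z => by
      set θ := √s • z with hθ
      have hF : Good fun x => g x * ∑ k, B.zc s θ k x ^ 2 :=
        (poly_of_nice hg).good.mul (Good.sum _ fun k _ => (B.good_zc s θ k).sq)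
      have hk : ∀ x, kint B w s z x = W s θ x * (w s θ * ∑ k, B.zc s θ k x ^ 2) := fun x => by
        simp only [kint, abs_of_nonneg hs0, hθ]
      have hk0 : ∀ x, 0 ≤ kint B w s z x := fun x => by
        rw [hk]
        exact mul_nonneg (W_pos _ _ _).le
          (mul_nonneg (hw0 s hs0 θ) (Finset.sum_nonneg fun k _ => sq_nonneg _))
      have hi : Integrable (fun x => g x * kint B w s z x) B.μ := by
        refine ((B.good_integrable_W hs0 θ hF).const_mul (w s θ)).congr (.of_forall fun x => ?_)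
        simp only [hk]; ring
      calc _ ≤ ENNReal.ofReal (∫ x, g x * kint B w s z x ∂B.μ) := by
            refine ENNReal.ofReal_le_ofReal ?_
            refine (mul_le_mul_of_nonneg_left (mul_le_mul_of_nonneg_left (fu_le_zc B hg hs0 θ)
              (hw0 s hs0 θ)) (B.Z_pos hs0 θ).le).trans_eq ?_
            rw [← mul_assoc, mul_comm (B.Z s θ) (w s θ), mul_assoc, mul_comm (B.Z s θ),
              ← B.num_eq_avg_mul hs0, num, ← integral_const_mul]
            congr 1; funext x; rw [hk]; ring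
        _ = _ := by
            rw [ofReal_integral_eq_lintegral_ofReal hi
              (.of_forall fun x => mul_nonneg (hg.h_pos x).le (hk0 x))]
            simp only [ENNReal.ofReal_mul (hg.h_pos _).le]
    refine (lintegral_mono e).trans_eq ?_
    rw [lintegral_lintegral_swap
      ((hg.smooth.continuous.measurable.ennreal_ofReal.comp measurable_snd).mul hm).aemeasurable]
    congr 1; funext x
    rw [lintegral_const_mul' _ _ ENNReal.ofReal_ne_top]
  refine (setLIntegral_mono' measurableSet_Ioc hstep).trans_eq ?_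
  rw [lintegral_lintegral_swap]
  · congr 1; funext x
    rw [lintegral_const_mul' _ _ ENNReal.ofReal_ne_top, Hker]
  · exact ((hg.smooth.continuous.measurable.ennreal_ofReal.comp measurable_snd).mul
      (((continuous_kint B hw).measurable.ennreal_ofReal.lintegral_prod_right'
        (f := fun p : (E n × ℝ) × E n => ENNReal.ofReal (kint B w p.1.2 p.2 p.1.1))).comp
          measurable_swap)).aemeasurable

theorem lintegral_Hker_le (hn : 1 ≤ n) (hT : 0 < T) (hw : B.Nice w)
    (hw0 : ∀ s, 0 ≤ s → ∀ θ, 0 ≤ w s θ)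
    (hsmall : ∀ s ∈ Ioc T (2 * T), ∫ θ, w s θ ∂B.qmeas s ≤ 1 / (4 * (n : ℝ) ^ 2)) :
    ∫⁻ x, Hker B w T x ∂B.μ ≤ ENNReal.ofReal (1 / (4 * n)) := by
  have hn0 : (0 : ℝ) < n := by exact_mod_cast hn
  simp only [Hker]
  rw [lintegral_lintegral_swap]
  swap
  · exact ((continuous_kint B hw).measurable.ennreal_ofReal.lintegral_prod_right'
      (f := fun p : (E n × ℝ) × E n => ENNReal.ofReal (kint B w p.1.2 p.2 p.1.1))).aemeasurable
  refine (setLIntegral_mono' measurableSet_Ioc (g := fun _ => ENNReal.ofReal (1 / (4 * n * T)))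
    fun s hs => ?_).trans_eq ?_
  · have hs0 : 0 < s := hT.trans hs.1
    rw [lintegral_lintegral_swap ((((continuous_kint B hw).comp (by fun_prop :
      Continuous fun p : E n × E n => ((p.1, s), p.2))).measurable.ennreal_ofReal).aemeasurable)]
    have h1 : ∀ z, ∫⁻ x, ENNReal.ofReal (kint B w s z x) ∂B.μ ≤
        ENNReal.ofReal (B.Z s (√s • z)) * ENNReal.ofReal (w s (√s • z) * (n / s)) := fun z => by
      set θ := √s • z with hθ
      have hk : ∀ x, kint B w s z x = w s θ * (W s θ x * ∑ k, B.zc s θ k x ^ 2) := fun x => by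
        simp only [kint, abs_of_nonneg hs0.le, hθ]; ring
      have hF : Good fun x => ∑ k, B.zc s θ k x ^ 2 := Good.sum _ fun k _ => (B.good_zc s θ k).sq
      simp only [hk]
      rw [← ofReal_integral_eq_lintegral_ofReal ((B.good_integrable_W hs0.le θ hF).const_mul _)
        (.of_forall fun x => mul_nonneg (hw0 s hs0.le θ)
          (mul_nonneg (W_pos _ _ _).le (Finset.sum_nonneg fun k _ => sq_nonneg _))),
        ← ENNReal.ofReal_mul (B.Z_pos hs0.le θ).le, integral_const_mul]
      refine ENNReal.ofReal_le_ofReal ?_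
      rw [mul_left_comm]
      refine mul_le_mul_of_nonneg_left ?_ (hw0 s hs0.le θ)
      rw [show (∫ x, W s θ x * ∑ k, B.zc s θ k x ^ 2 ∂B.μ) =
        B.num s θ fun x => ∑ k, B.zc s θ k x ^ 2 from rfl, B.num_eq_avg_mul hs0.le, mul_comm]
      refine mul_le_mul_of_nonneg_left ?_ (B.Z_pos hs0.le θ).le
      rw [B.avg_sum _ hs0.le θ fun k _ => (B.good_zc s θ k).sq]
      exact sum_zc_sq_le B hs0 θ
    have hwm : Measurable fun θ => w s θ * (n / s) := (hw.continuous hs0.le).measurable.mul_const _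
    have hwi : Integrable (fun θ => w s θ) (B.qmeas s) :=
      (B.integrable_qmeas_iff hs0.le (hw.continuous hs0.le).measurable).2
        (hw.gBound_Z_mul.integrable hs0.le ((B.continuous_Z hs0.le).mul (hw.continuous hs0.le)))
    refine (lintegral_mono h1).trans ?_
    rw [← B.lintegral_qmeas hs0.le hwm.ennreal_ofReal,
      ← ofReal_integral_eq_lintegral_ofReal (hwi.mul_const _)
        (.of_forall fun θ => mul_nonneg (hw0 s hs0.le θ) (by positivity)), integral_mul_const]
    refine ENNReal.ofReal_le_ofReal ?_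
    calc _ ≤ 1 / (4 * (n : ℝ) ^ 2) * (n / T) := by
          refine mul_le_mul (hsmall s hs) ?_ (by positivity) (by positivity)
          exact div_le_div_of_nonneg_left hn0.le hT hs.1.le
      _ = _ := by field_simp
  · rw [setLIntegral_const, Real.volume_Ioc, ← ENNReal.ofReal_mul (by positivity)]
    congr 1
    field_simp
    ring

/-! ### the recursion -/

theorem lintegral_norm_sq_le (hn : 1 ≤ n) (hS : B.Subg) (hT : 0 < T) (hT1 : T ≤ 1) :
    ∫⁻ θ, ENNReal.ofReal (‖θ‖ ^ 2) ∂B.qmeas T ≤ ENNReal.ofReal (4 * T * n) := by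
  obtain ⟨hgi, hg⟩ := gam_second_moment (n := n) hn
  have hxi : Integrable (fun x => ‖x‖ ^ 2) B.μ :=
    B.integrable_of_growth (by fun_prop) expGrowth_norm.sq
  have hi1 : Integrable (fun p : E n × E n => 2 * T ^ 2 * ‖p.1‖ ^ 2) (B.μ.prod (gam n)) :=
    (hxi.const_mul _).comp_fst (gam n)
  have hi2 : Integrable (fun p : E n × E n => 2 * T * ‖p.2‖ ^ 2) (B.μ.prod (gam n)) :=
    (hgi.const_mul _).comp_snd B.μ
  rw [qmeas, lintegral_map (by fun_prop) (measurable_locMap T)]
  refine (lintegral_mono (g := fun p : E n × E n =>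
    ENNReal.ofReal (2 * T ^ 2 * ‖p.1‖ ^ 2 + 2 * T * ‖p.2‖ ^ 2)) fun p => ?_).trans ?_
  · refine ENNReal.ofReal_le_ofReal ?_
    simpa [locMap] using locMap_sub (n := n) hT.le p.1 0 p.2 0
  rw [← ofReal_integral_eq_lintegral_ofReal (f := fun p : E n × E n =>
      2 * T ^ 2 * ‖p.1‖ ^ 2 + 2 * T * ‖p.2‖ ^ 2) (hi1.add hi2)
    (.of_forall fun p => by positivity)]
  refine ENNReal.ofReal_le_ofReal ?_
  rw [integral_add hi1 hi2, integral_prod _ hi1, integral_prod _ hi2]
  simp only [integral_const, probReal_univ, one_smul, integral_const_mul]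
  have hTT : T ^ 2 ≤ T := by nlinarith
  have h0 : 0 ≤ ∫ x, ‖x‖ ^ 2 ∂B.μ := integral_nonneg fun x => sq_nonneg _
  nlinarith [mul_le_mul_of_nonneg_left hg (by positivity : (0:ℝ) ≤ 2 * T),
    mul_le_mul hTT (B.second_moment hS) h0 hT.le]

theorem fisher_zero_le (hn : 1 ≤ n) (hS : B.Subg) (hT : 0 < T) (hT1 : T ≤ 1) :
    ∫⁻ y, ENNReal.ofReal (fisher B.μ (gker B T 0 y)) ∂B.qmeas T ≤
      ENNReal.ofReal (5 * T * n) := by
  have hT2 : (0 : ℝ) ≤ T ^ 2 := sq_nonneg T
  have hq : Good fun x : E n => ‖x‖ ^ 2 := Good.norm_sq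
  have hpt : ∀ y, fisher B.μ (gker B T 0 y) ≤ ‖y‖ ^ 2 + T ^ 2 * B.avg T y fun x => ‖x‖ ^ 2 := by
    intro y
    obtain ⟨η, K, h⟩ := nice_gker B hT y 0
    have hZ := B.Z_pos hT.le y
    have hF : Good fun x : E n => ‖y‖ ^ 2 + T ^ 2 * ‖x‖ ^ 2 :=
      (Good.const _).add (hq.const_mul _)
    refine (integral_mono (integrable_bdd_comp h.bddM_fisher)
      ((B.good_integrable_W hT.le y hF).div_const (B.Z T y)) fun x => ?_).trans_eq ?_
    · rw [(hasFDerivAt_gker_zero B y x).fderiv, norm_smul, innerSL_apply_norm, Real.norm_eq_abs,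
        abs_of_nonneg (div_nonneg (W_pos T y x).le (by positivity)),
        show gker B T 0 y x = (1 + W T y x / B.Z T y) / 2 from rfl]
      set r := ‖y - T • x‖
      set a := W T y x / B.Z T y with ha
      have ha0 : 0 ≤ a := div_nonneg (W_pos _ _ _).le hZ.le
      have hr : r ^ 2 ≤ 2 * (‖y‖ ^ 2 + T ^ 2 * ‖x‖ ^ 2) := by
        have h1 : r ≤ ‖y‖ + T * ‖x‖ := (norm_sub_le _ _).trans_eq (by
          rw [norm_smul, Real.norm_eq_abs, abs_of_pos hT])
        have := pow_le_pow_left₀ (norm_nonneg _) h1 2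
        nlinarith [sq_nonneg (‖y‖ - T * ‖x‖)]
      rw [show W T y x / (2 * B.Z T y) = a / 2 by rw [ha]; ring,
        show W T y x * (‖y‖ ^ 2 + T ^ 2 * ‖x‖ ^ 2) / B.Z T y = a * (‖y‖ ^ 2 + T ^ 2 * ‖x‖ ^ 2) by
          rw [ha]; ring, div_le_iff₀ (by positivity)]
      nlinarith [mul_le_mul_of_nonneg_left hr (mul_nonneg ha0 ha0), mul_nonneg ha0 (sq_nonneg r)]
    · rw [integral_div]
      show B.avg T y _ = _
      rw [B.avg_add hT.le y (Good.const (‖y‖ ^ 2)).1.aestronglyMeasurable (Good.const _).2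
        (hq.const_mul _).1.aestronglyMeasurable (hq.const_mul _).2, B.avg_const hT.le,
        B.avg_const_mul]
  have ha0 : ∀ y, 0 ≤ B.avg T y fun x => ‖x‖ ^ 2 := fun y => by
    simpa [B.avg_const hT.le] using B.avg_mono hT.le y (Good.const 0) hq fun x => sq_nonneg ‖x‖
  have hac : Measurable fun y => B.avg T y fun x => ‖x‖ ^ 2 :=
    (B.continuous_avg hT.le hq.1.aestronglyMeasurable hq.2).measurable
  have hai : Integrable (fun y => B.avg T y fun x => ‖x‖ ^ 2) (B.qmeas T) := by
    rw [B.integrable_qmeas_iff hT.le hac]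
    exact ((Base.Nice.avg B Poly.norm_sq).gBound_Z_mul).integrable hT.le
      ((B.continuous_Z hT.le).mul (B.continuous_avg hT.le hq.1.aestronglyMeasurable hq.2))
  refine (lintegral_mono fun y => ENNReal.ofReal_le_ofReal (hpt y)).trans ?_
  simp only [fun y : E n => ENNReal.ofReal_add (sq_nonneg ‖y‖) (mul_nonneg hT2 (ha0 y))]
  rw [lintegral_add_right _ (hac.const_mul _).ennreal_ofReal,
    ← ofReal_integral_eq_lintegral_ofReal (hai.const_mul _)
      (.of_forall fun y => mul_nonneg hT2 (ha0 y)), integral_const_mul,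
    show (∫ y, B.avg T y (fun x => ‖x‖ ^ 2) ∂B.qmeas T) = ∫ x, ‖x‖ ^ 2 ∂B.μ from
      B.qavg_avg hT.le hq.1 hq.2]
  refine (add_le_add (lintegral_norm_sq_le B hn hS hT hT1) le_rfl).trans ?_
  have h0 : 0 ≤ ∫ x, ‖x‖ ^ 2 ∂B.μ := integral_nonneg fun x => sq_nonneg _
  rw [← ENNReal.ofReal_add (by positivity) (mul_nonneg hT2 h0)]
  refine ENNReal.ofReal_le_ofReal ?_
  have hTT : T ^ 2 ≤ T := by nlinarith
  have h1 := mul_le_mul hTT (B.second_moment hS) h0 hT.le
  have : 0 ≤ T * n := by positivity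
  linarith

theorem fisher_rec (hn : 1 ≤ n) (hT : 0 < T) {R : ℝ} (hR : 0 ≤ R) (hRT : 4 * R * T ≤ 1 / 3)
    (hw : B.Nice w) (hw0 : ∀ s, 0 ≤ s → ∀ θ, 0 ≤ w s θ)
    (hvar : ∀ s, 0 < s → ∀ θ v, B.varAt s θ (fun x => ⟪v, x⟫) ≤ (R + w s θ / s) * ‖v‖ ^ 2)
    (hsmall : ∀ s ∈ Ioc T (2 * T), ∫ θ, w s θ ∂B.qmeas s ≤ 1 / (4 * (n : ℝ) ^ 2)) (k : ℕ) :
    ∫⁻ y, ENNReal.ofReal (fisher B.μ (gker B T (k + 1) y)) ∂B.qmeas T ≤
      ENNReal.ofReal (3 / 4) * ∫⁻ y, ENNReal.ofReal (fisher B.μ (gker B T k y)) ∂B.qmeas T +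
        ENNReal.ofReal (T / n) := by
  have hn0 : (0 : ℝ) < n := by exact_mod_cast hn
  have hexp : exp (4 * R * T) ≤ 3 / 2 := by
    refine (exp_le_exp.2 hRT).trans ?_
    refine (Real.exp_bound_div_one_sub_of_interval (by norm_num) (by norm_num)).trans ?_
    norm_num
  have hmg : Measurable fun y => ∫⁻ x, ENNReal.ofReal (gker B T k y x) * Hker B w T x ∂B.μ :=
    ((measurable_gker B hT.le k).ennreal_ofReal.mul
      ((measurable_Hker B hw).comp measurable_snd)).lintegral_prod_right'
        (f := fun p : E n × E n => ENNReal.ofReal (gker B T k p.1 p.2) * Hker B w T p.2)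
  have hpt : ∀ y, ENNReal.ofReal (fisher B.μ (gker B T (k + 1) y)) ≤
      ENNReal.ofReal (3 / 4) * ENNReal.ofReal (fisher B.μ (gker B T k y)) +
        ENNReal.ofReal (3 * T) * ∫⁻ x, ENNReal.ofReal (gker B T k y x) * Hker B w T x ∂B.μ := by
    intro y
    obtain ⟨η, K, h⟩ := nice_gker B hT y k
    set g := gker B T k y
    set b := ∫ s in T..2 * T, ∫ z, B.Z s (√s • z) * (w s (√s • z) * fu B g s (√s • z)) ∂gam n
    have hb0 : 0 ≤ b := intervalIntegral.integral_nonneg (by linarith) fun s hs =>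
      integral_nonneg fun z => mul_nonneg (B.Z_pos (hT.le.trans hs.1) _).le
        (mul_nonneg (hw0 s (hT.le.trans hs.1) _) (fu_nonneg B h (hT.le.trans hs.1) _))
    have hU : B.qavg (2 * T) (fu B g (2 * T)) ≤ 1 / (2 * T ^ 2) * fisher B.μ g := by
      have hA : BddM (fun θ => B.avg (2 * T) θ fun x => ‖fderiv ℝ g x‖ ^ 2 / g x) (K ^ 2 / η) :=
        ⟨(B.continuous_avg (by linarith) h.bddM_fisher.1.aestronglyMeasurable
          (expGrowth_bounded h.bddM_fisher.2)).measurable,
          fun θ => B.abs_avg_le_bdd (by linarith) θ h.bddM_fisher⟩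
      rw [fisher, ← B.integral_qmeas_avg (by linarith : (0:ℝ) ≤ 2 * T) h.bddM_fisher,
        ← integral_const_mul, qavg]
      refine integral_mono (integrable_bdd_comp (bddM_fu B (by linarith) h))
        ((integrable_bdd_comp hA).const_mul _) fun θ => ?_
      refine (fu_le_fisher B h (by linarith) θ).trans_eq ?_
      congr 1; field_simp
    have hF0 : 0 ≤ fisher B.μ g :=
      integral_nonneg fun x => div_nonneg (sq_nonneg _) (h.h_pos x).le
    have hchain : fisher B.μ (gker B T (k + 1) y) ≤ 3 / 4 * fisher B.μ g + 3 * T * b := by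
      refine (step_nice B hT h).2.trans ?_
      calc T ^ 2 * B.qavg T (fu B g T)
          ≤ T ^ 2 * (3 / 2 * (1 / (2 * T ^ 2) * fisher B.μ g + 2 / T * b)) := by
            refine mul_le_mul_of_nonneg_left ((qavg_fu_le B h hT hR hw hw0 hvar).trans
              (mul_le_mul hexp (add_le_add hU le_rfl) ?_ (by norm_num))) (sq_nonneg T)
            exact add_nonneg (integral_nonneg fun θ => fu_nonneg B h (by linarith) θ)
              (by positivity)
        _ = _ := by field_simp; ring
    refine (ENNReal.ofReal_le_ofReal hchain).trans ?_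
    rw [ENNReal.ofReal_add (by positivity) (by positivity), ENNReal.ofReal_mul (by norm_num),
      ENNReal.ofReal_mul (by positivity : (0:ℝ) ≤ 3 * T)]
    gcongr
    exact beta_le B h hT hw hw0
  refine (lintegral_mono hpt).trans ?_
  rw [lintegral_add_right _ (hmg.const_mul _), lintegral_const_mul' _ _ ENNReal.ofReal_ne_top,
    lintegral_const_mul' _ _ ENNReal.ofReal_ne_top, lintegral_lintegral_swap
      ((measurable_gker B hT.le k).ennreal_ofReal.mul
        ((measurable_Hker B hw).comp measurable_snd)).aemeasurable]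
  gcongr
  have e : ∀ x, ∫⁻ y, ENNReal.ofReal (gker B T k y x) * Hker B w T x ∂B.qmeas T = Hker B w T x :=
    fun x => by
      have hmx : Measurable fun y => ENNReal.ofReal (gker B T k y x) :=
        ((measurable_gker B hT.le k).comp
          (measurable_id.prodMk (measurable_const (a := x)))).ennreal_ofReal
      rw [lintegral_mul_const _ hmx, lintegral_gker B hT k x, one_mul]
  simp only [e]
  refine (mul_le_mul' le_rfl (lintegral_Hker_le B hn hT hw hw0 hsmall)).trans ?_
  rw [← ENNReal.ofReal_mul (by positivity)]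
  refine ENNReal.ofReal_le_ofReal ?_
  rw [show 3 * T * (1 / (4 * n)) = 3 / 4 * (T / n) by ring]
  have : 0 ≤ T / n := by positivity
  linarith

/-! ### entropy -/

theorem info_le {C : ℝ} (hlsi : ∀ h : E n → ℝ, ContDiff ℝ 1 h → ∀ η K : ℝ, 0 < η →
      (∀ x, η ≤ h x) → (∀ x, h x ≤ K) → (∀ x, ‖fderiv ℝ h x‖ ≤ K) →
      (∫ x, h x * log (h x) ∂B.μ) - (∫ x, h x ∂B.μ) * log (∫ x, h x ∂B.μ)
        ≤ C * ∫ x, ‖fderiv ℝ h x‖ ^ 2 / h x ∂B.μ)
    (hT : 0 < T) (k : ℕ) (y : E n) :
    0 ≤ info B T k y ∧ info B T k y ≤ C * fisher B.μ (gker B T k y) := by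
  obtain ⟨η, K, h⟩ := nice_gker B hT y k
  set g := gker B T k y with hg
  set a : E n → ℝ := fun θ => B.avg T θ g with ha
  have hI : info B T k y = ∫ θ, a θ * log (a θ) ∂B.qmeas T := rfl
  have h1 : ∫ x, g x ∂B.μ = 1 := integral_gker B hT y k
  have hab : BddM a K :=
    ⟨(contDiff_avg B hT h).continuous.measurable, fun x => B.abs_avg_le_bdd hT.le x h.bddM⟩
  have hal : BddM (fun θ => log (a θ)) (|log η| + |log K|) :=
    ⟨hab.1.log, fun θ => by
      obtain ⟨m1, m2⟩ := avg_mem B h hT.le θ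
      have l1 := log_le_log h.pos m1
      have l2 := log_le_log (h.pos.trans_le m1) m2
      rw [abs_le]
      constructor <;> cases abs_cases (log η) <;> cases abs_cases (log K) <;> linarith⟩
  have hall := hab.mul hal
  have hgl := h.bddM.mul h.bddM_log
  have gg := (poly_of_nice h).good
  have ggl : Good fun x => g x * log (g x) :=
    Good.bdd (h.smooth.continuous.mul (h.smooth.continuous.log fun x => (h.h_pos x).ne')) hgl.2
  have hea : ∫ θ, a θ ∂B.qmeas T = 1 := by rw [← h1, ← B.integral_qmeas_avg hT.le h.bddM]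
  rw [hI]
  constructor
  · have := integral_mono (μ := B.qmeas T) ((integrable_bdd_comp hab).sub (integrable_const 1))
      (integrable_bdd_comp hall) fun θ => by
        have := young (avg_pos B h hT.le θ) 0
        simp only [mul_zero, exp_zero, Pi.sub_apply] at *
        linarith
    rw [integral_sub' (integrable_bdd_comp hab) (integrable_const 1), hea, integral_const,
      probReal_univ, one_smul, sub_self] at this
    exact this
  · have hjen : ∀ θ, a θ * log (a θ) ≤ B.avg T θ fun x => g x * log (g x) := fun θ => by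
      have h2 := B.avg_mono hT.le θ ((gg.const_mul (log (a θ) + 1)).sub (Good.const (a θ))) ggl
        fun x => by
          have := young (h.h_pos x) (log (a θ))
          rw [exp_log (avg_pos B h hT.le θ)] at this
          linarith
      rw [B.avg_sub hT.le θ (gg.const_mul _) (Good.const _), B.avg_const_mul, B.avg_const hT.le] at h2
      linarith
    have hgb : BddM (fun θ => B.avg T θ fun x => g x * log (g x)) (K * (|log η| + |log K|)) :=
      ⟨(B.continuous_avg hT.le ggl.1.aestronglyMeasurable ggl.2).measurable,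
        fun x => B.abs_avg_le_bdd hT.le x hgl⟩
    refine (integral_mono (integrable_bdd_comp hall) (integrable_bdd_comp hgb) hjen).trans ?_
    rw [B.integral_qmeas_avg hT.le hgl]
    have := hlsi g h.smooth η K h.pos h.lo h.hi h.deriv
    rw [h1, log_one, mul_zero, sub_zero] at this
    exact this

/-- the information decay -/
theorem info_decay (hW : WindowProp) : InfoProp := by
  obtain ⟨c₀, hc₀, hwin⟩ := hW
  obtain ⟨C, hC, hlsi⟩ := lsi_base
    (fun _ B {_} ht hs {_} hf hg hg' => B.poincare_strong ht hs hf hg hg')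
    (fun _ B {_} ht hs {_} hh {_ _} hη hlo hhi hD => B.lsi_strong ht hs hh hη hlo hhi hD)
    cov_window (fun _ hn B hS _ hT hT1 => B.norm_window hn hS hT hT1)
    (fun _ _ hε hR => good_of_cov hε hR)
  set c := min (min (c₀ / 2) (1 / (12 * Rwin))) 1 with hc
  have hR0 : 0 < Rwin := exp_pos 4
  have hc0 : 0 < c := lt_min (lt_min (half_pos hc₀) (by positivity)) one_pos
  refine ⟨c, 8, 9 * C, hc0, by norm_num, by positivity, fun n hn B hS hCen T hT hTc k hk => ?_⟩
  obtain ⟨hwc, hwb, hwv, -, hwi⟩ := hwin n hn B hS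
  have hn0 : (0 : ℝ) < n := by exact_mod_cast hn
  have hn1 : (1 : ℝ) ≤ n := by exact_mod_cast hn
  have hL : 1 ≤ lg n := by unfold lg; linarith [log_nonneg hn1]
  have hL2 : 1 ≤ lg n ^ 2 := one_le_pow₀ hL
  have hTc' : T ≤ c := hTc.trans (div_le_self hc0.le hL2)
  have hT1 : T ≤ 1 := hTc'.trans (min_le_right _ _)
  have hRT : 4 * Rwin * T ≤ 1 / 3 := by
    have h := hTc'.trans ((min_le_left _ _).trans (min_le_right _ _))
    rw [le_div_iff₀ (by positivity)] at h
    linarith
  have hw : B.Nice (wwin B) := ⟨hwc, 2, zero_le_two, 0, fun t ht θ => by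
    rw [abs_of_nonneg (hwb t ht θ).1]
    exact (hwb t ht θ).2.trans (le_mul_of_one_le_right zero_le_two (B.avg_gp_nonneg ht θ 0))⟩
  have hw0 : ∀ s, 0 ≤ s → ∀ θ, 0 ≤ wwin B s θ := fun s hs θ => (hwb s hs θ).1
  have hsmall : ∀ s ∈ Ioc T (2 * T), ∫ θ, wwin B s θ ∂B.qmeas s ≤ 1 / (4 * (n : ℝ) ^ 2) :=
    fun s hs => hwi s (hT.trans hs.1) (hs.2.trans (by
      have h1 : c ≤ c₀ / 2 := (min_le_left _ _).trans (min_le_left _ _)
      have h2 := div_le_div_of_nonneg_right h1 (zero_le_one.trans hL2)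
      rw [div_div, mul_comm (2 : ℝ), ← div_div, le_div_iff₀ two_pos] at h2
      linarith))
  have hrec : ∀ j : ℕ, ∫⁻ y, ENNReal.ofReal (fisher B.μ (gker B T j y)) ∂B.qmeas T ≤
      ENNReal.ofReal (5 * T * n * (3 / 4) ^ j + 4 * (T / n)) := by
    intro j
    induction j with
    | zero =>
      refine (fisher_zero_le B hn hS hT hT1).trans (ENNReal.ofReal_le_ofReal ?_)
      have : 0 ≤ T / n := by positivity
      simp only [pow_zero, mul_one]; linarith
    | succ j ih =>
      refine (fisher_rec B hn hT hR0.le hRT hw hw0 hwv hsmall j).trans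
        ((add_le_add (mul_le_mul' le_rfl ih) le_rfl).trans ?_)
      rw [← ENNReal.ofReal_mul (by norm_num), ← ENNReal.ofReal_add (by positivity) (by positivity)]
      exact ENNReal.ofReal_le_ofReal (le_of_eq (by rw [pow_succ]; ring))
  have hpow : (3 / 4 : ℝ) ^ k ≤ 1 / (n : ℝ) ^ 2 := by
    have h1 : (3 / 4 : ℝ) ≤ exp (-(1 / 4)) := by linarith [add_one_le_exp (-(1 / 4) : ℝ)]
    refine (pow_le_pow_left₀ (by norm_num) h1 k).trans ?_
    rw [← exp_nat_mul, one_div ((n : ℝ) ^ 2), ← exp_log (pow_pos hn0 2), ← exp_neg, log_pow]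
    refine exp_le_exp.2 ?_
    have : log (n : ℝ) ≤ lg n := by unfold lg; linarith
    push_cast
    linarith
  set A := C * (n : ℝ) ^ ((1 : ℝ) / 3) with hA
  have hA0 : 0 ≤ A := by positivity
  have hinfo := fun y => info_le B (hlsi n hn B hS hCen) hT k y
  have hlin : ∫⁻ y, ENNReal.ofReal (info B T k y) ∂B.qmeas T ≤
      ENNReal.ofReal (A * (9 * (T / n))) := by
    refine (lintegral_mono fun y => (ENNReal.ofReal_le_ofReal (hinfo y).2).trans_eq
      (ENNReal.ofReal_mul hA0)).trans ?_
    rw [lintegral_const_mul' _ _ ENNReal.ofReal_ne_top, ENNReal.ofReal_mul hA0]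
    gcongr
    refine (hrec k).trans (ENNReal.ofReal_le_ofReal ?_)
    have h1 : 5 * T * n * (3 / 4) ^ k ≤ 5 * T * n * (1 / (n : ℝ) ^ 2) := by gcongr
    have h2 : 5 * T * n * (1 / (n : ℝ) ^ 2) = 5 * (T / n) := by field_simp
    linarith
  have hnn : 0 ≤ᵐ[B.qmeas T] info B T k := .of_forall fun y => (hinfo y).1
  have hint : Integrable (info B T k) (B.qmeas T) :=
    ⟨(measurable_info B hT.le k).aestronglyMeasurable,
      (hasFiniteIntegral_iff_ofReal hnn).2 (hlin.trans_lt ENNReal.ofReal_lt_top)⟩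
  refine ⟨hint, ?_⟩
  rw [← ofReal_integral_eq_lintegral_ofReal hint hnn,
    ENNReal.ofReal_le_ofReal_iff (by positivity)] at hlin
  have hn13 : (n : ℝ) ^ ((1 : ℝ) / 3) ≤ n := by
    simpa using rpow_le_rpow_of_exponent_le hn1 (by norm_num : (1 : ℝ) / 3 ≤ 1)
  calc T * ∫ y, info B T k y ∂B.qmeas T ≤ T * (A * (9 * (T / n))) :=
        mul_le_mul_of_nonneg_left hlin hT.le
    _ = 9 * C * (T * T) * ((n : ℝ) ^ ((1 : ℝ) / 3) / n) := by rw [hA]; ring
    _ ≤ 9 * C * 1 * 1 := by
        gcongr
        · exact (mul_le_mul hT1 hT1 hT.le zero_le_one).trans_eq (one_mul 1)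
        · exact (div_le_one hn0).2 hn13
    _ = 9 * C := by ring

end Vale.Agent.P245.Polylog
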