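import Vale.Agent.P245.Polylog.Statements
import Vale.Agent.P245.Local.Lich
import Vale.Agent.P245.Local.LsiStrong
import Vale.Agent.P245.Local.Defective

/-!
# P245: Fisher information of the tilted averages along the localisation

For `M = avg s θ g` and `u = |∇M|² / M` we show `drift u ≥ -2 (∇M · A ∇M) / M` and integrate this
over `s ∈ [T, 2T]`.
-/

open MeasureTheory Real Set Matrix
open scoped RealInnerProductSpace ENNReal

noncomputable section

namespace Vale.Agent.P245.Polylog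

open Vale.Agent.P245.Local Vale.Agent.P245.Local.Base

variable {n : ℕ} (B : Base n)

/-- jet of the covariance of `g` with the `k`-th coordinate -/
def pJ (g : E n → ℝ) (k : Fin n) : Jet n :=
  (B.avgJ fun x => g x * x k).sub ((B.avgJ g).mul (B.avgJ fun x => x k))

/-- jet of the sum of the squared covariances -/
def sqJ (g : E n → ℝ) : Jet n := Jet.sum Finset.univ fun k => (pJ B g k).mul (pJ B g k)

/-- jet of `|∇M|² / M` -/
def fisherJ (g : E n → ℝ) : Jet n :=
  (sqJ B g).mul ((B.avgJ g).comp (fun y => y⁻¹) (fun y => -(y ^ 2)⁻¹) fun y => 2 / y ^ 3)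

/-- `|∇M|² / M` with `M = avg s θ g` -/
def fu (g : E n → ℝ) (s : ℝ) (θ : E n) : ℝ :=
  (∑ k, B.covCoord s θ g k ^ 2) / B.avg s θ g

theorem fisherJ_val (g : E n → ℝ) : (fisherJ B g).val = fu B g := by
  funext s θ
  simp only [fisherJ, sqJ, pJ, Jet.mul, Jet.sum, Jet.sub, Jet.comp, avgJ, fu, covCoord, pow_two,
    div_eq_mul_inv]

variable {g : E n → ℝ} {η K : ℝ}

theorem poly_of_nice (hg : Local.Nice g η K) : Poly g :=
  ⟨hg.smooth.continuous, K, hg.K_pos.le, 0, fun x => by
    simpa [gp] using hg.bddM.2 x⟩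

theorem avg_mem (hg : Local.Nice g η K) {s : ℝ} (hs : 0 ≤ s) (θ : E n) :
    η ≤ B.avg s θ g ∧ B.avg s θ g ≤ K := by
  have gg := (poly_of_nice hg).good
  have h1 := B.avg_mono hs θ (Good.const η) gg hg.lo
  have h2 := B.avg_mono hs θ gg (Good.const K) hg.hi
  rw [B.avg_const hs] at h1 h2
  exact ⟨h1, h2⟩

theorem avg_pos (hg : Local.Nice g η K) {s : ℝ} (hs : 0 ≤ s) (θ : E n) : 0 < B.avg s θ g :=
  hg.pos.trans_le (avg_mem B hg hs θ).1

theorem jok_fisherJ (hg : Local.Nice g η K) : B.JOk (fisherJ B g) := by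
  have hp : ∀ k, B.JOk (pJ B g k) := fun k =>
    (B.jok_avgJ ((poly_of_nice hg).mul (Poly.coord k))).sub
      ((B.jok_avgJ (poly_of_nice hg)).mul (B.jok_avgJ (Poly.coord k)))
  have hy : ∀ y ∈ Ici η, 0 < y := fun y hy => hg.pos.trans_le hy
  refine (JOk.sum _ fun k _ => (hp k).mul (hp k)).mul ((B.jok_avgJ (poly_of_nice hg)).comp
    (S := Ici η) (C := η⁻¹ + (η ^ 2)⁻¹ + 2 / η ^ 3) (fun t ht θ => (avg_mem B hg ht θ).1) ?_ ?_ ?_ ?_)
  · exact fun y h => hasDerivAt_inv (hy y h).ne'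
  · intro y h
    have := (hy y h).ne'
    refine ((hasDerivAt_pow 2 y).fun_inv (pow_ne_zero 2 this)).fun_neg.congr_deriv ?_
    push_cast; field_simp
  · exact continuousOn_const.div (continuousOn_id.pow 3) fun y h => pow_ne_zero 3 (hy y h).ne'
  · intro y h
    have h0 := hy y h
    have hle : η ≤ y := h
    have := hg.pos
    have a1 : y⁻¹ ≤ η⁻¹ := inv_anti₀ hg.pos hle
    have a2 : (y ^ 2)⁻¹ ≤ (η ^ 2)⁻¹ := inv_anti₀ (by positivity) (by gcongr)
    have a3 : 2 / y ^ 3 ≤ 2 / η ^ 3 := by gcongr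
    have b1 : 0 < η⁻¹ := by positivity
    have b2 : 0 < (η ^ 2)⁻¹ := by positivity
    have b3 : 0 < 2 / η ^ 3 := by positivity
    rw [abs_neg, abs_of_pos (inv_pos.2 h0), abs_of_pos (by positivity : 0 < (y ^ 2)⁻¹),
      abs_of_pos (by positivity : 0 < 2 / y ^ 3)]
    exact ⟨by linarith, by linarith, by linarith⟩

theorem drift_pJ (hg : Good g) {s : ℝ} (hs : 0 ≤ s) (θ : E n) (k : Fin n) :
    B.drift (pJ B g k) s θ = -(B.covM s θ *ᵥ fun l => B.covCoord s θ g l) k := by
  rw [pJ, B.drift_sub, B.drift_mul, B.drift_avgJ hs θ (hg.mul (Good.coord k)),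
    B.drift_avgJ hs θ hg, B.drift_avgJ hs θ (Good.coord k), zero_mul, mul_zero, add_zero,
    zero_add, zero_sub, Matrix.mulVec, dotProduct]
  congr 1
  refine Finset.sum_congr rfl fun l _ => ?_
  simp only [avgJ, covM_apply, covCoord]
  ring

theorem drift_fisherJ_ge (hg : Local.Nice g η K) {s : ℝ} (hs : 0 ≤ s) (θ : E n) :
    -2 * ((fun l => B.covCoord s θ g l) ⬝ᵥ (B.covM s θ *ᵥ fun l => B.covCoord s θ g l)) /
      B.avg s θ g ≤ B.drift (fisherJ B g) s θ := by
  set M := B.avg s θ g with hM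
  set p : Fin n → ℝ := fun l => B.covCoord s θ g l with hp
  set q : Fin n → ℝ := B.covM s θ *ᵥ p with hq
  set P : Fin n → Fin n → ℝ := fun k l => (pJ B g k).d1 l s θ with hP
  have gg := (poly_of_nice hg).good
  have hM0 : 0 < M := avg_pos B hg hs θ
  have hval : ∀ k, (pJ B g k).val s θ = p k := fun k => rfl
  have e : B.drift (fisherJ B g) s θ =
      (∑ k, (-2 * (p k * q k) + ∑ l, P k l ^ 2)) * M⁻¹ +
        (∑ k, p k ^ 2) * (2 / M ^ 3 / 2 * ∑ l, p l ^ 2) +
        ∑ l, (∑ k, 2 * (p k * P k l)) * (-(M ^ 2)⁻¹ * p l) := by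
    rw [fisherJ, B.drift_mul, sqJ, B.drift_sum, B.drift_comp, B.drift_avgJ hs θ gg]
    simp only [B.drift_mul, drift_pJ B gg hs θ]
    simp only [Jet.sum, Jet.mul, Jet.comp, hval, mul_zero, zero_add, pow_two]
    congr 1
    · congr 1
      congr 1
      refine Finset.sum_congr rfl fun k _ => ?_
      ring
    · refine Finset.sum_congr rfl fun l _ => ?_
      congr 1
      exact Finset.sum_congr rfl fun k _ => by ring
  have key : 0 ≤ ∑ k, ∑ l, (P k l - p k * p l / M) ^ 2 / M :=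
    Finset.sum_nonneg fun k _ => Finset.sum_nonneg fun l _ => by positivity
  have e2 : ∑ k, ∑ l, (P k l - p k * p l / M) ^ 2 / M =
      (∑ k, ∑ l, P k l ^ 2) * M⁻¹ + (∑ k, p k ^ 2) * (2 / M ^ 3 / 2 * ∑ l, p l ^ 2) +
        ∑ l, (∑ k, 2 * (p k * P k l)) * (-(M ^ 2)⁻¹ * p l) := by
    simp only [Finset.sum_mul, Finset.mul_sum]
    rw [Finset.sum_comm (f := fun (l : Fin n) (k : Fin n) => 2 * (p k * P k l) * (-(M ^ 2)⁻¹ * p l))]
    simp only [← Finset.sum_add_distrib]
    refine Finset.sum_congr rfl fun k _ => Finset.sum_congr rfl fun l _ => ?_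
    field_simp
    ring
  rw [e, Finset.sum_add_distrib, add_mul]
  have e3 : -2 * (p ⬝ᵥ q) / M = (∑ k, -2 * (p k * q k)) * M⁻¹ := by
    rw [dotProduct, Finset.mul_sum, div_eq_mul_inv]
  linarith

theorem fu_nonneg (hg : Local.Nice g η K) {s : ℝ} (hs : 0 ≤ s) (θ : E n) : 0 ≤ fu B g s θ :=
  div_nonneg (Finset.sum_nonneg fun k _ => sq_nonneg _) (avg_pos B hg hs θ).le

theorem drift_fisherJ_ge_of_var (hg : Local.Nice g η K) {s : ℝ} (hs : 0 ≤ s) (θ : E n) {R : ℝ}
    (hvar : ∀ v : E n, B.varAt s θ (fun x => ⟪v, x⟫) ≤ R * ‖v‖ ^ 2) :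
    -2 * R * fu B g s θ ≤ B.drift (fisherJ B g) s θ := by
  refine le_trans ?_ (drift_fisherJ_ge B hg hs θ)
  set v : E n := WithLp.toLp 2 fun l => B.covCoord s θ g l with hv
  have hn : ‖v‖ ^ 2 = ∑ k, B.covCoord s θ g k ^ 2 := by
    simp [EuclideanSpace.norm_sq_eq, hv, Real.norm_eq_abs, sq_abs]
  have h := hvar v
  rw [B.varAt_inner_eq hs, hn] at h
  have h' := div_le_div_of_nonneg_right (mul_le_mul_of_nonpos_left h (by norm_num : (-2 : ℝ) ≤ 0))
    (avg_pos B hg hs θ).le
  refine le_trans (le_of_eq ?_) h'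
  rw [fu]; ring

/-- the tilted variance is at most `1/s` -/
theorem var_inner_le_inv {s : ℝ} (hs : 0 < s) (θ u : E n) :
    B.varAt s θ (fun x => ⟪u, x⟫) ≤ s⁻¹ * ‖u‖ ^ 2 := by
  have h := (B.tilt (s / 2) (half_pos hs).le θ).var_inner_le (half_pos hs)
    (by simpa using B.strong_tilt B.strong_zero (s / 2) (half_pos hs).le θ) (half_pos hs).le 0 u
  simpa only [varAt, B.avg_tilt, add_zero, add_halves] using h

theorem sum_zc_sq_le {s : ℝ} (hs : 0 < s) (θ : E n) :
    ∑ k, B.avg s θ (fun x => B.zc s θ k x ^ 2) ≤ n / s := by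
  refine (Finset.sum_le_card_nsmul _ _ s⁻¹ fun k _ => ?_).trans_eq ?_
  · have h := var_inner_le_inv B hs θ (eb k)
    have e : (fun x : E n => ⟪eb k, x⟫) = fun x => x k :=
      funext fun x => by rw [real_inner_comm, inner_eb]
    rw [e] at h
    simpa [varAt, zc, eb] using h
  · simp [div_eq_mul_inv]

theorem fu_le_zc (hg : Local.Nice g η K) {s : ℝ} (hs : 0 ≤ s) (θ : E n) :
    fu B g s θ ≤ B.avg s θ fun x => g x * ∑ k, B.zc s θ k x ^ 2 := by
  have gg := (poly_of_nice hg).good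
  have hM := avg_pos B hg hs θ
  have gs : Good fun x => √(g x) :=
    Good.bdd hg.smooth.continuous.sqrt (C := √K) fun x => by
      rw [abs_of_nonneg (sqrt_nonneg _)]; exact sqrt_le_sqrt (hg.hi x)
  have hsq : ∀ x, √(g x) ^ 2 = g x := fun x => sq_sqrt (hg.h_pos x).le
  have e : (fun x => g x * ∑ k, B.zc s θ k x ^ 2) = fun x => ∑ k, g x * B.zc s θ k x ^ 2 :=
    funext fun x => Finset.mul_sum _ _ _
  rw [e, B.avg_sum _ hs θ fun k _ => gg.mul (B.good_zc s θ k).sq, fu, div_le_iff₀ hM,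
    Finset.sum_mul]
  refine Finset.sum_le_sum fun k _ => ?_
  have h := B.avg_cs hs θ gs (gs.mul (B.good_zc s θ k))
  simp only [hsq, mul_pow] at h
  rw [show (fun x => √(g x) * (√(g x) * B.zc s θ k x)) = fun x => B.zc s θ k x * g x from
    funext fun x => by rw [← mul_assoc, mul_self_sqrt (hg.h_pos x).le, mul_comm],
    B.avg_zc_mul hs θ k gg] at h
  rw [covCoord, mul_comm (B.avg s θ g) (B.avg s θ fun x => x k)]
  rw [show (fun x : E n => x k * g x) = fun x => g x * x k from funext fun x => mul_comm _ _] at h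
  exact h.trans_eq (mul_comm _ _)

theorem fu_le_bdd (hg : Local.Nice g η K) {s : ℝ} (hs : 0 < s) (θ : E n) :
    fu B g s θ ≤ K * (n / s) := by
  have gz := fun k => (B.good_zc s θ k).sq
  refine (fu_le_zc B hg hs.le θ).trans ((B.avg_mono hs.le θ
    ((poly_of_nice hg).good.mul (Good.sum _ fun k _ => gz k))
    ((Good.sum _ fun k _ => gz k).const_mul K) fun x =>
      mul_le_mul_of_nonneg_right (hg.hi x) (Finset.sum_nonneg fun k _ => sq_nonneg _)).trans ?_)
  rw [B.avg_const_mul, B.avg_sum _ hs.le θ fun k _ => gz k]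
  exact mul_le_mul_of_nonneg_left (sum_zc_sq_le B hs θ) hg.K_pos.le

theorem good_fisher (hg : Local.Nice g η K) : Good fun x => ‖fderiv ℝ g x‖ ^ 2 / g x :=
  Good.bdd (((hg.smooth.continuous_fderiv one_ne_zero).norm.pow 2).div hg.smooth.continuous
    fun x => (hg.h_pos x).ne') hg.bddM_fisher.2

theorem fu_le_fisher (hg : Local.Nice g η K) {s : ℝ} (hs : 0 < s) (θ : E n) :
    fu B g s θ ≤ 2 / s ^ 2 * B.avg s θ fun x => ‖fderiv ℝ g x‖ ^ 2 / g x := by
  have gg := (poly_of_nice hg).good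
  have ghl : Good fun x => g x * log (g x) :=
    Good.bdd (hg.smooth.continuous.mul (hg.smooth.continuous.log fun x => (hg.h_pos x).ne'))
      (hg.bddM.mul hg.bddM_log).2
  have h1 := (B.tilt (s / 2) (half_pos hs).le θ).sum_covCoord_le (half_pos hs)
    (by simpa using B.strong_tilt B.strong_zero (s / 2) (half_pos hs).le θ) (half_pos hs) 0
    gg ghl hg.h_pos (by simpa only [B.avg_tilt, add_zero, add_halves] using avg_pos B hg hs.le θ)
  simp only [covCoord, entAt, B.avg_tilt, add_zero, add_halves] at h1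
  have h2 := (B.tilt s hs.le θ).lsi_strong hs
    (by simpa using B.strong_tilt B.strong_zero s hs.le θ) hg.smooth hg.pos hg.lo hg.hi hg.deriv
  simp only [B.integral_tilt] at h2
  refine h1.trans ((mul_le_mul_of_nonneg_left h2 (by positivity)).trans_eq ?_)
  ring

/-- Integration of the drift inequality over `[T, 2T]`. -/
theorem qavg_fu_le (hg : Local.Nice g η K) {T R : ℝ} (hT : 0 < T) (hR : 0 ≤ R) {w : ℝ → E n → ℝ}
    (hw : B.Nice w) (hw0 : ∀ s, 0 ≤ s → ∀ θ, 0 ≤ w s θ)
    (hvar : ∀ s, 0 < s → ∀ θ v, B.varAt s θ (fun x => ⟪v, x⟫) ≤ (R + w s θ / s) * ‖v‖ ^ 2) :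
    B.qavg T (fu B g T) ≤ exp (4 * R * T) * (B.qavg (2 * T) (fu B g (2 * T)) +
      2 / T * ∫ s in T..2 * T, ∫ z, B.Z s (√s • z) * (w s (√s • z) * fu B g s (√s • z)) ∂gam n) := by
  have hf := jok_fisherJ B hg
  have hu : B.Nice (fu B g) := fisherJ_val B g ▸ hf.nice
  set U : ℝ → ℝ := fun s => ∫ z, B.Z s (√s • z) * fu B g s (√s • z) ∂gam n with hU
  set β : ℝ → ℝ := fun s => ∫ z, B.Z s (√s • z) * (w s (√s • z) * fu B g s (√s • z)) ∂gam n
  have hUc : ContinuousOn U (Ici 0) := B.continuousOn_gam_Z_mul hu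
  have hβc : ContinuousOn β (Ici 0) := B.continuousOn_gam_Z_mul (hw.mul hu)
  have hdn : B.Nice (B.drift (fisherJ B g)) :=
    hf.nice_dt.add (Base.Nice.sum _ fun k _ =>
      ((hf.nice2 k).const_mul _).add ((Base.Nice.avg B (Poly.coord k)).mul (hf.nice1 k)))
  have hint : ∀ {f : ℝ → E n → ℝ}, B.Nice f → ∀ s, 0 ≤ s →
      Integrable (fun z => B.Z s (√s • z) * f s (√s • z)) (gam n) := fun hf s hs =>
    hf.gBound_Z_mul.integrable hs ((B.continuous_Z hs).mul (hf.continuous hs))
  have hd : ∀ s, 0 < s → ∃ d, HasDerivAt U d s ∧ -(2 * R) * U s - 2 / s * β s ≤ d := fun s hs => by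
    refine ⟨_, by simpa only [hU, fisherJ_val] using B.hasDerivAt_gam_Z_mul hf hs, ?_⟩
    simp only [hU, β, ← integral_const_mul]
    rw [← integral_sub ((hint hu s hs.le).const_mul _) ((hint (hw.mul hu) s hs.le).const_mul _)]
    refine integral_mono (((hint hu s hs.le).const_mul _).sub
      ((hint (hw.mul hu) s hs.le).const_mul _)) (hint hdn s hs.le) fun z => ?_
    have := mul_le_mul_of_nonneg_left
      (drift_fisherJ_ge_of_var B hg hs.le (√s • z) (hvar s hs (√s • z))) (B.Z_pos hs.le (√s • z)).le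
    refine le_trans (le_of_eq ?_) this
    ring
  set c := exp (4 * R * T) * (2 / T) with hc
  set Ψ : ℝ → ℝ := fun s => exp (2 * R * s) * U s + c * ∫ r in T..s, β r
  have hcI : ContinuousOn β (Icc T (2 * T)) := hβc.mono fun r hr => hT.le.trans hr.1
  have hmono : MonotoneOn Ψ (Icc T (2 * T)) := by
    refine monotoneOn_of_hasDerivWithinAt_nonneg (convex_Icc _ _)
      (f' := fun s => exp (2 * R * s) * (2 * R) * U s + exp (2 * R * s) * deriv U s + c * β s)
      ?_ ?_ ?_
    · refine ((by fun_prop : Continuous fun s => exp (2 * R * s)).continuousOn.mul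
        (hUc.mono fun r hr => hT.le.trans hr.1)).add (ContinuousOn.mul continuousOn_const ?_)
      exact intervalIntegral.continuousOn_primitive_interval
        ((hcI.integrableOn_compact isCompact_Icc).mono_set (uIcc_of_le (by linarith)).le)
        |>.mono (uIcc_of_le (by linarith)).ge
    · intro s hs
      rw [interior_Icc] at hs
      have hs0 : 0 < s := hT.trans hs.1
      obtain ⟨d, hd1, -⟩ := hd s hs0
      have h1 : HasDerivAt (fun s => exp (2 * R * s)) (exp (2 * R * s) * (2 * R)) s := by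
        simpa using ((hasDerivAt_id s).const_mul (2 * R)).exp
      have h2 : HasDerivAt (fun s => ∫ r in T..s, β r) (β s) s :=
        intervalIntegral.integral_hasDerivAt_right
          ((hβc.mono fun r hr => by
            rw [uIcc_of_le hs.1.le] at hr; exact hT.le.trans hr.1).intervalIntegrable)
          ((hβc.mono Ioi_subset_Ici_self).stronglyMeasurableAtFilter isOpen_Ioi s hs0)
          (hβc.continuousAt (Ici_mem_nhds hs0))
      rw [hd1.deriv]
      exact ((h1.mul hd1).add (h2.const_mul c)).hasDerivWithinAt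
    · intro s hs
      rw [interior_Icc] at hs
      have hs0 : 0 < s := hT.trans hs.1
      obtain ⟨d, hd1, hd2⟩ := hd s hs0
      have hβ0 : 0 ≤ β s := integral_nonneg fun z => mul_nonneg (B.Z_pos hs0.le _).le
        (mul_nonneg (hw0 s hs0.le _) (fu_nonneg B hg hs0.le _))
      have hc' : exp (2 * R * s) * (2 / s) ≤ c := by
        rw [hc]
        refine mul_le_mul (exp_le_exp.2 ?_) (div_le_div_of_nonneg_left (by norm_num) hT hs.1.le)
          (by positivity) (exp_pos _).le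
        nlinarith [mul_le_mul_of_nonneg_left hs.2.le (by positivity : (0 : ℝ) ≤ 2 * R)]
      rw [hd1.deriv]
      nlinarith [mul_le_mul_of_nonneg_right hc' hβ0,
        mul_le_mul_of_nonneg_left hd2 (exp_pos (2 * R * s)).le]
  have h := hmono (left_mem_Icc.2 (by linarith)) (right_mem_Icc.2 (by linarith))
    (by linarith : T ≤ 2 * T)
  simp only [Ψ, intervalIntegral.integral_same, mul_zero, add_zero] at h
  have hUT : 0 ≤ U T := integral_nonneg fun z =>
    mul_nonneg (B.Z_pos hT.le _).le (fu_nonneg B hg hT.le _)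
  have h1 : U T ≤ exp (2 * R * T) * U T :=
    le_mul_of_one_le_left hUT (one_le_exp (by positivity))
  rw [B.qavg_eq hT.le (hu.continuous hT.le).measurable,
    B.qavg_eq (by linarith) (hu.continuous (by linarith)).measurable, mul_add, ← mul_assoc]
  rw [show 2 * R * (2 * T) = 4 * R * T by ring] at h
  exact h1.trans h

end Vale.Agent.P245.Polylog
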