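import Vale.Agent.P245.Polylog.Statements
import Vale.Agent.P245.Local.LsiStrong

/-!
# P245: integration by parts and the sharp Gaussian log-Sobolev inequality

The Gaussian log-Sobolev inequality is obtained from the localisation of the standard Gaussian
measure: there the covariance of `h` with the coordinates is the tilted mean of `∇h / (1 + s)`.
-/

open MeasureTheory Real Set Filter
open scoped RealInnerProductSpace ENNReal Topology

noncomputable section

namespace Vale.Agent.P245.Polylog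

open Vale.Agent.P245.Local Vale.Agent.P245.Local.Base

variable {n : ℕ}

/-! ### integrals against `exp (-U)` -/

theorem PotOk.integrable_mul {U : E n → ℝ} (hU : PotOk U) {G : E n → ℝ} (hc : Continuous G)
    (hg : ExpGrowth G) : Integrable fun x => exp (-U x) * G x := by
  obtain ⟨a, b, hb, hlo⟩ := hU.lower
  obtain ⟨K, k, hK, -, h⟩ := hg.norm_le
  refine ((integrable_exp_neg_sq (n := n) (half_pos hb)).const_mul
    (K * exp (a + k ^ 2 / (2 * b)))).mono'
    ((continuous_exp.comp hU.smooth.continuous.neg).mul hc).aestronglyMeasurable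
    (.of_forall fun x => ?_)
  rw [norm_mul, Real.norm_eq_abs, abs_exp, Real.norm_eq_abs]
  calc exp (-U x) * |G x| ≤ exp (a - b * ‖x‖ ^ 2) * (K * exp (k * ‖x‖)) := by
        refine mul_le_mul (exp_le_exp.2 (by linarith [hlo x])) (h x) (abs_nonneg _) (exp_pos _).le
    _ = K * exp (a - b * ‖x‖ ^ 2 + k * ‖x‖) := by rw [exp_add]; ring
    _ ≤ K * exp (a + k ^ 2 / (2 * b) + -(b / 2) * ‖x‖ ^ 2) := by
        refine mul_le_mul_of_nonneg_left (exp_le_exp.2 ?_) hK
        have h1 := exp_norm_le_sq (half_pos hb) k x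
        rw [show k ^ 2 / (4 * (b / 2)) = k ^ 2 / (2 * b) by ring] at h1
        linarith
    _ = _ := by rw [exp_add]; ring

theorem expGrowth_one_add_norm : ExpGrowth fun x : E n => 1 + ‖x‖ :=
  (expGrowth_const 1).add expGrowth_norm

theorem expGrowth_of_lin {F : E n → ℝ} (C : ℝ) (h : ∀ x, |F x| ≤ C * (1 + ‖x‖)) : ExpGrowth F :=
  (expGrowth_one_add_norm.const_mul C).of_abs_le fun x => (h x).trans (le_abs_self _)

theorem norm_eb (k : Fin n) : ‖(eb k : E n)‖ = 1 := by simp [eb]

theorem abs_apply_eb_le (L : E n →L[ℝ] ℝ) (k : Fin n) : |L (eb k)| ≤ ‖L‖ := by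
  simpa [norm_eb] using L.le_opNorm (eb k)

theorem PotOk.expGrowth_apply {U : E n → ℝ} (hU : PotOk U) (k : Fin n) :
    ExpGrowth fun x => fderiv ℝ U x (eb k) := by
  obtain ⟨a, ha⟩ := hU.grad
  exact expGrowth_of_lin a fun x => (abs_apply_eb_le _ k).trans (ha x)

theorem PotOk.expGrowth_norm_grad {U : E n → ℝ} (hU : PotOk U) :
    ExpGrowth fun x => ‖fderiv ℝ U x‖ := by
  obtain ⟨a, ha⟩ := hU.grad
  exact expGrowth_of_lin a fun x => by rw [abs_norm]; exact ha x

theorem continuous_apply_eb {F : E n → ℝ} (hF : ContDiff ℝ 1 F) (k : Fin n) :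
    Continuous fun x => fderiv ℝ F x (eb k) :=
  (hF.continuous_fderiv one_ne_zero).clm_apply continuous_const

theorem pot_ibp : PotIbpProp := by
  intro n U hU F hF C hFb hDb k
  have gF : ExpGrowth F := expGrowth_of_lin C hFb
  have gD : ExpGrowth fun x => fderiv ℝ F x (eb k) :=
    expGrowth_of_lin C fun x => (abs_apply_eb_le _ k).trans (hDb x)
  have cU := continuous_apply_eb hU.smooth k
  have hdU : ∀ x, HasFDerivAt U (fderiv ℝ U x) x := fun x =>
    (hU.smooth.differentiable one_ne_zero x).hasFDerivAt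
  have hd : ∀ x, HasLineDerivAt ℝ (fun y => exp (-U y))
      (exp (-U x) * -fderiv ℝ U x (eb k)) x (eb k) := fun x =>
    ((hdU x).neg.exp).hasLineDerivAt (eb k) |>.congr_deriv (by simp)
  have hdF : ∀ x, HasLineDerivAt ℝ F (fderiv ℝ F x (eb k)) x (eb k) := fun x =>
    ((hF.differentiable one_ne_zero x).hasFDerivAt).hasLineDerivAt (eb k)
  have h := integral_bilinear_hasLineDerivAt_right_eq_neg_left_of_integrable
    (μ := (volume : Measure (E n))) (f := fun y => exp (-U y))
    (f' := fun x => exp (-U x) * -fderiv ℝ U x (eb k)) (g := F)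
    (g' := fun x => fderiv ℝ F x (eb k)) (v := eb k) (B := ContinuousLinearMap.mul ℝ ℝ)
    (by
      refine (hU.integrable_mul (cU.mul hF.continuous) ((hU.expGrowth_apply k).mul gF)).neg.congr
        (.of_forall fun x => ?_)
      simp; ring)
    (by simpa using hU.integrable_mul (continuous_apply_eb hF k) gD)
    (by simpa using hU.integrable_mul hF.continuous gF) (fun x _ => hd x) (fun x _ => hdF x)
  simp only [ContinuousLinearMap.mul_apply'] at h
  rw [h, ← integral_neg]
  exact integral_congr_ae (.of_forall fun x => by ring)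

/-! ### the standard Gaussian as a `Base` -/

theorem hess_half_sq (c : ℝ) (x v w : E n) :
    hess (fun y : E n => ‖y‖ ^ 2 / 2 + c) x v w = ⟪v, w⟫ := by
  have h1 : ∀ y : E n, fderiv ℝ (fun y : E n => ‖y‖ ^ 2 / 2 + c) y = innerSL ℝ y := fun y => by
    have := (((hasStrictFDerivAt_norm_sq y).hasFDerivAt.const_mul (1 / 2 : ℝ)).add_const c).fderiv
    rw [show (fun y : E n => ‖y‖ ^ 2 / 2 + c) = fun y => 1 / 2 * ‖y‖ ^ 2 + c by funext z; ring,
      this]
    ext u; simp
  obtain ⟨L, hL, hL'⟩ := Base.hasFDerivAt_innerSL x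
  unfold hess
  rw [show fderiv ℝ (fun y : E n => ‖y‖ ^ 2 / 2 + c) = fun y => innerSL ℝ y from funext h1,
    hL'.fderiv, hL]

theorem exp_gauss (x : E n) :
    exp (-(‖x‖ ^ 2 / 2 + log (√(2 * π) ^ n))) = gdens x := by
  rw [neg_add, exp_add, exp_neg (log _), exp_log (by positivity), gdens, mul_comm]

/-- the standard Gaussian measure as a `Base` -/
def gbase (n : ℕ) : Base n where
  V x := ‖x‖ ^ 2 / 2 + log (√(2 * π) ^ n)
  smooth := ((contDiff_norm_sq ℝ).div_const 2).add contDiff_const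
  convex := by
    refine ⟨convex_univ, fun x _ y _ p q hp hq hpq => ?_⟩
    simp only [smul_eq_mul]
    obtain rfl : q = 1 - p := by linarith
    have h1 : ‖p • x + (1 - p) • y‖ ≤ p * ‖x‖ + (1 - p) * ‖y‖ :=
      (norm_add_le _ _).trans_eq (by
        rw [norm_smul, norm_smul, Real.norm_eq_abs, Real.norm_eq_abs, abs_of_nonneg hp,
          abs_of_nonneg hq])
    have h2 := pow_le_pow_left₀ (norm_nonneg _) h1 2
    nlinarith [mul_nonneg (mul_nonneg hp hq) (sq_nonneg (‖x‖ - ‖y‖))]
  hessBound := ⟨1, fun x v => by rw [hess_half_sq, real_inner_self_eq_norm_sq, one_mul]⟩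
  mass := by simp only [exp_gauss]; exact integral_gdens
  tail := by
    refine ⟨1 / 4, by norm_num, ?_⟩
    refine ((integrable_exp_neg_sq (n := n) (by norm_num : (0 : ℝ) < 1 / 4)).const_mul
      (exp (-log (√(2 * π) ^ n)))).congr (.of_forall fun x => ?_)
    simp only [← exp_add]
    congr 1; ring

theorem gbase_μ : (gbase n).μ = gam n := by
  rw [Base.μ, gam]
  congr 1; funext x
  rw [Base.rho, gbase, exp_gauss]

theorem gbase_strong : (gbase n).Strong 1 := fun x v => by
  rw [gbase, hess_half_sq, real_inner_self_eq_norm_sq, one_mul]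

theorem norm_clm_sq (L : E n →L[ℝ] ℝ) : ‖L‖ ^ 2 = ∑ k, L (eb k) ^ 2 := by
  set u := (InnerProductSpace.toDual ℝ (E n)).symm L with hu
  have hk : ∀ k, L (eb k) = u k := fun k => by
    rw [← InnerProductSpace.toDual_symm_apply (y := L), ← hu, inner_eb]
  rw [← (InnerProductSpace.toDual ℝ (E n)).symm.norm_map L, ← hu, EuclideanSpace.norm_sq_eq]
  simp [hk]

theorem hasLineDerivAt_W (s : ℝ) (θ z : E n) (k : Fin n) :
    HasLineDerivAt ℝ (Base.W s θ) (Base.W s θ z * (θ k - s * z k)) z (eb k) := by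
  have hd : HasDerivAt (fun r : ℝ => z + r • eb k) (eb k) (0 : ℝ) := by
    simpa using ((hasDerivAt_id (0 : ℝ)).smul_const (eb k)).const_add z
  show HasDerivAt (fun r : ℝ => Base.W s θ (z + r • eb k)) _ 0
  unfold Base.W
  refine (((innerSL ℝ θ).hasFDerivAt.comp_hasDerivAt (0 : ℝ) hd).sub
    (hd.norm_sq.const_mul (s / 2))).exp.congr_deriv ?_
  simp [inner_eb]
  ring

/-- integration by parts in the tilted Gaussian -/
theorem gbase_num_coord {s : ℝ} (hs : 0 ≤ s) (θ : E n) {F : E n → ℝ} (hF : ContDiff ℝ 1 F)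
    (gF : Good F) (k : Fin n) (gD : Good fun x => fderiv ℝ F x (eb k)) :
    (1 + s) * (gbase n).num s θ (fun x => F x * x k) =
      θ k * (gbase n).num s θ F + (gbase n).num s θ fun x => fderiv ℝ F x (eb k) := by
  have hi : ∀ {G : E n → ℝ}, Good G → Integrable (fun x => Base.W s θ x * G x) (gam n) :=
    fun {G} hG => gbase_μ (n := n) ▸ (gbase n).good_integrable_W hs θ hG
  have g1 := gF.mul (Good.coord k)
  have i0 := hi gF
  have i1 := hi g1
  have iD := hi gD
  have h := gam_ibp (eb k) (g := fun x => Base.W s θ x * F x)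
    (g' := fun x => θ k * (Base.W s θ x * F x) - s * (Base.W s θ x * (F x * x k))
      + Base.W s θ x * fderiv ℝ F x (eb k))
    (fun z => by
      have h1 : HasDerivAt (fun r : ℝ => Base.W s θ (z + r • eb k)) _ 0 :=
        hasLineDerivAt_W s θ z k
      have h2 : HasDerivAt (fun r : ℝ => F (z + r • eb k)) _ 0 :=
        ((hF.differentiable one_ne_zero z).hasFDerivAt).hasLineDerivAt (eb k)
      show HasDerivAt (fun r : ℝ => Base.W s θ (z + r • eb k) * F (z + r • eb k)) _ 0
      refine (h1.mul h2).congr_deriv ?_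
      simp only [zero_smul, add_zero]
      ring)
    i0 (((i0.const_mul _).sub (i1.const_mul _)).add iD)
    (by refine i1.congr (.of_forall fun x => ?_); simp only [inner_eb]; ring)
  have ii : Integrable (fun x => θ k * (Base.W s θ x * F x) -
      s * (Base.W s θ x * (F x * x k))) (gam n) := (i0.const_mul _).sub (i1.const_mul _)
  rw [integral_add ii iD,
    integral_sub (i0.const_mul _) (i1.const_mul _), integral_const_mul, integral_const_mul] at h
  have e : ∫ x, ⟪x, eb k⟫ * (Base.W s θ x * F x) ∂gam n =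
      ∫ x, Base.W s θ x * (F x * x k) ∂gam n :=
    integral_congr_ae (.of_forall fun x => by simp only [inner_eb]; ring)
  rw [e] at h
  simp only [Base.num, gbase_μ]
  linarith

theorem gbase_covCoord {s : ℝ} (hs : 0 ≤ s) (θ : E n) {h : E n → ℝ} (hh : ContDiff ℝ 1 h)
    (gh : Good h) (k : Fin n) (gD : Good fun x => fderiv ℝ h x (eb k)) :
    (1 + s) * (gbase n).covCoord s θ h k =
      (gbase n).avg s θ fun x => fderiv ℝ h x (eb k) := by
  have h1 := gbase_num_coord hs θ hh gh k gD
  have h2 := gbase_num_coord hs θ (F := fun _ => 1) contDiff_const (Good.const 1) k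
    (by simpa using Good.const (n := n) 0)
  simp only [one_mul, fderiv_const_apply, zero_apply, Base.num_one] at h2
  have h3 : (gbase n).num s θ (fun _ => (0 : ℝ)) = 0 := by simp [Base.num]
  rw [h3, add_zero] at h2
  have hZ := ((gbase n).Z_pos hs θ).ne'
  simp only [Base.covCoord, Base.avg]
  field_simp
  linear_combination (gbase n).Z s θ * h1 - (gbase n).num s θ h * h2

theorem sq_avg_le_mul (B : Base n) {s : ℝ} (hs : 0 ≤ s) (θ : E n) {f h : E n → ℝ} (gf : Good f)
    (gh : Good h) (gfh : Good fun x => f x ^ 2 / h x) (hpos : ∀ x, 0 < h x)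
    (hM : 0 < B.avg s θ h) :
    B.avg s θ f ^ 2 ≤ B.avg s θ (fun x => f x ^ 2 / h x) * B.avg s θ h := by
  set M := B.avg s θ h with hMdef
  set c := B.avg s θ f / M with hc
  have hm := B.avg_mono hs θ (gf.const_mul (2 * c)) (gfh.add (gh.const_mul (c ^ 2))) fun x => by
    have e : f x ^ 2 / h x + c ^ 2 * h x - 2 * c * f x = (f x - c * h x) ^ 2 / h x := by
      field_simp [(hpos x).ne']; ring
    have : 0 ≤ (f x - c * h x) ^ 2 / h x := div_nonneg (sq_nonneg _) (hpos x).le
    linarith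
  rw [B.avg_const_mul, B.avg_add hs θ gfh.1.aestronglyMeasurable gfh.2
    (gh.const_mul _).1.aestronglyMeasurable (gh.const_mul _).2, B.avg_const_mul, ← hMdef] at hm
  have e1 : 2 * c * B.avg s θ f = 2 * (B.avg s θ f ^ 2 / M) := by rw [hc]; ring
  have e2 : c ^ 2 * M = B.avg s θ f ^ 2 / M := by rw [hc]; field_simp
  rw [e1, e2] at hm
  rw [← div_le_iff₀ hM]
  linarith

/-- sharp log-Sobolev inequality for the standard Gaussian, bounded positive functions -/
theorem gam_lsi {h : E n → ℝ} (hh : ContDiff ℝ 1 h) {η K : ℝ} (hη : 0 < η)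
    (hlo : ∀ x, η ≤ h x) (hhi : ∀ x, h x ≤ K) (gd : Good fun x => ‖fderiv ℝ h x‖) :
    (∫ x, h x * log (h x) ∂gam n) - (∫ x, h x ∂gam n) * log (∫ x, h x ∂gam n)
      ≤ 1 / 2 * ∫ x, ‖fderiv ℝ h x‖ ^ 2 / h x ∂gam n := by
  set B := gbase n
  have hμ : B.μ = gam n := gbase_μ
  have hs : B.Strong 1 := gbase_strong
  have hηK : η ≤ K := (hlo 0).trans (hhi 0)
  have hpos : ∀ x, 0 < h x := fun x => hη.trans_le (hlo x)
  have habs : ∀ x, |h x| ≤ K := fun x => by rw [abs_of_pos (hpos x)]; exact hhi x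
  have gh : Good h := Good.bdd hh.continuous habs
  set φ : ℝ → ℝ := fun y => y * log y with hφ
  set ℓ := |log η| + |log K| with hℓ
  have hlog : ∀ y ∈ Icc η K, |log y| ≤ ℓ := fun y hy => abs_le.2
    ⟨by linarith [log_le_log hη hy.1, neg_abs_le (log η), abs_nonneg (log K)],
      by linarith [log_le_log (hη.trans_le hy.1) hy.2, le_abs_self (log K), abs_nonneg (log η)]⟩
  set C := max (K * ℓ) (max (ℓ + 1) η⁻¹) with hC
  have hb : ∀ y ∈ Icc η K, |φ y| ≤ C ∧ |log y + 1| ≤ C ∧ |y⁻¹| ≤ C := fun y hy => by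
    have hy0 := hη.trans_le hy.1
    refine ⟨le_max_of_le_left ?_, le_max_of_le_right (le_max_of_le_left ?_),
      le_max_of_le_right (le_max_of_le_right ?_)⟩
    · simp only [hφ]
      rw [abs_mul, abs_of_pos hy0]
      exact mul_le_mul hy.2 (hlog y hy) (abs_nonneg _) (hη.le.trans hηK)
    · exact (abs_add_le _ _).trans (by simpa using hlog y hy)
    · rw [abs_of_pos (inv_pos.2 hy0)]; exact inv_anti₀ hη hy.1
  have ghl : Good fun x => φ (h x) :=
    Good.bdd (hh.continuous.mul (hh.continuous.log fun x => (hpos x).ne'))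
      fun x => (hb _ ⟨hlo x, hhi x⟩).1
  have hMb : ∀ s, 0 ≤ s → ∀ θ, B.avg s θ h ∈ Icc η K := fun s hs0 θ =>
    ⟨(B.avg_const hs0 θ η).symm.trans_le (B.avg_mono hs0 θ (Good.const η) gh hlo),
      (B.avg_mono hs0 θ gh (Good.const K) hhi).trans_eq (B.avg_const hs0 θ K)⟩
  have hP : Poly h := ⟨hh.continuous, max K 0, le_max_right _ _, 0, fun x => by
    simp only [gp, pow_zero, mul_one]; exact (habs x).trans (le_max_left _ _)⟩
  set J := (B.avgJ h).comp φ (fun y => log y + 1) (fun y => y⁻¹) with hJdef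
  have hJ : B.JOk J := (B.jok_avgJ hP).comp (S := Icc η K) hMb
    (fun y hy => hasDerivAt_mul_log (hη.trans_le hy.1).ne')
    (fun y hy => (hasDerivAt_log (hη.trans_le hy.1).ne').add_const 1)
    (continuousOn_inv₀.mono fun y hy => (hη.trans_le hy.1).ne') hb
  have hdrift : ∀ s, 0 ≤ s → ∀ θ, B.drift J s θ =
      (B.avg s θ h)⁻¹ / 2 * ∑ k, B.covCoord s θ h k ^ 2 := fun s hs0 θ => by
    rw [hJdef, B.drift_comp, B.drift_avgJ hs0 θ gh, mul_zero, zero_add]
    rfl
  -- bound on the derivative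
  have gk : ∀ k, Good fun x => fderiv ℝ h x (eb k) := fun k =>
    ⟨continuous_apply_eb hh k, gd.2.of_abs_le fun x => by
      rw [abs_norm]; exact abs_apply_eb_le _ k⟩
  have gdiv : ∀ {f : E n → ℝ}, Good f → Good fun x => f x ^ 2 / h x := fun {f} gf =>
    ⟨gf.1.pow 2 |>.div hh.continuous fun x => (hpos x).ne',
      (gf.2.sq.const_mul η⁻¹).of_abs_le fun x => by
        rw [abs_of_nonneg (div_nonneg (sq_nonneg _) (hpos x).le),
          abs_of_nonneg (mul_nonneg (inv_nonneg.2 hη.le) (sq_nonneg _)), ← div_eq_inv_mul]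
        exact div_le_div_of_nonneg_left (sq_nonneg _) hη (hlo x)⟩
  set I := ∫ x, ‖fderiv ℝ h x‖ ^ 2 / h x ∂gam n with hI
  have hdle : ∀ s, 0 ≤ s → ∀ θ, B.drift J s θ ≤
      1 / (2 * (1 + s) ^ 2) * B.avg s θ fun x => ‖fderiv ℝ h x‖ ^ 2 / h x := fun s hs0 θ => by
    set M := B.avg s θ h with hMdef
    have hM : 0 < M := hη.trans_le (hMb s hs0 θ).1
    rw [hdrift s hs0, ← hMdef]
    have e : (fun x => ‖fderiv ℝ h x‖ ^ 2 / h x) =
        fun x => ∑ k, fderiv ℝ h x (eb k) ^ 2 / h x := by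
      funext x; rw [norm_clm_sq, Finset.sum_div]
    rw [e, B.avg_sum _ hs0 θ fun k _ => gdiv (gk k), Finset.mul_sum, Finset.mul_sum]
    refine Finset.sum_le_sum fun k _ => ?_
    have h1 := gbase_covCoord hs0 θ hh gh k (gk k)
    have h2 := sq_avg_le_mul B hs0 θ (gk k) gh (gdiv (gk k)) hpos hM
    rw [← hMdef, ← h1, mul_pow] at h2
    have hs1 : (0 : ℝ) < (1 + s) ^ 2 := by positivity
    have h3 : B.covCoord s θ h k ^ 2 / M ≤
        B.avg s θ (fun x => fderiv ℝ h x (eb k) ^ 2 / h x) / (1 + s) ^ 2 := by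
      rw [div_le_div_iff₀ hM hs1]; linarith
    calc M⁻¹ / 2 * B.covCoord s θ h k ^ 2 = B.covCoord s θ h k ^ 2 / M / 2 := by ring
      _ ≤ B.avg s θ (fun x => fderiv ℝ h x (eb k) ^ 2 / h x) / (1 + s) ^ 2 / 2 := by linarith
      _ = _ := by field_simp
  set P : ℝ → ℝ := fun s => ∫ z, B.Z s (√s • z) * J.val s (√s • z) ∂gam n with hPdef
  have gq : Good fun x => ‖fderiv ℝ h x‖ ^ 2 / h x := gdiv gd
  have hnum : ∀ {F : E n → ℝ}, Good F → ∀ s, 0 ≤ s →
      Integrable (fun z => B.Z s (√s • z) * B.avg s (√s • z) F) (gam n) ∧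
      ∫ z, B.Z s (√s • z) * B.avg s (√s • z) F ∂gam n = ∫ x, F x ∂gam n := fun {F} hF s hs0 => by
    simp only [mul_comm (B.Z s _), ← B.num_eq_avg_mul hs0]
    refine ⟨(B.gBound_good hF).integrable hs0 (B.continuous_num_good hs0 hF), ?_⟩
    rw [B.integral_num_gam hs0 hF, hμ]
  have hiJ : ∀ s, 0 ≤ s → Integrable (fun z => B.Z s (√s • z) * J.val s (√s • z)) (gam n) :=
    fun s hs0 => hJ.nice.gBound_Z_mul.integrable hs0
      ((B.continuous_Z hs0).mul (hJ.nice.continuous hs0))
  set D : ℝ → ℝ := fun s => ∫ z, B.Z s (√s • z) * B.drift J s (√s • z) ∂gam n with hDdef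
  have hDle : ∀ s, 0 < s → D s ≤ 1 / (2 * (1 + s) ^ 2) * I := fun s hs0 => by
    obtain ⟨i1, i2⟩ := hnum gq s hs0.le
    rw [hI, ← i2, ← integral_const_mul]
    refine integral_mono_of_nonneg (.of_forall fun z => ?_) (i1.const_mul _)
      (.of_forall fun z => ?_)
    · refine mul_nonneg (B.Z_pos hs0.le _).le ?_
      rw [hdrift s hs0.le]
      have := hη.trans_le (hMb s hs0.le (√s • z)).1
      positivity
    · dsimp only
      rw [mul_left_comm]
      exact mul_le_mul_of_nonneg_left (hdle s hs0.le _) (B.Z_pos hs0.le _).le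
  set A := ∫ x, φ (h x) ∂gam n with hA
  -- the entropy at time `s` tends to zero
  have hgap : ∀ s, 0 ≤ s → A - P s ≤ (∫ x, ‖fderiv ℝ h x‖ ^ 2 ∂gam n) / η / (1 + s) :=
    fun s hs0 => by
    obtain ⟨i1, i2⟩ := hnum ghl s hs0
    obtain ⟨j1, j2⟩ := hnum gd.sq s hs0
    have hpt : ∀ θ, B.avg s θ (fun x => φ (h x)) - φ (B.avg s θ h) ≤
        1 / (η * (1 + s)) * B.avg s θ fun x => ‖fderiv ℝ h x‖ ^ 2 := fun θ => by
      have hM := hη.trans_le (hMb s hs0 θ).1
      have h1 : B.entAt s θ h ≤ B.varAt s θ h / B.avg s θ h :=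
        B.entAt_le_var hs0 θ gh ghl hpos hM
      have h2 := B.var_tilt_le one_pos hs hs0 θ hh gh gd
      have h0 : 0 ≤ B.avg s θ fun x => ‖fderiv ℝ h x‖ ^ 2 :=
        (B.avg_const hs0 θ 0).symm.trans_le
          (B.avg_mono hs0 θ (Good.const 0) gd.sq fun x => sq_nonneg _)
      have h3 : B.varAt s θ h / B.avg s θ h ≤
          (1 + s)⁻¹ * (B.avg s θ fun x => ‖fderiv ℝ h x‖ ^ 2) / η :=
        div_le_div₀ (by positivity) h2 hη (hMb s hs0 θ).1
      refine (h1.trans h3).trans_eq ?_
      field_simp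
    have e : A - P s = ∫ z, (B.Z s (√s • z) * B.avg s (√s • z) (fun x => φ (h x))
        - B.Z s (√s • z) * J.val s (√s • z)) ∂gam n := by
      rw [integral_sub i1 (hiJ s hs0), i2]
    calc A - P s ≤ ∫ z, 1 / (η * (1 + s)) *
          (B.Z s (√s • z) * B.avg s (√s • z) fun x => ‖fderiv ℝ h x‖ ^ 2) ∂gam n := by
          rw [e]
          refine integral_mono (i1.sub (hiJ s hs0)) (j1.const_mul _) fun z => ?_
          rw [← mul_sub, mul_left_comm]
          exact mul_le_mul_of_nonneg_left (hpt _) (B.Z_pos hs0 _).le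
      _ = _ := by rw [integral_const_mul, j2]; field_simp
  have hP0 : P 0 = φ (∫ x, h x ∂gam n) := by
    simp [hPdef, hJdef, Jet.comp, Base.avgJ, B.Z_zero, B.avg_zero, hμ]
  have hcont : ContinuousOn P (Ici 0) := B.continuousOn_gam_Z_mul hJ.nice
  have hanti : AntitoneOn (fun s => P s + I / (2 * (1 + s))) (Ici 0) := by
    have hd : ∀ s, 0 < s → HasDerivAt (fun s => P s + I / (2 * (1 + s)))
        (D s - I / (2 * (1 + s) ^ 2)) s := fun s hs0 => by
      have h2 : HasDerivAt (fun s : ℝ => I / (2 * (1 + s))) (-(I / (2 * (1 + s) ^ 2))) s := by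
        refine ((((hasDerivAt_id s).const_add 1).const_mul 2).inv (by positivity)).const_mul I
          |>.congr_deriv ?_ |>.congr_of_eventuallyEq (.of_forall fun r => ?_)
        · simp only [id_eq]; field_simp
        · simp [div_eq_mul_inv]
      exact (B.hasDerivAt_gam_Z_mul hJ hs0).add h2 |>.congr_deriv (by ring)
    refine antitoneOn_of_deriv_nonpos (convex_Ici 0)
      (hcont.add (ContinuousOn.div continuousOn_const (by fun_prop) fun s hs0 => ?_)) ?_ ?_
    · have : (0 : ℝ) ≤ s := hs0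
      positivity
    · rw [interior_Ici]; exact fun s hs0 => (hd s hs0).differentiableAt.differentiableWithinAt
    · rw [interior_Ici]; intro s hs0
      rw [(hd s hs0).deriv]
      have := hDle s hs0
      rw [show 1 / (2 * (1 + s) ^ 2) * I = I / (2 * (1 + s) ^ 2) by ring] at this
      linarith
  have I0 : 0 ≤ I := integral_nonneg fun x => div_nonneg (sq_nonneg _) (hpos x).le
  have hfin : A - P 0 ≤ 1 / 2 * I + 0 := by
    have hlim : Tendsto (fun s : ℝ => 1 / 2 * I +
        (∫ x, ‖fderiv ℝ h x‖ ^ 2 ∂gam n) / η / (1 + s)) atTop (𝓝 (1 / 2 * I + 0)) :=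
      tendsto_const_nhds.add (tendsto_const_nhds.div_atTop
        (tendsto_atTop_add_const_left _ 1 tendsto_id))
    refine ge_of_tendsto hlim ?_
    filter_upwards [eventually_gt_atTop 0] with s hs0
    have h1 := hanti self_mem_Ici (mem_Ici.2 hs0.le) hs0.le
    have h2 := hgap s hs0.le
    have h3 : 0 ≤ I / (2 * (1 + s)) := by positivity
    simp only [add_zero, mul_one] at h1
    linarith
  rw [hP0, add_zero] at hfin
  exact hfin

/-! ### densities `exp (-U)` -/

theorem hasFDerivAt_soft {h : E n → ℝ} {h' : E n →L[ℝ] ℝ} {x : E n} {R : ℝ} (hR : 0 < R)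
    (hp : 0 ≤ h x) (hh : HasFDerivAt h h' x) :
    HasFDerivAt (fun y => h y / (1 + h y / R) + 1 / R) (((1 + h x / R) ^ 2)⁻¹ • h') x := by
  have hne : 1 + h x / R ≠ 0 := by positivity
  have hd : HasDerivAt (fun u : ℝ => u / (1 + u / R) + 1 / R) (((1 + h x / R) ^ 2)⁻¹) (h x) :=
    (((hasDerivAt_id (h x)).div (((hasDerivAt_id (h x)).div_const R).const_add 1) hne).add_const
      (1 / R)).congr_deriv (by simp only [id_eq]; field_simp; ring)
  exact hd.comp_hasFDerivAt x hh

theorem abs_mul_log_le {y u : ℝ} (h0 : 0 < y) (hu : y ≤ 1 + u) (hu0 : 0 ≤ u) :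
    |y * log y| ≤ 1 + (1 + u) * log (1 + u) := by
  rcases le_or_gt y 1 with h1 | h1
  · rw [mul_comm]
    refine (abs_log_mul_self_lt y h0 h1).le.trans ?_
    nlinarith [mul_nonneg (by linarith : (0 : ℝ) ≤ 1 + u)
      (log_nonneg (by linarith : (1 : ℝ) ≤ 1 + u))]
  · rw [abs_of_nonneg (mul_nonneg h0.le (log_nonneg h1.le))]
    nlinarith [mul_le_mul hu (log_le_log h0 hu) (log_nonneg h1.le) (by linarith)]

/-- Gaussian log-Sobolev inequality for a density `exp S` -/
theorem lsi_exp {S : E n → ℝ} (hS : ContDiff ℝ 1 S) (gS : Good S)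
    (gN : ExpGrowth fun y => ‖fderiv ℝ S y‖) (ih : Integrable (fun y => exp (S y)) (gam n))
    (h1 : ∫ y, exp (S y) ∂gam n = 1) (iS : Integrable (fun y => exp (S y) * |S y|) (gam n))
    (iN : Integrable (fun y => exp (S y) * ‖fderiv ℝ S y‖ ^ 2) (gam n)) :
    ∫ y, exp (S y) * S y ∂gam n ≤ 1 / 2 * ∫ y, exp (S y) * ‖fderiv ℝ S y‖ ^ 2 ∂gam n := by
  set N : E n → ℝ := fun y => ‖fderiv ℝ S y‖ with hN
  have hDh : ∀ y, HasFDerivAt (fun z => exp (S z)) (exp (S y) • fderiv ℝ S y) y := fun y =>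
    (hS.differentiable one_ne_zero y).hasFDerivAt.exp
  have hhd : ContDiff ℝ 1 fun z => exp (S z) := contDiff_exp.comp hS
  have hpos : ∀ y, 0 < exp (S y) := fun y => exp_pos _
  set r : ℕ → ℝ := fun m => (m : ℝ) + 1 with hr
  have hr0 : ∀ m, 0 < r m := fun m => by simp only [hr]; positivity
  have hr1 : ∀ m, 1 ≤ r m := fun m => by simp only [hr]; simp
  set g : ℕ → E n → ℝ := fun m y => exp (S y) / (1 + exp (S y) / r m) + 1 / r m with hg
  have hden : ∀ m y, 1 ≤ 1 + exp (S y) / r m := fun m y => by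
    have := (div_pos (hpos y) (hr0 m)).le; linarith
  have hlo : ∀ m y, 1 / r m ≤ g m y := fun m y => by
    simp only [hg]
    have : 0 ≤ exp (S y) / (1 + exp (S y) / r m) := by have := hr0 m; positivity
    linarith
  have hhi : ∀ m y, g m y ≤ r m + 1 / r m := fun m y => by
    simp only [hg]
    refine add_le_add ?_ le_rfl
    rw [div_le_iff₀ (lt_of_lt_of_le one_pos (hden m y)), mul_add, mul_one,
      mul_div_cancel₀ _ (hr0 m).ne']
    linarith [hr0 m]
  have hle : ∀ m y, g m y ≤ 1 + exp (S y) := fun m y => by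
    simp only [hg]
    have h1 : exp (S y) / (1 + exp (S y) / r m) ≤ exp (S y) := div_le_self (hpos y).le (hden m y)
    have h2 : 1 / r m ≤ 1 := by rw [div_le_one (hr0 m)]; exact hr1 m
    linarith
  have hgpos : ∀ m y, 0 < g m y := fun m y => (one_div_pos.2 (hr0 m)).trans_le (hlo m y)
  have hgC : ∀ m, ContDiff ℝ 1 (g m) := fun m =>
    (hhd.div (contDiff_const.add (hhd.div_const _))
      fun y => (lt_of_lt_of_le one_pos (hden m y)).ne').add contDiff_const
  have hnorm : ∀ m y, ‖fderiv ℝ (g m) y‖ =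
      ((1 + exp (S y) / r m) ^ 2)⁻¹ * (exp (S y) * N y) := fun m y => by
    rw [show g m = fun z => exp (S z) / (1 + exp (S z) / r m) + 1 / r m from rfl,
      (hasFDerivAt_soft (hr0 m) (hpos y).le (hDh y)).fderiv, norm_smul, norm_smul,
      Real.norm_eq_abs, Real.norm_eq_abs, abs_exp, abs_of_nonneg (by positivity)]
  have gd : ∀ m, Good fun y => ‖fderiv ℝ (g m) y‖ := fun m =>
    ⟨((hgC m).continuous_fderiv one_ne_zero).norm, (gN.const_mul (r m)).of_abs_le fun y => by
      have hd := hden m y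
      have hN0 : 0 ≤ N y := norm_nonneg _
      rw [abs_norm, hnorm, abs_of_nonneg (mul_nonneg (hr0 m).le (norm_nonneg _)), ← mul_assoc]
      refine mul_le_mul_of_nonneg_right ?_ hN0
      rw [inv_mul_le_iff₀ (by positivity)]
      have e : r m * (exp (S y) / r m) = exp (S y) := mul_div_cancel₀ _ (hr0 m).ne'
      nlinarith [mul_le_mul_of_nonneg_left (le_self_pow₀ hd two_ne_zero) (hr0 m).le, hr0 m]⟩
  have hfis : ∀ m y, ‖fderiv ℝ (g m) y‖ ^ 2 / g m y ≤ exp (S y) * N y ^ 2 := fun m y => by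
    have hd := hden m y
    have hd0 : 0 < 1 + exp (S y) / r m := lt_of_lt_of_le one_pos hd
    have hlow : exp (S y) / (1 + exp (S y) / r m) ≤ g m y := by
      simp only [hg]; linarith [one_div_pos.2 (hr0 m)]
    refine (div_le_div_of_nonneg_left (sq_nonneg _) (by positivity) hlow).trans ?_
    rw [hnorm]
    have e : (((1 + exp (S y) / r m) ^ 2)⁻¹ * (exp (S y) * N y)) ^ 2 /
        (exp (S y) / (1 + exp (S y) / r m)) =
        exp (S y) * N y ^ 2 * ((1 + exp (S y) / r m) ^ 3)⁻¹ := by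
      field_simp
    rw [e]
    exact mul_le_of_le_one_right (mul_nonneg (hpos y).le (sq_nonneg _))
      (inv_le_one_of_one_le₀ (one_le_pow₀ hd))
  have hlimh : ∀ y, Tendsto (fun m => g m y) atTop (𝓝 (exp (S y))) := fun y => by
    have hr' : Tendsto r atTop atTop :=
      tendsto_atTop_add_const_right _ 1 tendsto_natCast_atTop_atTop
    have h1 : Tendsto (fun m => exp (S y) / r m) atTop (𝓝 0) := tendsto_const_nhds.div_atTop hr'
    have h2 : Tendsto (fun m => 1 / r m) atTop (𝓝 0) := tendsto_const_nhds.div_atTop hr'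
    have h3 := ((tendsto_const_nhds (x := exp (S y))).div
      (tendsto_const_nhds (x := (1 : ℝ)) |>.add h1) (by simp)).add h2
    simpa [hg] using h3
  have cg : ∀ m, Continuous (g m) := fun m => (hgC m).continuous
  have L1 : Tendsto (fun m => ∫ y, g m y ∂gam n) atTop (𝓝 1) := by
    rw [← h1]
    exact tendsto_integral_of_dominated_convergence (fun y => 1 + exp (S y))
      (fun m => (cg m).aestronglyMeasurable) ((integrable_const 1).add ih)
      (fun m => .of_forall fun y => by
        rw [Real.norm_eq_abs, abs_of_pos (hgpos m y)]; exact hle m y)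
      (.of_forall hlimh)
  have iAbs : Integrable (fun y => |S y|) (gam n) :=
    gbase_μ (n := n) ▸ (gbase n).good_integrable gS.abs
  have L2 : Tendsto (fun m => ∫ y, g m y * log (g m y) ∂gam n) atTop
      (𝓝 (∫ y, exp (S y) * S y ∂gam n)) := by
    refine tendsto_integral_of_dominated_convergence
      (fun y => (1 + (|S y| + 1)) + (exp (S y) * |S y| + exp (S y)))
      (fun m => ((cg m).mul ((cg m).log fun y => (hgpos m y).ne')).aestronglyMeasurable)
      (((integrable_const 1).add (iAbs.add (integrable_const 1))).add (iS.add ih))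
      (fun m => .of_forall fun y => ?_)
      (.of_forall fun y => ?_)
    · rw [Real.norm_eq_abs]
      refine (abs_mul_log_le (hgpos m y) (hle m y) (hpos y).le).trans ?_
      have hq : log (1 + exp (S y)) ≤ |S y| + 1 := by
        have h2 : 1 + exp (S y) ≤ exp (|S y| + 1) := by
          rw [exp_add]
          nlinarith [one_le_exp (abs_nonneg (S y)), exp_le_exp.2 (le_abs_self (S y)),
            exp_one_gt_two]
        have := log_le_log (by positivity) h2
        rwa [log_exp] at this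
      linarith [mul_le_mul_of_nonneg_left hq
        (by positivity : (0 : ℝ) ≤ 1 + exp (S y))]
    · have := (hlimh y).mul ((hlimh y).log (hpos y).ne')
      rwa [log_exp] at this
  have hfin : (∫ y, exp (S y) * S y ∂gam n) - 1 * log 1 ≤
      1 / 2 * ∫ y, exp (S y) * N y ^ 2 ∂gam n := by
    refine le_of_tendsto (L2.sub (L1.mul (L1.log one_ne_zero))) (.of_forall fun m => ?_)
    refine (gam_lsi (hgC m) (one_div_pos.2 (hr0 m)) (hlo m) (hhi m) (gd m)).trans
      (mul_le_mul_of_nonneg_left ?_ (by norm_num))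
    exact integral_mono_of_nonneg (.of_forall fun y => div_nonneg (sq_nonneg _) (hgpos m y).le)
      iN (.of_forall fun y => hfis m y)
  rw [log_one, mul_zero, sub_zero] at hfin
  exact hfin

theorem PotOk.expGrowth_self {U : E n → ℝ} (hU : PotOk U) : ExpGrowth U := by
  obtain ⟨a, b, hb, hl⟩ := hU.lower
  obtain ⟨a', hu⟩ := hU.upper
  refine (((expGrowth_const 1).add (expGrowth_norm_pow 2)).const_mul (|a| + |a'|)).of_abs_le
    fun x => ?_
  have h2 : (0 : ℝ) ≤ 1 + ‖x‖ ^ 2 := by positivity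
  rw [abs_of_nonneg (mul_nonneg (by positivity : (0 : ℝ) ≤ |a| + |a'|) h2), add_mul]
  have h3 := mul_le_mul_of_nonneg_right (le_abs_self a') h2
  have h4 : |a| ≤ |a| * (1 + ‖x‖ ^ 2) :=
    le_mul_of_one_le_right (abs_nonneg a) (by linarith [sq_nonneg ‖x‖])
  have h5 := mul_nonneg hb.le (sq_nonneg ‖x‖)
  have h6 := mul_nonneg (abs_nonneg a') h2
  exact abs_le.2 ⟨by linarith [hl x, le_abs_self a], by linarith [hu x, abs_nonneg a]⟩

theorem PotOk.integrable_gam_exp {U : E n → ℝ} (hU : PotOk U) {S : E n → ℝ}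
    (hS : ∀ y, gdens y * exp (S y) = exp (-U y)) {G : E n → ℝ} (hGc : Continuous G)
    (hGg : ExpGrowth G) : Integrable (fun y => exp (S y) * G y) (gam n) ∧
      ∫ y, exp (S y) * G y ∂gam n = ∫ y, exp (-U y) * G y := by
  refine ⟨?_, ?_⟩
  · rw [integrable_gam_iff]
    exact (hU.integrable_mul hGc hGg).congr
      (.of_forall fun y => by simp only [← mul_assoc, hS])
  · rw [integral_gam]
    exact integral_congr_ae (.of_forall fun y => by simp only [← mul_assoc, hS])

theorem coord_ibp {U : E n → ℝ} (hU : PotOk U) (hm : ∫ x, exp (-U x) = 1) (k : Fin n) :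
    ∫ y, exp (-U y) * (y k * fderiv ℝ U y (eb k)) = 1 := by
  set L : E n →L[ℝ] ℝ := PiLp.proj 2 (fun _ => ℝ) k with hL
  have hd : ∀ x : E n, HasFDerivAt (fun y : E n => y k) L x := fun x => L.hasFDerivAt
  have := pot_ibp n U hU (fun y => y k) L.contDiff 1
    (fun x => by
      have := PiLp.norm_apply_le x k
      rw [Real.norm_eq_abs] at this
      linarith)
    (fun x => by
      rw [(hd x).fderiv, one_mul]
      refine (ContinuousLinearMap.opNorm_le_bound _ zero_le_one fun u => ?_).trans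
        (by linarith [norm_nonneg x])
      simpa [hL] using PiLp.norm_apply_le u k) k
  rw [this]
  simp only [(hd _).fderiv]
  simpa [hL, eb, PiLp.single_apply] using hm

theorem gauss_lsi_one {U : E n → ℝ} (hU : PotOk U) (hm : ∫ x, exp (-U x) = 1) :
    ∫ x, exp (-U x) * -U x ≤ -((n : ℝ) / 2) * log (2 * π) +
      1 / 2 * (∫ x, exp (-U x) * ‖fderiv ℝ U x‖ ^ 2) - n := by
  set c := log (√(2 * π) ^ n) with hc
  have hc' : c = (n : ℝ) / 2 * log (2 * π) := by
    rw [hc, log_pow, log_sqrt (by positivity)]; ring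
  set S : E n → ℝ := fun y => ‖y‖ ^ 2 / 2 + c - U y with hS
  have hSd : ContDiff ℝ 1 S :=
    (((contDiff_norm_sq ℝ).div_const 2).add contDiff_const).sub hU.smooth
  have egh : ∀ y : E n, gdens y * exp (S y) = exp (-U y) := fun y => by
    rw [← exp_gauss, ← exp_add]
    congr 1; simp only [hS, hc]; ring
  have hdU : ∀ y, HasFDerivAt U (fderiv ℝ U y) y := fun y =>
    (hU.smooth.differentiable one_ne_zero y).hasFDerivAt
  have hDS : ∀ y, fderiv ℝ S y = innerSL ℝ y - fderiv ℝ U y := fun y => by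
    have h1 := (hasStrictFDerivAt_norm_sq y).hasFDerivAt.const_mul (1 / 2 : ℝ)
    refine HasFDerivAt.fderiv ((((h1.add_const c).sub (hdU y)).congr_of_eventuallyEq
      (.of_forall fun z => ?_)).congr_fderiv ?_)
    · simp only [hS, Pi.sub_apply]; ring
    · ext u; simp
  have gN : ExpGrowth fun y => ‖fderiv ℝ S y‖ :=
    (expGrowth_norm.add hU.expGrowth_norm_grad).of_abs_le fun y => by
      rw [hDS, abs_norm, abs_of_nonneg (add_nonneg (norm_nonneg _) (norm_nonneg _))]
      exact (norm_sub_le _ _).trans (by rw [innerSL_apply_norm])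
  have cN : Continuous fun y => ‖fderiv ℝ S y‖ := (hSd.continuous_fderiv one_ne_zero).norm
  have gS : Good S := ⟨hSd.continuous, by
    simp only [hS]
    refine ExpGrowth.sub (ExpGrowth.add ?_ (expGrowth_const c)) hU.expGrowth_self
    simpa [div_eq_inv_mul] using (expGrowth_norm_pow (n := n) 2).const_mul 2⁻¹⟩
  have i0 := hU.integrable_gam_exp egh (G := fun _ => 1) continuous_const (expGrowth_const 1)
  simp only [mul_one, hm] at i0
  have iS := hU.integrable_gam_exp egh gS.abs.1 gS.abs.2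
  have iN := hU.integrable_gam_exp egh (G := fun y => ‖fderiv ℝ S y‖ ^ 2) (cN.pow 2) gN.sq
  have hfin := lsi_exp hSd gS gN i0.1 i0.2 iS.1 iN.1
  rw [(hU.integrable_gam_exp egh gS.1 gS.2).2, iN.2] at hfin
  have iq : Integrable fun y : E n => exp (-U y) * ‖y‖ ^ 2 :=
    hU.integrable_mul (by fun_prop) (expGrowth_norm_pow 2)
  have i1 : Integrable fun y : E n => exp (-U y) := by
    simpa using hU.integrable_mul (G := fun _ => 1) continuous_const (expGrowth_const 1)
  have iU : Integrable fun y => exp (-U y) * -U y := by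
    refine hU.integrable_mul hU.smooth.continuous.neg (hU.expGrowth_self.of_abs_le fun y => ?_)
    rw [abs_neg]
  have eL : ∫ y, exp (-U y) * S y =
      1 / 2 * (∫ y, exp (-U y) * ‖y‖ ^ 2) + c + ∫ y, exp (-U y) * -U y := by
    have e : ∀ y, exp (-U y) * S y =
        1 / 2 * (exp (-U y) * ‖y‖ ^ 2) + c * exp (-U y) + exp (-U y) * -U y := fun y => by
      simp only [hS]; ring
    simp only [e]
    have iqc : Integrable fun y : E n =>
        1 / 2 * (exp (-U y) * ‖y‖ ^ 2) + c * exp (-U y) := (iq.const_mul _).add (i1.const_mul _)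
    rw [integral_add iqc iU,
      integral_add (iq.const_mul _) (i1.const_mul _), integral_const_mul, integral_const_mul, hm,
      mul_one]
  have iX : ∀ k, Integrable fun y => exp (-U y) * (y k * fderiv ℝ U y (eb k)) := fun k =>
    hU.integrable_mul ((Good.coord k).1.mul (continuous_apply_eb hU.smooth k))
      ((Good.coord k).2.mul (hU.expGrowth_apply k))
  have iB : Integrable fun y => exp (-U y) * ‖fderiv ℝ U y‖ ^ 2 :=
    hU.integrable_mul ((hU.smooth.continuous_fderiv one_ne_zero).norm.pow 2)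
      hU.expGrowth_norm_grad.sq
  have eR : ∫ y, exp (-U y) * ‖fderiv ℝ S y‖ ^ 2 = (∫ y, exp (-U y) * ‖y‖ ^ 2) +
      (∫ y, exp (-U y) * ‖fderiv ℝ U y‖ ^ 2) - 2 * n := by
    have e : ∀ y, exp (-U y) * ‖fderiv ℝ S y‖ ^ 2 = exp (-U y) * ‖y‖ ^ 2 +
        exp (-U y) * ‖fderiv ℝ U y‖ ^ 2 -
        2 * ∑ k, exp (-U y) * (y k * fderiv ℝ U y (eb k)) := fun y => by
      have e1 : ‖y‖ ^ 2 = ∑ k, y k ^ 2 := by
        simp [EuclideanSpace.norm_sq_eq, Real.norm_eq_abs, sq_abs]
      rw [hDS, norm_clm_sq, norm_clm_sq, e1]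
      simp only [sub_apply, innerSL_apply_apply, inner_eb, Finset.mul_sum,
        ← Finset.sum_add_distrib, ← Finset.sum_sub_distrib]
      exact Finset.sum_congr rfl fun k _ => by ring
    simp only [e]
    have iqb : Integrable fun y : E n => exp (-U y) * ‖y‖ ^ 2 +
        exp (-U y) * ‖fderiv ℝ U y‖ ^ 2 := iq.add iB
    rw [integral_sub iqb ((integrable_finsetSum _ fun k _ => iX k).const_mul 2),
      integral_add iq iB, integral_const_mul, integral_finsetSum _ fun k _ => iX k]
    simp [coord_ibp hU hm]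
  rw [eL, eR, hc'] at hfin
  linarith

theorem gauss_lsi : GaussLsiProp := by
  intro n U hU hm ε hε
  set q := √ε with hq
  have hq0 : 0 < q := sqrt_pos.2 hε
  set l := (n : ℝ) / 2 * log ε with hl
  set V : E n → ℝ := fun y => U (q • y) - l with hV
  have hDV : ∀ y, HasFDerivAt V (q • fderiv ℝ U (q • y)) y := fun y => by
    refine (((hU.smooth.differentiable one_ne_zero (q • y)).hasFDerivAt.comp y
      ((hasFDerivAt_id y).const_smul q)).sub_const l).congr_fderiv ?_
    ext u; simp
  have hns : ∀ y : E n, ‖q • y‖ ^ 2 = ε * ‖y‖ ^ 2 := fun y => by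
    rw [norm_smul, mul_pow, Real.norm_eq_abs, sq_abs, hq, sq_sqrt hε.le]
  have hVok : PotOk V := by
    refine ⟨(hU.smooth.comp (contDiff_id.const_smul q)).sub contDiff_const, ?_, ?_, ?_⟩
    · obtain ⟨a, b, hb, h⟩ := hU.lower
      refine ⟨a + l, b * ε, mul_pos hb hε, fun y => ?_⟩
      have := h (q • y)
      rw [hns, ← mul_assoc] at this
      simp only [hV]; linarith
    · obtain ⟨a, h⟩ := hU.upper
      refine ⟨|a| * (1 + ε) + |l|, fun y => ?_⟩
      have h1 := (h (q • y)).trans
        (mul_le_mul_of_nonneg_right (le_abs_self a) (by positivity))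
      rw [hns] at h1
      simp only [hV]
      nlinarith [neg_le_abs l, mul_nonneg (abs_nonneg a) hε.le, mul_nonneg (abs_nonneg a)
        (sq_nonneg ‖y‖), mul_nonneg (abs_nonneg l) (sq_nonneg ‖y‖)]
    · obtain ⟨a, h⟩ := hU.grad
      refine ⟨q * (|a| * (1 + q)), fun y => ?_⟩
      rw [(hDV y).fderiv, norm_smul, Real.norm_eq_abs, abs_of_pos hq0, mul_assoc]
      refine mul_le_mul_of_nonneg_left (((h _).trans (mul_le_mul_of_nonneg_right (le_abs_self a)
        (by positivity))).trans ?_) hq0.le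
      rw [norm_smul, Real.norm_eq_abs, abs_of_pos hq0, mul_assoc |a|]
      refine mul_le_mul_of_nonneg_left ?_ (abs_nonneg a)
      nlinarith [norm_nonneg y]
  have hj : exp l = q ^ n := by
    rw [hl, hq, ← exp_log (pow_pos (sqrt_pos.2 hε) n), log_pow, log_sqrt hε.le]
    congr 1; ring
  have hI : ∀ G : E n → ℝ,
      ∫ y, exp (-V y) * G (q • y) = ∫ x, exp (-U x) * G x := fun G => by
    have e : ∀ y, exp (-V y) * G (q • y) = q ^ n * (exp (-U (q • y)) * G (q • y)) := fun y => by
      simp only [hV]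
      rw [neg_sub, exp_sub, hj, exp_neg, div_eq_mul_inv]
      ring
    simp only [e]
    rw [integral_const_mul,
      Measure.integral_comp_smul volume (fun x => exp (-U x) * G x) q, finrank_euclideanSpace_fin,
      abs_of_pos (by positivity), smul_eq_mul, ← mul_assoc, mul_inv_cancel₀ (by positivity),
      one_mul]
  have hm' : ∫ y, exp (-V y) = 1 := by simpa [hm] using hI fun _ => 1
  have h := gauss_lsi_one hVok hm'
  have gU : ExpGrowth fun x => -U x := hU.expGrowth_self.of_abs_le fun x => by rw [abs_neg]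
  have e1 : ∫ y, exp (-V y) * -V y = (∫ x, exp (-U x) * -U x) + l := by
    have := hI fun x => -U x + l
    rw [show (fun y => exp (-V y) * -V y) = fun y => exp (-V y) * (-U (q • y) + l) by
      funext y; simp only [hV]; ring, this]
    simp only [mul_add]
    rw [integral_add (hU.integrable_mul (G := fun x => -U x) hU.smooth.continuous.neg gU)
      (hU.integrable_mul continuous_const (expGrowth_const l)), integral_mul_const, hm, one_mul]
  have e2 : ∫ y, exp (-V y) * ‖fderiv ℝ V y‖ ^ 2 =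
      ε * ∫ x, exp (-U x) * ‖fderiv ℝ U x‖ ^ 2 := by
    have := hI fun x => ε * ‖fderiv ℝ U x‖ ^ 2
    rw [show (fun y => exp (-V y) * ‖fderiv ℝ V y‖ ^ 2) =
      fun y => exp (-V y) * (ε * ‖fderiv ℝ U (q • y)‖ ^ 2) by
      funext y
      rw [(hDV y).fderiv, norm_smul, mul_pow, Real.norm_eq_abs, sq_abs, hq, sq_sqrt hε.le], this,
      ← integral_const_mul]
    congr 1; funext x; ring
  rw [e1, e2] at h
  have e3 : (n : ℝ) / 2 * log (2 * π * ε) = (n : ℝ) / 2 * log (2 * π) + l := by
    rw [hl, log_mul (by positivity) hε.ne']; ring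
  linarith

end Vale.Agent.P245.Polylog
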