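import Vale.Agent.P245.Polylog.Statements
import Vale.Agent.P245.Local.Criterion
import Vale.Agent.P245.Local.LsiStrong

/-!
# P245: from the transport-entropy inequality for `q` to the infimal convolution for `μ`
-/

open MeasureTheory Real Set Filter
open scoped RealInnerProductSpace ENNReal Topology

noncomputable section

namespace Vale.Agent.P245.Polylog

open Vale.Agent.P245.Local Vale.Agent.P245.Local.Base

variable {n : ℕ}

/-- the Bregman divergence is at most `|u|²/(2t)` -/
theorem breg_le (B : Base n) {t : ℝ} (ht : 0 < t) (g u : E n) :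
    B.breg t g u ≤ ‖u‖ ^ 2 / (2 * t) := by
  have h2 : (0 : ℝ) < t / 2 := by linarith
  have hs : (B.tilt (t / 2) h2.le 0).Strong (t / 2) := by
    simpa using B.strong_tilt B.strong_zero (t / 2) h2.le 0
  have h := (B.tilt (t / 2) h2.le 0).Lam_add_le h2 hs h2 g u
  have hL : ∀ η : E n, (B.tilt (t / 2) h2.le 0).Lam (t / 2) η = B.Lam t η - B.Lam (t / 2) 0 :=
    fun η => by
      rw [Lam, Z_tilt, zero_add, add_halves, log_div (B.Z_pos ht.le η).ne' (B.Z_pos h2.le 0).ne']
      rfl
  rw [hL, hL, B.avg_tilt, zero_add, add_halves, ← B.inner_mean ht.le] at h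
  rw [breg, show ‖u‖ ^ 2 / (2 * t) = t⁻¹ * ‖u‖ ^ 2 / 2 by field_simp]
  linarith

/-- property (τ) from its exponential form -/
theorem tauP_of_exp {ν : Measure (E n)} [IsProbabilityMeasure ν] {c δ : ℝ} (hc : 0 ≤ c)
    (hD : ∀ (h : E n → ℝ) (K : ℝ), BddM h K →
      ∫ x, exp (Qc c h x) ∂ν ≤ exp (∫ x, h x ∂ν + δ)) : TauP ν (c / 2) (2 * δ) := by
  intro h K hh
  have hq := bddM_Qc hc hh
  have h1 := hD _ _ hq
  have h2 := hD _ _ hq.neg
  have h3 : ∫ x, exp (Qc (c / 2) h x) ∂ν ≤ ∫ x, exp (Qc c (Qc c h) x) ∂ν :=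
    integral_mono (integrable_bdd_comp (bddM_Qc (by linarith) hh).exp)
      (integrable_bdd_comp (bddM_Qc hc hq).exp) fun x => exp_le_exp.2
        (Qc_series (by linarith) hh (fun p q => by nlinarith [sq_nonneg (p - q)]) x)
  have h4 : ∫ x, exp (-h x) ∂ν ≤ ∫ x, exp (Qc c (fun y => -Qc c h y) x) ∂ν :=
    integral_mono (integrable_bdd_comp hh.neg.exp) (integrable_bdd_comp (bddM_Qc hc hq.neg).exp)
      fun x => exp_le_exp.2 (neg_le_Qc_neg_Qc hc hh x)
  refine (mul_le_mul (h3.trans h1) (h4.trans h2) (integral_nonneg fun x => (exp_pos _).le)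
    (exp_pos _).le).trans_eq ?_
  rw [← exp_add, integral_neg]
  congr 1; ring

/-- squares are integrable under `q` -/
theorem integrable_norm_sq_q (B : Base n) {t : ℝ} (ht : 0 ≤ t) :
    Integrable (fun g : E n => ‖g‖ ^ 2) (B.qmeas t) := by
  rw [qmeas, integrable_map_measure (by fun_prop) (measurable_locMap t).aemeasurable]
  have h1 : Integrable (fun p : E n × E n => 2 * t ^ 2 * ‖p.1‖ ^ 2) (B.μ.prod (gam n)) :=
    ((B.good_integrable Good.norm_sq).comp_fst (gam n)).const_mul _
  have hz : Integrable (fun z : E n => ‖z‖ ^ 2) (gam n) := by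
    refine ((integrable_gam_exp (n := n) (c := 1 / 4) (by norm_num) 0).const_mul 4).mono'
      (by fun_prop) (.of_forall fun z => ?_)
    rw [Real.norm_eq_abs, abs_of_nonneg (sq_nonneg _)]
    nlinarith [add_one_le_exp (1 / 4 * ‖z‖ ^ 2 + 0 * ‖z‖)]
  have h2 : Integrable (fun p : E n × E n => 2 * t * ‖p.2‖ ^ 2) (B.μ.prod (gam n)) :=
    (hz.comp_snd B.μ).const_mul _
  refine (h1.add h2).mono' (by unfold locMap; fun_prop) (.of_forall fun p => ?_)
  simp only [Function.comp_apply, Pi.add_apply, Real.norm_eq_abs, abs_of_nonneg (sq_nonneg ‖locMap t p‖)]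
  have := locMap_sub ht p.1 0 p.2 0
  simpa [locMap] using this

variable {B : Base n} {T ε r : ℝ} {p f ψ : E n → ℝ}

theorem IsPlan.continuous_kker (hπ : IsPlan B T ε r p f ψ) :
    Continuous fun a : E n × E n => kker ε f ψ a.1 a.2 := by
  have h1 := hπ.contf; have h2 := hπ.contψ
  unfold kker; fun_prop

/-- the plan as an integrable density on the product -/
theorem IsPlan.integrable_density (hπ : IsPlan B T ε r p f ψ) :
    Integrable (fun a : E n × E n => p a.2 * kker ε f ψ a.1 a.2)
      ((B.qmeas T).prod (B.qmeas T)) := by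
  have hm : Measurable fun a : E n × E n => p a.2 * kker ε f ψ a.1 a.2 :=
    (hπ.meas.comp measurable_snd).mul hπ.continuous_kker.measurable
  rw [integrable_prod_iff hm.aestronglyMeasurable]
  refine ⟨.of_forall fun g => integrable_of_integral_eq_one (hπ.left g), ?_⟩
  refine (integrable_const (1 : ℝ)).congr (.of_forall fun g => ?_)
  simp only [Real.norm_eq_abs]
  rw [← hπ.left g]
  exact integral_congr_ae (.of_forall fun z =>
    (abs_of_nonneg (mul_nonneg (hπ.nonneg z) (exp_pos _).le)).symm)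

/-- weak duality along the plan -/
theorem IsPlan.dual_le (hπ : IsPlan B T ε r p f ψ) {k F : E n → ℝ} {K L κ : ℝ} (hk : BddM k K)
    (hF : BddM F L) (hle : ∀ g z, F z ≤ k g + κ * ‖z - g‖ ^ 2) :
    ∫ z, p z * F z ∂B.qmeas T ≤ (∫ g, k g ∂B.qmeas T) + κ * cost B T ε p f ψ := by
  set ν := B.qmeas T with hν
  set d : E n × E n → ℝ := fun a => p a.2 * kker ε f ψ a.1 a.2 with hd
  have hdi : Integrable d (ν.prod ν) := hπ.integrable_density
  have hdF : Integrable (fun a => d a * F a.2) (ν.prod ν) :=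
    hdi.mul_bdd (hF.1.comp measurable_snd).aestronglyMeasurable
      (.of_forall fun a => by simpa using hF.2 a.2)
  have hdk : Integrable (fun a => d a * k a.1) (ν.prod ν) :=
    hdi.mul_bdd (hk.1.comp measurable_fst).aestronglyMeasurable
      (.of_forall fun a => by simpa using hk.2 a.1)
  have hd0 : ∀ a, 0 ≤ d a := fun a => mul_nonneg (hπ.nonneg _) (exp_pos _).le
  have hq2 : Integrable (fun a : E n × E n => d a * ‖a.2 - a.1‖ ^ 2) (ν.prod ν) := by
    have hm : Measurable fun a : E n × E n => d a * ‖a.2 - a.1‖ ^ 2 :=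
      ((hπ.meas.comp measurable_snd).mul hπ.continuous_kker.measurable).mul (by fun_prop)
    have hpt : ∀ g z, d (g, z) * ‖z - g‖ ^ 2 ≤ 2 * (r ^ 2 + ‖g‖ ^ 2) * d (g, z) := fun g z => by
      rcases lt_or_ge r ‖z‖ with h | h
      · simp [hd, hπ.supp z h]
      · rw [mul_comm]
        refine mul_le_mul_of_nonneg_right ?_ (hd0 _)
        calc ‖z - g‖ ^ 2 ≤ (‖z‖ + ‖g‖) ^ 2 := by gcongr; exact norm_sub_le _ _
          _ ≤ 2 * (‖z‖ ^ 2 + ‖g‖ ^ 2) := add_sq_le
          _ ≤ _ := by gcongr
    rw [integrable_prod_iff hm.aestronglyMeasurable]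
    have hi : ∀ g, Integrable (fun z => d (g, z) * ‖z - g‖ ^ 2) ν := fun g =>
      ((integrable_of_integral_eq_one (hπ.left g)).const_mul (2 * (r ^ 2 + ‖g‖ ^ 2))).mono'
        (hm.comp measurable_prodMk_left).aestronglyMeasurable (.of_forall fun z => by
          rw [Real.norm_eq_abs, abs_of_nonneg (mul_nonneg (hd0 _) (sq_nonneg _))]
          exact hpt g z)
    refine ⟨.of_forall hi, ?_⟩
    refine (((integrable_const (r ^ 2)).add (integrable_norm_sq_q B hπ.posT.le)).const_mul 2).mono'
      hm.norm.stronglyMeasurable.integral_prod_right'.aestronglyMeasurable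
      (.of_forall fun g => ?_)
    simp only [Real.norm_eq_abs, abs_of_nonneg (mul_nonneg (hd0 _) (sq_nonneg _))]
    rw [abs_of_nonneg (integral_nonneg fun z => mul_nonneg (hd0 _) (sq_nonneg _))]
    refine (integral_mono (hi g) ((integrable_of_integral_eq_one (hπ.left g)).const_mul _)
      (hpt g)).trans_eq ?_
    rw [integral_const_mul, hπ.left g, mul_one]
    rfl
  have hm := integral_mono hdF (hdk.add (hq2.const_mul κ)) fun a => by
    have := mul_le_mul_of_nonneg_left (hle a.1 a.2) (hd0 a)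
    simp only [Pi.add_apply]; linarith
  rw [integral_add' hdk (hq2.const_mul κ), integral_const_mul, integral_prod _ hdk,
    integral_prod _ hq2, integral_prod_symm _ hdF] at hm
  simp only [hd] at hm
  have e1 : ∀ z, ∫ g, p z * kker ε f ψ g z * F z ∂ν = p z * F z := fun z => by
    rw [integral_mul_const, integral_const_mul, hπ.right z, mul_one]
  have e2 : ∀ g, ∫ z, p z * kker ε f ψ g z * k g ∂ν = k g := fun g => by
    rw [integral_mul_const, hπ.left g, one_mul]
  simp only [e1, e2] at hm
  exact hm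

/-- transport-entropy implies the infimal-convolution inequality for `q` -/
theorem q_infConv (B : Base n) (hn : 1 ≤ n) (hS : B.Subg) (hE : PlanExistsProp) {T C : ℝ}
    (hT : 0 < T) (hT1 : T ≤ 1) (hC : 0 < C)
    (hcost : ∀ ε r : ℝ, ε ≤ T → ∀ p f ψ : E n → ℝ, IsPlan B T ε r p f ψ →
      cost B T ε p f ψ ≤ C * T * lg n ^ 2 * ((∫ z, p z * log (p z) ∂B.qmeas T) + 1) +
        C * n * lg n ^ 2 * ε)
    (hl : 0 < lg n) {k : E n → ℝ} {K : ℝ} (hk : BddM k K) :
    ∫ x, exp (Qc (1 / (2 * (C * T * lg n ^ 2))) k x) ∂B.qmeas T ≤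
      exp (∫ x, k x ∂B.qmeas T + 1) := by
  set κ := 1 / (2 * (C * T * lg n ^ 2)) with hκ
  have hκ0 : 0 < κ := by positivity
  set F := Qc κ k with hF
  have hFb : BddM F K := bddM_Qc hκ0.le hk
  set ν := B.qmeas T with hν
  set bound := exp (∫ x, k x ∂ν + 1) with hbound
  have key : ∀ r : ℝ, 0 < r → ∫ x in Metric.closedBall (0 : E n) r, exp (F x) ∂ν ≤ bound := by
    intro r hr
    set S := Metric.closedBall (0 : E n) r with hS'
    have hSm : MeasurableSet S := Metric.isClosed_closedBall.measurableSet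
    set I := ∫ x in S, exp (F x) ∂ν with hI
    rcases (setIntegral_nonneg hSm fun x _ => (exp_pos (F x)).le : (0 : ℝ) ≤ I).eq_or_lt with
      h0 | hIpos
    · rw [hI, ← h0]; exact (exp_pos _).le
    set p : E n → ℝ := fun z => S.indicator (fun z => exp (F z) / I) z with hp
    have hpm : Measurable p := (hFb.1.exp.div_const I).indicator hSm
    have hp0 : ∀ z, 0 ≤ p z := fun z => indicator_nonneg (fun z _ => by positivity) z
    have hpb : ∀ z, p z ≤ exp K / I := fun z => by
      by_cases hz : z ∈ S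
      · rw [hp]; simp only [indicator_of_mem hz]
        gcongr; exact (abs_le.1 (hFb.2 z)).2
      · rw [hp]; simp only [indicator_of_notMem hz]; positivity
    have hsupp : ∀ z, r < ‖z‖ → p z = 0 := fun z hz =>
      indicator_of_notMem (by simpa [hS'] using hz) _
    have hmass : ∫ z, p z ∂ν = 1 := by
      rw [hp, integral_indicator hSm, integral_div, ← hI, div_self hIpos.ne']
    have hpi : BddM p (exp K / I) := ⟨hpm, fun z => by rw [abs_of_nonneg (hp0 z)]; exact hpb z⟩
    have hid : ∀ z, p z * log (p z) = p z * F z - log I * p z := fun z => by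
      by_cases hz : z ∈ S
      · rw [hp]; simp only [indicator_of_mem hz]
        rw [log_div (exp_pos _).ne' hIpos.ne', log_exp]; ring
      · rw [hp]; simp [indicator_of_notMem hz]
    have ipF : Integrable (fun z => p z * F z) ν := integrable_bdd_comp (hpi.mul hFb)
    have ip : Integrable p ν := integrable_bdd_comp hpi
    have hH : ∫ z, p z * log (p z) ∂ν = (∫ z, p z * F z ∂ν) - log I := by
      simp only [hid]
      rw [integral_sub ipF (ip.const_mul _), integral_const_mul, hmass, mul_one]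
    have hH0 : 0 ≤ ∫ z, p z * log (p z) ∂ν := by
      have hi : Integrable (fun z => p z * log (p z)) ν :=
        (ipF.sub (ip.const_mul (log I))).congr (.of_forall fun z => (hid z).symm)
      have := integral_mono (μ := ν) (ip.sub (integrable_const (1 : ℝ))) hi fun z => by
        rcases (hp0 z).eq_or_lt with h | h
        · simp [← h]
        · have := mul_le_mul_of_nonneg_left (one_sub_inv_le_log_of_pos h) h.le
          rw [mul_sub, mul_inv_cancel₀ h.ne', mul_one] at this
          simpa using this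
      rw [integral_sub' ip (integrable_const (1 : ℝ)), hmass] at this
      simpa using this
    set ε := min T (1 / (κ * (C * n * lg n ^ 2) * 2)) with hε
    have hn0 : (0 : ℝ) < n := by exact_mod_cast hn
    have hεpos : 0 < ε := lt_min hT (by positivity)
    obtain ⟨f, ψ, hπ⟩ := hE n hn B hS T ε r hT hT1 hεpos hr p hpm hp0 ⟨_, hpb⟩ hsupp hmass
    have h1 := hπ.dual_le hk hFb fun g z => Qc_le hκ0.le hk z g
    have h2 := mul_le_mul_of_nonneg_left (hcost ε r (min_le_left _ _) p f ψ hπ) hκ0.le
    have h3 : κ * (C * n * lg n ^ 2 * ε) ≤ 1 / 2 := by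
      calc κ * (C * n * lg n ^ 2 * ε)
          ≤ κ * (C * n * lg n ^ 2) * (1 / (κ * (C * n * lg n ^ 2) * 2)) := by
            rw [← mul_assoc]; gcongr; exact min_le_right _ _
        _ = 1 / 2 := by field_simp
    have h4 : κ * (C * T * lg n ^ 2) = 1 / 2 := by rw [hκ]; field_simp
    rw [hbound, ← log_le_iff_le_exp hIpos]
    rw [mul_add, ← mul_assoc κ, h4] at h2
    linarith
  have hlim : Tendsto (fun j : ℕ => ∫ x in Metric.closedBall (0 : E n) (j + 1), exp (F x) ∂ν) atTop
      (𝓝 (∫ x in ⋃ j : ℕ, Metric.closedBall (0 : E n) ((j : ℝ) + 1), exp (F x) ∂ν)) :=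
    tendsto_setIntegral_of_monotone (fun j => Metric.isClosed_closedBall.measurableSet)
      (fun i j hij => Metric.closedBall_subset_closedBall (by gcongr))
      (integrable_bdd_comp hFb.exp).integrableOn
  have hU : (⋃ j : ℕ, Metric.closedBall (0 : E n) ((j : ℝ) + 1)) = univ := by
    refine eq_univ_of_forall fun x => mem_iUnion.2 ⟨⌈‖x‖⌉₊, ?_⟩
    rw [Metric.mem_closedBall, dist_zero_right]
    linarith [Nat.le_ceil ‖x‖]
  rw [hU, setIntegral_univ] at hlim
  exact le_of_tendsto hlim (.of_forall fun j => key _ (by positivity))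

/-- the infimal-convolution inequality for `μ` -/
theorem dprop_log (hT : TransportProp) (hE : PlanExistsProp) : DPropLog := by
  obtain ⟨c₀, C₀, hc₀, hC₀, htr⟩ := hT
  set c := min c₀ 1 with hc
  set C := max C₀ 1 with hC
  have hcpos : 0 < c := lt_min hc₀ one_pos
  have hCpos : 0 < C := hC₀.trans_le (le_max_left _ _)
  refine ⟨c / (48 * C), by positivity, fun n hn B hS hCen => ?_⟩
  have hl1 : 1 ≤ lg n := by
    have : (0 : ℝ) ≤ log (n : ℝ) := log_nonneg (by exact_mod_cast hn)
    rw [lg]; linarith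
  have hl2 : 1 ≤ lg n ^ 2 := one_le_pow₀ hl1
  have hl : 0 < lg n := one_pos.trans_le hl1
  set T := c / lg n ^ 2 with hTdef
  have hTpos : 0 < T := by positivity
  have hT1 : T ≤ 1 := (div_le_self hcpos.le hl2).trans (min_le_right _ _)
  have hTc : T ≤ c₀ / lg n ^ 2 := div_le_div_of_nonneg_right (min_le_left _ _) (by positivity)
  have hcost : ∀ ε r : ℝ, ε ≤ T → ∀ p f ψ : E n → ℝ, IsPlan B T ε r p f ψ →
      cost B T ε p f ψ ≤ C * T * lg n ^ 2 * ((∫ z, p z * log (p z) ∂B.qmeas T) + 1) +
        C * n * lg n ^ 2 * ε := by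
    intro ε r hε p f ψ hπ
    refine (htr n hn B hS hCen T ε r hTc hε p f ψ hπ).trans (add_le_add ?_ ?_)
    · have hH : 0 ≤ (∫ z, p z * log (p z) ∂B.qmeas T) + 1 := by
        by_cases hi : Integrable (fun z => p z * log (p z)) (B.qmeas T)
        · have := integral_mono (integrable_const (-1 : ℝ)) hi fun z =>
            neg_one_le_mul_log (hπ.nonneg z)
          simp at this; linarith
        · rw [integral_undef hi]; norm_num
      gcongr
      exact le_max_left _ _
    · have := hπ.posε.le
      gcongr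
      exact le_max_left _ _
  set κ := 1 / (2 * (C * T * lg n ^ 2)) with hκ
  have hτ := tauP_of_exp (ν := B.qmeas T) (by positivity : 0 ≤ κ)
    fun h K hh => q_infConv B hn hS hE hTpos hT1 hCpos hcost hl hh
  set lam := 1 / (2 * (C * lg n ^ 2)) with hlam
  have hlam1 : lam ≤ 1 := by
    rw [hlam, div_le_one (by positivity)]
    nlinarith [mul_le_mul (le_max_right C₀ 1) hl2 zero_le_one hCpos.le]
  have hgood : B.Good T (1 / (2 * T)) = univ := eq_univ_of_forall fun g u => by
    have := breg_le B hTpos g u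
    rwa [one_div_mul_eq_div]
  have hstep := B.chain_step (t := T) (β := 1 / (2 * T)) (lam := lam) (δ := 2 * 1) hTpos
    (by positivity) (by positivity) hlam1 (by rw [hgood]; simp; norm_num)
    (by
      convert hτ using 1
      rw [hlam, hκ]; field_simp)
  have hs := hstep.scale (by positivity) (s := 1 / 2) (by norm_num) (by norm_num)
  intro h K hh
  have e : c / (48 * C) / lg n ^ 4 = 1 / 2 * (lam * (T / 12)) := by
    rw [hlam, hTdef]; field_simp; ring
  rw [e]
  refine (hs h K hh).trans (exp_le_exp.2 ?_)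
  have h4 : Real.log 4 = 2 * Real.log 2 := by rw [← Real.log_rpow two_pos]; norm_num
  have := Real.log_two_lt_d9
  linarith

end Vale.Agent.P245.Polylog
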