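import Vale.Agent.P245.Polylog.Statements

/-!
# P245: trace pairing against `Omega A = tr A - n - log det A`
-/

open MeasureTheory Real Set Matrix

noncomputable section

namespace Vale.Agent.P245.Polylog

open Vale.Agent.P245.Local

variable {n : ℕ}

theorem omega_small {l : ℝ} (hl : 0 < l) (h2 : l ≤ 2) :
    (l - 1) ^ 2 ≤ 4 * (l - 1 - log l) := by
  rcases le_total l 1 with h1 | h1
  · set s := √l with hs
    have hs0 : 0 < s := sqrt_pos.2 hl
    have hs2 : s ^ 2 = l := sq_sqrt hl.le
    have hs1 : s ≤ 1 := sqrt_le_one.2 h1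
    have hlog : log l = 2 * log s := by rw [hs, log_sqrt hl.le]; ring
    have := log_le_sub_one_of_pos hs0
    rw [← hs2] at hlog ⊢
    nlinarith [mul_nonneg (sq_nonneg (s - 1)) (mul_nonneg (sub_nonneg.2 hs1) (by linarith : (0 : ℝ) ≤ 3 + s))]
  · set d := l - 1 with hd
    set y := d - d ^ 2 / 4 with hy
    have hd0 : 0 ≤ d := by linarith
    have hd1 : d ≤ 1 := by linarith
    have hy0 : 3 / 4 * d ≤ y := by nlinarith
    have h := Real.quadratic_le_exp_of_nonneg (x := y) (by linarith)
    have hle : l ≤ exp y := by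
      nlinarith [mul_le_mul hy0 hy0 (by positivity) (by linarith : (0 : ℝ) ≤ y)]
    have := (log_le_iff_le_exp hl).2 hle
    linarith

theorem omega_big {l : ℝ} (h2 : 2 ≤ l) : l - 1 ≤ 4 * (l - 1 - log l) := by
  have hlog : log l = log 2 + log (l / 2) := by
    rw [← log_mul (by norm_num) (by linarith)]; congr 1; ring
  have := log_le_sub_one_of_pos (by linarith : (0 : ℝ) < l / 2)
  have := log_two_lt_d9
  linarith

theorem omega_diag {A : Mat n} (hA : A.PosDef) :
    ∃ (U : Mat n) (l : Fin n → ℝ), U * Uᵀ = 1 ∧ Uᵀ * U = 1 ∧ conjU U A = diagonal l ∧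
      (∀ i, 0 < l i) ∧ A.trace = ∑ i, l i ∧ Omega A = ∑ i, (l i - 1 - log (l i)) := by
  obtain ⟨U, l, hU, hU', hd⟩ := exists_diag A fun a b => by
    simpa using (hA.1.apply a b).symm
  have hl : ∀ i, 0 < l i := fun i => by
    have he := conjU_diag_apply U A i
    rw [hd, diagonal_apply_eq] at he
    rw [he]
    have hne : (fun a => U a i) ≠ 0 := fun h => by
      have := congrFun (congrFun hU' i) i
      simp [Matrix.mul_apply, congrFun h] at this
    simpa using hA.dotProduct_mulVec_pos hne
  have ht : A.trace = ∑ i, l i := by rw [← trace_conjU hU, hd]; simp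
  have hdet : A.det = ∏ i, l i := by
    have h1 : Uᵀ.det * U.det = 1 := by rw [← det_mul, hU', det_one]
    have h2 : (conjU U A).det = A.det := by
      rw [conjU, det_mul, det_mul]
      calc Uᵀ.det * A.det * U.det = A.det * (Uᵀ.det * U.det) := by ring
        _ = A.det := by rw [h1, mul_one]
    rw [← h2, hd, det_diagonal]
  refine ⟨U, l, hU, hU', hd, hl, ht, ?_⟩
  rw [Omega, ht, hdet, log_prod fun i _ => (hl i).ne']
  simp [Finset.sum_sub_distrib]

theorem pair : PairProp := by
  refine ⟨fun n A hA => ?_, fun n A M α κ hA hα hκ hM => ?_⟩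
  · obtain ⟨U, l, -, -, -, hl, ht, hΩ⟩ := omega_diag hA
    have h0 : ∀ i, 0 ≤ l i - 1 - log (l i) := fun i => by
      linarith [log_le_sub_one_of_pos (hl i)]
    refine ⟨hΩ ▸ Finset.sum_nonneg fun i _ => h0 i, ?_⟩
    rw [ht, hΩ, Finset.mul_sum]
    calc ∑ i, l i ≤ ∑ i, (2 + 4 * (l i - 1 - log (l i))) := Finset.sum_le_sum fun i _ => by
          rcases le_total (l i) 2 with h | h
          · linarith [h0 i]
          · linarith [omega_big h]
      _ = _ := by simp [Finset.sum_add_distrib, mul_comm]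
  · obtain ⟨U, l, hU, hU', hd, hl, -, hΩ⟩ := omega_diag hA
    set M' := conjU U M with hM'
    have hd1 : conjU U (A - 1) = diagonal fun i => l i - 1 := by
      rw [sub_eq_add_neg, conjU_add, conjU_neg, hd, conjU, Matrix.mul_one, hU', ← sub_eq_add_neg,
        ← diagonal_one, diagonal_sub]
    have htr : ((A - 1) * M).trace = ∑ i, (l i - 1) * M' i i := by
      rw [← trace_conjU hU, conjU_mul hU, hd1]
      simp [Matrix.trace, Matrix.diagonal_mul, hM']
    have hdiag : ∀ i, |M' i i| ≤ κ := fun i => by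
      have h := hM fun a => U a i
      rw [← conjU_diag_apply] at h
      have hu : (fun a => U a i) ⬝ᵥ (fun a => U a i) = 1 := by
        have := congrFun (congrFun hU' i) i
        simpa [Matrix.mul_apply, dotProduct] using this
      simpa [hu] using h
    have hfro : ∑ i, M' i i ^ 2 ≤ ∑ i, ∑ j, M i j ^ 2 := by
      have e : ∀ X : Mat n, ∑ i, ∑ j, X i j ^ 2 = (X * Xᵀ).trace := fun X => by
        simp [Matrix.trace, Matrix.mul_apply, pow_two]
      have h2 : M' * M'ᵀ = conjU U (M * Mᵀ) := by
        rw [conjU_mul hU, hM']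
        simp only [conjU, transpose_mul, transpose_transpose, Matrix.mul_assoc]
      calc ∑ i, M' i i ^ 2 ≤ ∑ i, ∑ j, M' i j ^ 2 := Finset.sum_le_sum fun i _ =>
            Finset.single_le_sum (fun j _ => sq_nonneg (M' i j)) (Finset.mem_univ i)
        _ = _ := by rw [e M', e M, h2, trace_conjU hU]
    have key : ∀ i, |(l i - 1) * M' i i| ≤
        4 * (α + κ) * (l i - 1 - log (l i)) + M' i i ^ 2 / α := fun i => by
      have h0 : 0 ≤ l i - 1 - log (l i) := by linarith [log_le_sub_one_of_pos (hl i)]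
      have hm0 : 0 ≤ M' i i ^ 2 / α := by positivity
      rw [abs_mul]
      rcases le_total (l i) 2 with h | h
      · have h1 := omega_small (hl i) h
        have h2 : |l i - 1| * |M' i i| ≤ α * (l i - 1) ^ 2 + M' i i ^ 2 / α := by
          have e : M' i i ^ 2 / α * α = |M' i i| ^ 2 := by
            rw [div_mul_cancel₀ _ hα.ne', sq_abs]
          have : (|l i - 1| * |M' i i|) * α ≤ (α * (l i - 1) ^ 2 + M' i i ^ 2 / α) * α := by
            rw [add_mul, e, ← sq_abs (l i - 1)]
            nlinarith [sq_nonneg (α * |l i - 1| - |M' i i|),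
              mul_nonneg hα.le (mul_nonneg (abs_nonneg (l i - 1)) (abs_nonneg (M' i i)))]
          exact le_of_mul_le_mul_right this hα
        nlinarith [mul_le_mul_of_nonneg_left h1 hα.le, mul_nonneg hκ h0]
      · rw [abs_of_nonneg (by linarith : (0 : ℝ) ≤ l i - 1)]
        have h1 := omega_big h
        have h2 : (l i - 1) * |M' i i| ≤ (l i - 1) * κ :=
          mul_le_mul_of_nonneg_left (hdiag i) (by linarith)
        nlinarith [mul_le_mul_of_nonneg_left h1 hκ, mul_nonneg hα.le h0]
    rw [htr, hΩ]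
    calc |∑ i, (l i - 1) * M' i i| ≤ ∑ i, |(l i - 1) * M' i i| := Finset.abs_sum_le_sum_abs _ _
      _ ≤ ∑ i, (4 * (α + κ) * (l i - 1 - log (l i)) + M' i i ^ 2 / α) :=
          Finset.sum_le_sum fun i _ => key i
      _ = 4 * (α + κ) * (∑ i, (l i - 1 - log (l i))) + (∑ i, M' i i ^ 2) / α := by
          rw [Finset.sum_add_distrib, Finset.mul_sum, Finset.sum_div]
      _ ≤ _ := by gcongr

end Vale.Agent.P245.Polylog
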