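import Vale.Agent.P245.Polylog.Statements

/-!
# P245: calculus of entropic plans
-/

open MeasureTheory Real Set Matrix Filter Topology
open scoped RealInnerProductSpace ENNReal

noncomputable section

namespace Vale.Agent.P245.Polylog

open Vale.Agent.P245.Local Vale.Agent.P245.Local.Base

variable {n : ℕ} {B : Base n} {T ε r : ℝ} {p f ψ : E n → ℝ}

/-- `qmeas T` has a Gaussian tail. -/
theorem exists_exp_sq_qmeas (B : Base n) (hT : 0 < T) :
    ∃ δ : ℝ, 0 < δ ∧ Integrable (fun θ : E n => exp (δ * ‖θ‖ ^ 2)) (B.qmeas T) := by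
  obtain ⟨α, hα, hint⟩ := B.tail
  set δ := min (α / (2 * T ^ 2)) (1 / (8 * T))
  have hδ : 0 < δ := lt_min (by positivity) (by positivity)
  have h1 : 2 * T ^ 2 * δ ≤ α := by
    have h : δ ≤ α / (2 * T ^ 2) := min_le_left _ _
    rw [le_div_iff₀ (by positivity)] at h
    linarith
  have h2 : 2 * T * δ < 1 / 2 := by
    have h : δ ≤ 1 / (8 * T) := min_le_right _ _
    rw [le_div_iff₀ (by positivity)] at h
    nlinarith
  refine ⟨δ, hδ, ?_⟩
  rw [qmeas, integrable_map_measure (by fun_prop) (measurable_locMap T).aemeasurable]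
  have hx : Integrable (fun x : E n => exp (α * ‖x‖ ^ 2)) B.μ := by
    rw [integrable_μ_iff]
    refine hint.congr (.of_forall fun x => ?_)
    show _ = B.rho x * _
    rw [rho, ← exp_add]
    ring_nf
  have hw : Integrable (fun w : E n => exp (2 * T * δ * ‖w‖ ^ 2)) (gam n) := by
    simpa using integrable_gam_exp (n := n) h2 0
  refine (hx.mul_prod hw).mono'
    (((by fun_prop : Continuous fun θ : E n => exp (δ * ‖θ‖ ^ 2)).measurable.comp
      (measurable_locMap T)).aestronglyMeasurable) (.of_forall fun q => ?_)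
  rw [Function.comp_apply, Real.norm_eq_abs, abs_exp, ← exp_add, exp_le_exp]
  have h3 : ‖locMap T q‖ ≤ T * ‖q.1‖ + √T * ‖q.2‖ := (norm_add_le _ _).trans_eq (by
    rw [norm_smul, norm_smul, Real.norm_eq_abs, Real.norm_eq_abs, abs_of_pos hT,
      abs_of_nonneg (sqrt_nonneg T)])
  have h4 : ‖locMap T q‖ ^ 2 ≤ 2 * T ^ 2 * ‖q.1‖ ^ 2 + 2 * T * ‖q.2‖ ^ 2 := by
    calc _ ≤ (T * ‖q.1‖ + √T * ‖q.2‖) ^ 2 := pow_le_pow_left₀ (norm_nonneg _) h3 2
      _ ≤ 2 * (T * ‖q.1‖) ^ 2 + 2 * (√T * ‖q.2‖) ^ 2 := by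
        nlinarith [sq_nonneg (T * ‖q.1‖ - √T * ‖q.2‖)]
      _ = _ := by rw [mul_pow, mul_pow, sq_sqrt hT.le]; ring
  have h5 := mul_le_mul_of_nonneg_left h4 hδ.le
  have h6 := mul_le_mul_of_nonneg_right h1 (sq_nonneg ‖q.1‖)
  linarith

/-- exponential moments of `qmeas T` grow like a Gaussian -/
theorem exp_norm_qmeas (B : Base n) (hT : 0 < T) :
    ∃ δ I : ℝ, 0 < δ ∧ ∀ k : ℝ, Integrable (fun θ : E n => exp (k * ‖θ‖)) (B.qmeas T) ∧
      ∫ θ, exp (k * ‖θ‖) ∂B.qmeas T ≤ exp (k ^ 2 / (4 * δ)) * I := by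
  obtain ⟨δ, hδ, hi⟩ := exists_exp_sq_qmeas B hT
  refine ⟨δ, ∫ θ, exp (δ * ‖θ‖ ^ 2) ∂B.qmeas T, hδ, fun k => ?_⟩
  have hle : ∀ θ : E n, exp (k * ‖θ‖) ≤ exp (k ^ 2 / (4 * δ)) * exp (δ * ‖θ‖ ^ 2) := fun θ => by
    rw [← exp_add]
    exact exp_le_exp.2 (by linarith [exp_norm_le_sq hδ k θ])
  have h1 : Integrable (fun θ : E n => exp (k * ‖θ‖)) (B.qmeas T) :=
    (hi.const_mul (exp (k ^ 2 / (4 * δ)))).mono' (by fun_prop) (.of_forall fun θ => by
      rw [Real.norm_eq_abs, abs_exp]; exact hle θ)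
  refine ⟨h1, ?_⟩
  rw [← integral_const_mul]
  exact integral_mono h1 (hi.const_mul _) hle

theorem integrable_norm_sq_qmeas (B : Base n) (hT : 0 < T) :
    Integrable (fun θ : E n => ‖θ‖ ^ 2) (B.qmeas T) := by
  obtain ⟨δ, hδ, hi⟩ := exists_exp_sq_qmeas B hT
  refine (hi.const_mul δ⁻¹).mono' (by fun_prop) (.of_forall fun θ => ?_)
  rw [Real.norm_eq_abs, abs_of_nonneg (sq_nonneg _), inv_mul_eq_div, le_div_iff₀ hδ]
  linarith [add_one_le_exp (δ * ‖θ‖ ^ 2)]

/-- weight of the plan before normalisation -/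
def pker (ε : ℝ) (p ψ : E n → ℝ) (g z : E n) : ℝ := p z * kker ε 0 ψ g z

/-- unnormalised conditional moment -/
def mom (B : Base n) (T ε : ℝ) (p ψ F : E n → ℝ) (g : E n) : ℝ :=
  ∫ z, pker ε p ψ g z * F z ∂B.qmeas T

theorem kker_eq (g z : E n) : kker ε f ψ g z = exp (-(f g / ε)) * kker ε 0 ψ g z := by
  rw [kker, kker, ← exp_add]
  congr 1
  simp only [Pi.zero_apply]
  ring

theorem pk_eq (g z : E n) : p z * kker ε f ψ g z = exp (-(f g / ε)) * pker ε p ψ g z := by
  rw [kker_eq, pker]; ring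

theorem psi_arith {ψ₀ C I m s r ε δ : ℝ} (hε : 0 < ε) (hδ : 0 < δ) (hr : 0 ≤ r) (hs : 0 ≤ s)
    (hm : 0 ≤ m) (hup : ψ₀ / ε ≤ |C| / ε + ((s + r) / ε) ^ 2 / (4 * δ) + |log I|)
    (hlow : -(|C| / ε + (s + r) / ε * m) ≤ ψ₀ / ε) :
    |ψ₀| ≤ ε * (|C| / ε + |log I| + (r ^ 2 + 1) / (2 * ε ^ 2 * δ) + m * (r + 1) / ε) *
      (1 + s ^ 2) := by
  set A := |C| / ε
  set G := (r ^ 2 + 1) / (2 * ε ^ 2 * δ)
  set M := m * (r + 1) / ε
  set z := 1 + s ^ 2
  have hz : 1 ≤ z := le_add_of_nonneg_right (sq_nonneg s)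
  have hz0 : 0 ≤ z := zero_le_one.trans hz
  have h1 : ((s + r) / ε) ^ 2 / (4 * δ) ≤ G * z := by
    have h : (s + r) ^ 2 ≤ 2 * ((r ^ 2 + 1) * z) := by
      nlinarith [sq_nonneg (s - r), mul_nonneg (sq_nonneg s) (sq_nonneg r)]
    calc ((s + r) / ε) ^ 2 / (4 * δ) = (s + r) ^ 2 / (ε ^ 2 * (4 * δ)) := by
          rw [div_pow, div_div]
      _ ≤ 2 * ((r ^ 2 + 1) * z) / (ε ^ 2 * (4 * δ)) := by gcongr
      _ = G * z := by simp only [G]; field_simp; ring
  have h2 : (s + r) / ε * m ≤ M * z := by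
    have h : s + r ≤ (r + 1) * z := by nlinarith [sq_nonneg (2 * s - 1)]
    calc (s + r) / ε * m ≤ (r + 1) * z / ε * m := by gcongr
      _ = M * z := by simp only [M]; ring
  have e1 : A ≤ A * z := le_mul_of_one_le_right (by positivity) hz
  have e2 : |log I| ≤ |log I| * z := le_mul_of_one_le_right (abs_nonneg _) hz
  have e3 : 0 ≤ M * z := by positivity
  have e4 : 0 ≤ G * z := by positivity
  have e5 : 0 ≤ |log I| * z := by positivity
  have h3 : |ψ₀ / ε| ≤ (A + |log I| + G + M) * z := by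
    rw [abs_le]
    constructor <;> linarith
  rw [abs_div, abs_of_pos hε, div_le_iff₀ hε] at h3
  linarith

namespace IsPlan

variable {F : E n → ℝ} (h : IsPlan B T ε r p f ψ)
include h

theorem continuous_pker (z : E n) : Continuous fun g => pker ε p ψ g z := by
  unfold pker kker; fun_prop

theorem measurable_pker_mul (hF : Continuous F) (g : E n) :
    Measurable fun z => pker ε p ψ g z * F z := by
  have hψ := h.contψ
  have hc : Continuous fun z : E n => kker ε (0 : E n → ℝ) ψ g z * F z := by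
    unfold kker; fun_prop
  have := h.meas.mul hc.measurable
  exact (show (fun z => pker ε p ψ g z * F z) = fun z => p z * (kker ε 0 ψ g z * F z) from
    funext fun z => mul_assoc _ _ _) ▸ this

theorem pker_mul_le (hF : Continuous F) (R : ℝ) :
    ∃ C : ℝ, 0 ≤ C ∧ ∀ g : E n, ‖g‖ ≤ R → ∀ z, |pker ε p ψ g z * F z| ≤ C := by
  obtain ⟨K, hK⟩ := h.bdd
  obtain ⟨M, hM⟩ := (isCompact_closedBall (0 : E n) r).exists_bound_of_continuousOn
    h.contψ.continuousOn
  obtain ⟨N, hN⟩ := (isCompact_closedBall (0 : E n) r).exists_bound_of_continuousOn hF.continuousOn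
  refine ⟨|K| * exp ((|R| * r + M) / ε) * |N|, by positivity, fun g hg z => ?_⟩
  rcases lt_or_ge r ‖z‖ with hz | hz
  · rw [pker, h.supp z hz, zero_mul, zero_mul, abs_zero]; positivity
  · have hz' : z ∈ Metric.closedBall (0 : E n) r := mem_closedBall_zero_iff.2 hz
    rw [pker, kker, abs_mul, abs_mul, abs_exp]
    refine mul_le_mul (mul_le_mul ?_ (exp_le_exp.2 ?_) (exp_pos _).le (abs_nonneg _))
      ((hN z hz').trans (le_abs_self N)) (abs_nonneg _) (by positivity)
    · rw [abs_of_nonneg (h.nonneg z)]; exact (hK z).trans (le_abs_self K)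
    · refine div_le_div_of_nonneg_right ?_ h.posε.le
      have h1 : ⟪g, z⟫ ≤ |R| * r := (real_inner_le_norm g z).trans
        (mul_le_mul (hg.trans (le_abs_self R)) hz (norm_nonneg _) (abs_nonneg _))
      have h2 := hM z hz'
      rw [Real.norm_eq_abs] at h2
      simp only [Pi.zero_apply, sub_zero]
      linarith [neg_abs_le (ψ z)]

theorem integrable_mom (hF : Continuous F) (g : E n) :
    Integrable (fun z => pker ε p ψ g z * F z) (B.qmeas T) := by
  obtain ⟨C, -, hC⟩ := h.pker_mul_le hF ‖g‖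
  exact (integrable_const C).mono' (h.measurable_pker_mul hF g).aestronglyMeasurable
    (.of_forall fun z => by simpa using hC g le_rfl z)

theorem continuous_mom (hF : Continuous F) : Continuous (mom B T ε p ψ F) := by
  refine continuous_iff_continuousAt.2 fun g₀ => ?_
  obtain ⟨C, -, hC⟩ := h.pker_mul_le hF (‖g₀‖ + 1)
  refine continuousAt_of_dominated (bound := fun _ => C)
    (.of_forall fun g => (h.measurable_pker_mul hF g).aestronglyMeasurable) ?_
    (integrable_const C) (.of_forall fun z => ?_)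
  · filter_upwards [Metric.closedBall_mem_nhds g₀ one_pos] with g hg
    refine .of_forall fun z => ?_
    rw [Real.norm_eq_abs]
    refine hC g ?_ z
    have h1 := norm_le_norm_add_norm_sub' g g₀
    rw [mem_closedBall_iff_norm] at hg
    linarith
  · exact ((h.continuous_pker z).mul continuous_const).continuousAt

theorem hasFDerivAt_mom (hF : Continuous F) (g₀ : E n) :
    ∃ D : E n →L[ℝ] ℝ, HasFDerivAt (mom B T ε p ψ F) D g₀ ∧
      ∀ v, D v = ε⁻¹ * mom B T ε p ψ (fun z => F z * ⟪z, v⟫) g₀ := by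
  obtain ⟨C, hC0, hC⟩ := h.pker_mul_le hF (‖g₀‖ + 1)
  have hε := h.posε
  set F' : E n → E n → E n →L[ℝ] ℝ := fun g z =>
    (pker ε p ψ g z * F z * ε⁻¹) • (innerSL ℝ z : E n →L[ℝ] ℝ)
  have hm : AEStronglyMeasurable (F' g₀) (B.qmeas T) :=
    (((h.measurable_pker_mul hF g₀).mul_const ε⁻¹).aestronglyMeasurable).smul
      ((innerSL ℝ).continuous.aestronglyMeasurable)
  have hbound : ∀ g, ‖g‖ ≤ ‖g₀‖ + 1 → ∀ z, ‖F' g z‖ ≤ C * ε⁻¹ * r := fun g hg z => by
    rcases lt_or_ge r ‖z‖ with hz | hz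
    · simp only [F', pker, h.supp z hz, zero_mul, zero_smul, norm_zero]
      have := h.posr
      positivity
    · rw [norm_smul, innerSL_apply_norm, Real.norm_eq_abs, abs_mul, abs_of_pos (inv_pos.2 hε)]
      exact mul_le_mul (mul_le_mul_of_nonneg_right (hC g hg z) (inv_pos.2 hε).le) hz
        (norm_nonneg _) (mul_nonneg hC0 (inv_pos.2 hε).le)
  have hd : HasFDerivAt (mom B T ε p ψ F) (∫ z, F' g₀ z ∂B.qmeas T) g₀ :=
    hasFDerivAt_integral_of_dominated_of_fderiv_le (Metric.ball_mem_nhds g₀ one_pos)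
      (.of_forall fun g => (h.measurable_pker_mul hF g).aestronglyMeasurable)
      (h.integrable_mom hF g₀) hm
      (.of_forall fun z g hg => hbound g (by
        have h1 := norm_le_norm_add_norm_sub' g g₀
        rw [mem_ball_iff_norm] at hg
        linarith) z)
      (integrable_const (C * ε⁻¹ * r))
      (.of_forall fun z g _ => by
        have h1 : HasFDerivAt (fun g : E n => (⟪g, z⟫ - 0 - ψ z) / ε)
            (ε⁻¹ • (innerSL ℝ z : E n →L[ℝ] ℝ)) g := by
          have h2 := (((innerSL ℝ z).hasFDerivAt (x := g)).sub_const (ψ z)).mul_const ε⁻¹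
          refine h2.congr_of_eventuallyEq (.of_forall fun g => ?_)
          simp [innerSL_apply_apply, real_inner_comm g z, div_eq_mul_inv]
        have h3 := (h1.exp.const_mul (p z)).mul_const (F z)
        refine h3.congr_fderiv ?_
        simp only [F', pker, kker, smul_smul, Pi.zero_apply]
        congr 1
        ring)
  refine ⟨_, hd, fun v => ?_⟩
  have hi : Integrable (F' g₀) (B.qmeas T) := (integrable_const (C * ε⁻¹ * r)).mono' hm
    (.of_forall fun z => hbound g₀ (by linarith) z)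
  rw [ContinuousLinearMap.integral_apply hi, mom, ← integral_const_mul]
  refine integral_congr_ae (.of_forall fun z => ?_)
  simp only [F', FunLike.coe_smul, Pi.smul_apply, innerSL_apply_apply, smul_eq_mul]
  ring

theorem fderiv_mom (hF : Continuous F) (g v : E n) :
    fderiv ℝ (mom B T ε p ψ F) g v = ε⁻¹ * mom B T ε p ψ (fun z => F z * ⟪z, v⟫) g := by
  obtain ⟨D, hD, hv⟩ := h.hasFDerivAt_mom hF g
  rw [hD.fderiv, hv]

theorem contDiff_mom (hF : Continuous F) : ContDiff ℝ 1 (mom B T ε p ψ F) := by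
  refine contDiff_one_iff_fderiv.2 ⟨fun g => ?_, ?_⟩
  · obtain ⟨D, hD, -⟩ := h.hasFDerivAt_mom hF g
    exact hD.differentiableAt
  · refine continuous_clm_apply.2 fun v => ?_
    simp only [h.fderiv_mom hF]
    exact continuous_const.mul (h.continuous_mom (hF.mul (by fun_prop)))

theorem mom_one (g : E n) : mom B T ε p ψ (fun _ => 1) g = exp (f g / ε) := by
  have h1 := h.left g
  simp only [pk_eq, integral_const_mul] at h1
  rw [exp_neg, inv_mul_eq_one₀ (exp_pos _).ne'] at h1
  simp only [mom, mul_one]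
  exact h1.symm

theorem mom_one_pos (g : E n) : 0 < mom B T ε p ψ (fun _ => 1) g := by
  rw [h.mom_one]; exact exp_pos _

theorem integral_pk (g : E n) (F : E n → ℝ) :
    ∫ z, p z * kker ε f ψ g z * F z ∂B.qmeas T =
      mom B T ε p ψ F g / mom B T ε p ψ (fun _ => 1) g := by
  simp only [pk_eq, mul_assoc, integral_const_mul]
  rw [h.mom_one, exp_neg, inv_mul_eq_div, mom]

theorem integrable_pk (g : E n) (hF : Continuous F) :
    Integrable (fun z => p z * kker ε f ψ g z * F z) (B.qmeas T) := by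
  simp only [pk_eq, mul_assoc]
  exact (h.integrable_mom hF g).const_mul _

theorem Smap_apply (g : E n) (i : Fin n) :
    Smap B T ε p f ψ g i = mom B T ε p ψ (fun z => z i) g / mom B T ε p ψ (fun _ => 1) g :=
  h.integral_pk g fun z => z i

theorem Scov_apply (g : E n) (i j : Fin n) : Scov B T ε p f ψ g i j =
    ε⁻¹ * ((∫ z, p z * kker ε f ψ g z * (z i * z j) ∂B.qmeas T) -
      Smap B T ε p f ψ g i * Smap B T ε p f ψ g j) := rfl

theorem inner_Smap (g v : E n) :
    ∫ z, p z * kker ε f ψ g z * ⟪z, v⟫ ∂B.qmeas T = ⟪Smap B T ε p f ψ g, v⟫ := by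
  have e : ∀ z : E n, p z * kker ε f ψ g z * ⟪z, v⟫
      = ∑ i, v i * (p z * kker ε f ψ g z * z i) := fun z => by
    rw [PiLp.inner_apply, Finset.mul_sum]
    exact Finset.sum_congr rfl fun i _ => by simp; ring
  simp only [e]
  rw [integral_finsetSum _ fun i _ => (h.integrable_pk g (by fun_prop)).const_mul _,
    PiLp.inner_apply]
  refine Finset.sum_congr rfl fun i _ => ?_
  rw [integral_const_mul]
  simp [Smap]

theorem integral_pk_le (g : E n) (hF : Continuous F) {M : ℝ}
    (hM : ∀ z : E n, ‖z‖ ≤ r → F z ≤ M) :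
    ∫ z, p z * kker ε f ψ g z * F z ∂B.qmeas T ≤ M := by
  have h0 : ∀ z, 0 ≤ p z * kker ε f ψ g z := fun z => mul_nonneg (h.nonneg z) (exp_pos _).le
  calc ∫ z, p z * kker ε f ψ g z * F z ∂B.qmeas T
      ≤ ∫ z, p z * kker ε f ψ g z * M ∂B.qmeas T := by
        refine integral_mono (h.integrable_pk g hF) (h.integrable_pk g continuous_const) fun z => ?_
        rcases lt_or_ge r ‖z‖ with hz | hz
        · simp [h.supp z hz]
        · exact mul_le_mul_of_nonneg_left (hM z hz) (h0 z)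
    _ = M := by rw [integral_mul_const, h.left g, one_mul]

theorem norm_Smap_le (g : E n) : ‖Smap B T ε p f ψ g‖ ≤ r := by
  set S := Smap B T ε p f ψ g
  have h1 := h.integral_pk_le g (F := fun z => ⟪z, S⟫) (by fun_prop) (M := r * ‖S‖) fun z hz =>
    (real_inner_le_norm z S).trans (mul_le_mul_of_nonneg_right hz (norm_nonneg S))
  rw [h.inner_Smap, real_inner_self_eq_norm_sq] at h1
  rcases (norm_nonneg S).eq_or_lt with h0 | h0
  · rw [← h0]; exact h.posr.le
  · nlinarith

theorem abs_Scov_le (g : E n) (i j : Fin n) : |Scov B T ε p f ψ g i j| ≤ 2 * r ^ 2 / ε := by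
  have hb : ∀ z : E n, ‖z‖ ≤ r → |z i * z j| ≤ r ^ 2 := fun z hz => by
    rw [abs_mul, sq]
    exact mul_le_mul ((PiLp.norm_apply_le z i).trans hz) ((PiLp.norm_apply_le z j).trans hz)
      (abs_nonneg _) h.posr.le
  have h1 := h.integral_pk_le g (F := fun z => z i * z j) (by fun_prop) fun z hz =>
    (le_abs_self _).trans (hb z hz)
  have h2 := h.integral_pk_le g (F := fun z => -(z i * z j)) (by fun_prop) fun z hz =>
    (neg_le_abs _).trans (hb z hz)
  simp only [mul_neg, integral_neg] at h2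
  have h3 : |Smap B T ε p f ψ g i * Smap B T ε p f ψ g j| ≤ r ^ 2 := hb _ (h.norm_Smap_le g)
  have hε := h.posε
  rw [h.Scov_apply, abs_mul, abs_of_pos (inv_pos.2 hε), inv_mul_eq_div,
    div_le_div_iff_of_pos_right hε]
  refine (abs_sub _ _).trans ?_
  linarith [(abs_le (a := ∫ z, p z * kker ε f ψ g z * (z i * z j) ∂B.qmeas T) (b := r ^ 2)).2
    ⟨by linarith, h1⟩]

theorem posSemidef_Scov (g : E n) : (Scov B T ε p f ψ g).PosSemidef := by
  refine posSemidef_iff_dotProduct_mulVec.2 ⟨?_, fun x => ?_⟩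
  · refine Matrix.IsHermitian.ext fun i j => ?_
    simp only [star_trivial, h.Scov_apply]
    congr 2
    · exact integral_congr_ae (.of_forall fun z => by ring)
    · ring
  · set v : E n := WithLp.toLp 2 x
    set S := Smap B T ε p f ψ g
    have hvi : ∀ z : E n, ⟪z, v⟫ = ∑ i, x i * z i := fun z => by
      simp [v, PiLp.inner_apply]
    have hq : x ⬝ᵥ (Scov B T ε p f ψ g *ᵥ x) =
        ε⁻¹ * ((∫ z, p z * kker ε f ψ g z * ⟪z, v⟫ ^ 2 ∂B.qmeas T) - ⟪S, v⟫ ^ 2) := by
      have e : ∀ z : E n, p z * kker ε f ψ g z * ⟪z, v⟫ ^ 2 =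
          ∑ i, ∑ j, x i * x j * (p z * kker ε f ψ g z * (z i * z j)) := fun z => by
        rw [hvi, sq, Finset.sum_mul_sum, Finset.mul_sum]
        refine Finset.sum_congr rfl fun i _ => ?_
        rw [Finset.mul_sum]
        exact Finset.sum_congr rfl fun j _ => by ring
      have hI : ∀ i j, Integrable
          (fun z => x i * x j * (p z * kker ε f ψ g z * (z i * z j))) (B.qmeas T) := fun i j =>
        (h.integrable_pk g (by fun_prop)).const_mul _
      simp only [e]
      rw [integral_finsetSum _ fun i _ => integrable_finsetSum _ fun j _ => hI i j]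
      simp only [integral_finsetSum _ fun j _ => hI _ j, integral_const_mul]
      rw [hvi S, sq, Finset.sum_mul_sum, ← Finset.sum_sub_distrib, Finset.mul_sum]
      simp only [dotProduct, mulVec, h.Scov_apply, Finset.mul_sum, ← Finset.sum_sub_distrib]
      exact Finset.sum_congr rfl fun i _ => Finset.sum_congr rfl fun j _ => by ring
    rw [star_trivial, hq]
    refine mul_nonneg (inv_nonneg.2 h.posε.le) ?_
    set c := ⟪S, v⟫
    have h0 : 0 ≤ ∫ z, p z * kker ε f ψ g z * (⟪z, v⟫ - c) ^ 2 ∂B.qmeas T :=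
      integral_nonneg fun z => mul_nonneg (mul_nonneg (h.nonneg z) (exp_pos _).le) (sq_nonneg _)
    have e2 : ∀ z : E n, p z * kker ε f ψ g z * (⟪z, v⟫ - c) ^ 2 = p z * kker ε f ψ g z * ⟪z, v⟫ ^ 2
        - 2 * c * (p z * kker ε f ψ g z * ⟪z, v⟫) + c ^ 2 * (p z * kker ε f ψ g z * 1) :=
      fun z => by ring
    simp only [e2] at h0
    have i1 := h.integrable_pk g (F := fun z => ⟪z, v⟫ ^ 2) (by fun_prop)
    have i2 := (h.integrable_pk g (F := fun z => ⟪z, v⟫) (by fun_prop)).const_mul (2 * c)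
    have i3 := (h.integrable_pk g (F := fun _ => (1 : ℝ)) continuous_const).const_mul (c ^ 2)
    rw [integral_add (f := fun z => p z * kker ε f ψ g z * ⟪z, v⟫ ^ 2
        - 2 * c * (p z * kker ε f ψ g z * ⟪z, v⟫)) (i1.sub i2) i3, integral_sub i1 i2,
      integral_const_mul, integral_const_mul, h.inner_Smap] at h0
    simp only [mul_one] at h0
    rw [h.left g] at h0
    nlinarith

theorem hasFDerivAt_Smap_apply (g : E n) (i : Fin n) :
    ∃ D : E n →L[ℝ] ℝ, HasFDerivAt (fun g => Smap B T ε p f ψ g i) D g ∧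
      ∀ j, D (eb j) = Scov B T ε p f ψ g i j := by
  obtain ⟨D1, hD1, hv1⟩ := h.hasFDerivAt_mom (F := fun z : E n => z i) (by fun_prop) g
  obtain ⟨D0, hD0, hv0⟩ := h.hasFDerivAt_mom (F := fun _ : E n => (1 : ℝ)) continuous_const g
  have hne := (h.mom_one_pos g).ne'
  have hd := (hD1.mul ((hasDerivAt_inv hne).comp_hasFDerivAt g hD0)).congr_of_eventuallyEq
    (.of_forall fun x => (h.Smap_apply x i).trans (div_eq_mul_inv _ _) :
      (fun g => Smap B T ε p f ψ g i) =ᶠ[𝓝 g] _)
  refine ⟨_, hd, fun j => ?_⟩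
  simp only [_root_.add_apply, FunLike.coe_smul, Pi.smul_apply, smul_eq_mul, hv1, hv0, inner_eb, Function.comp_apply,
    one_mul, h.Scov_apply, h.integral_pk, h.Smap_apply]
  field_simp
  ring

theorem contDiff_Smap : ContDiff ℝ 1 (Smap B T ε p f ψ) := by
  rw [contDiff_euclidean]
  intro i
  simp only [h.Smap_apply]
  exact (h.contDiff_mom (by fun_prop)).div (h.contDiff_mom continuous_const)
    fun g => (h.mom_one_pos g).ne'

theorem jac_Smap (g : E n) : jac (Smap B T ε p f ψ) g = Scov B T ε p f ψ g := by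
  ext i j
  obtain ⟨D, hD, hv⟩ := h.hasFDerivAt_Smap_apply g i
  have h1 := ((EuclideanSpace.proj (𝕜 := ℝ) i).hasFDerivAt.comp g
    ((h.contDiff_Smap.differentiable one_ne_zero) g).hasFDerivAt).unique hD
  rw [← hv j, ← h1]
  rfl

theorem continuous_Scov : Continuous (Scov B T ε p f ψ) := by
  refine continuous_matrix fun i j => ?_
  simp only [h.Scov_apply, h.integral_pk, h.Smap_apply]
  exact continuous_const.mul ((((h.continuous_mom (by fun_prop)).div (h.continuous_mom
    continuous_const) fun g => (h.mom_one_pos g).ne')).sub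
    ((((h.continuous_mom (by fun_prop)).div (h.continuous_mom continuous_const)
      fun g => (h.mom_one_pos g).ne')).mul ((h.continuous_mom (by fun_prop)).div
      (h.continuous_mom continuous_const) fun g => (h.mom_one_pos g).ne')))

theorem hasFDerivAt_f (g : E n) :
    HasFDerivAt f (innerSL ℝ (Smap B T ε p f ψ g) : E n →L[ℝ] ℝ) g := by
  obtain ⟨D0, hD0, hv0⟩ := h.hasFDerivAt_mom (F := fun _ : E n => (1 : ℝ)) continuous_const g
  have hε := h.posε.ne'
  have hd := ((hD0.log (h.mom_one_pos g).ne').const_mul ε).congr_of_eventuallyEq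
    (.of_forall fun x => by rw [h.mom_one, log_exp]; field_simp :
      f =ᶠ[𝓝 g] _)
  refine hd.congr_fderiv ?_
  ext v
  simp only [FunLike.coe_smul, Pi.smul_apply, smul_eq_mul, hv0, one_mul, innerSL_apply_apply]
  rw [← h.inner_Smap, h.integral_pk]
  field_simp

theorem contDiff_f : ContDiff ℝ 2 f := by
  refine (contDiff_succ_iff_fderiv (n := 1)).2 ⟨fun g => (h.hasFDerivAt_f g).differentiableAt,
    by simp, ?_⟩
  rw [funext fun g => (h.hasFDerivAt_f g).fderiv]
  exact (innerSL ℝ (E := E n)).contDiff.comp h.contDiff_Smap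

theorem abs_f_le : ∃ C : ℝ, ∀ g, |f g| ≤ C + r * ‖g‖ := by
  refine ⟨|f 0|, fun g => ?_⟩
  have h1 := convex_univ.norm_image_sub_le_of_norm_fderiv_le (f := f) (C := r)
    (fun x _ => (h.hasFDerivAt_f x).differentiableAt) (fun x _ => by
      rw [(h.hasFDerivAt_f x).fderiv, innerSL_apply_norm]; exact h.norm_Smap_le x)
    (mem_univ (0 : E n)) (mem_univ g)
  rw [sub_zero, Real.norm_eq_abs] at h1
  linarith [abs_sub_abs_le_abs_sub (f g) (f 0)]

theorem abs_ψ_le : ∃ C : ℝ, ∀ z, |ψ z| ≤ C * (1 + ‖z‖ ^ 2) := by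
  obtain ⟨C, hC⟩ := h.abs_f_le
  obtain ⟨δ, I, hδ, hI⟩ := exp_norm_qmeas B h.posT
  have hε := h.posε
  have hr := h.posr
  set ν := B.qmeas T
  have hI0 : 0 < I := by
    have h1 := (hI 0).2
    simp at h1
    linarith
  set m := ∫ g : E n, ‖g‖ ∂ν
  have hm : 0 ≤ m := integral_nonneg fun g => norm_nonneg g
  have hmi : Integrable (fun g : E n => ‖g‖) ν := by
    refine (hI 1).1.mono' (by fun_prop) (.of_forall fun g => ?_)
    rw [norm_norm, one_mul]; linarith [add_one_le_exp ‖g‖]
  have hψ : ∀ z : E n, exp (ψ z / ε) = ∫ g, exp ((⟪g, z⟫ - f g) / ε) ∂ν := fun z => by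
    have h1 := h.right z
    have e : ∀ g : E n, kker ε f ψ g z = exp ((⟪g, z⟫ - f g) / ε) * exp (-(ψ z / ε)) := fun g => by
      rw [kker, ← exp_add]; congr 1; ring
    simp only [e, integral_mul_const, exp_neg] at h1
    exact ((mul_inv_eq_one₀ (exp_pos _).ne').1 h1).symm
  refine ⟨ε * (|C| / ε + |log I| + (r ^ 2 + 1) / (2 * ε ^ 2 * δ) + m * (r + 1) / ε), fun z => ?_⟩
  set s := ‖z‖
  have hs : 0 ≤ s := norm_nonneg z
  have hle : ∀ g : E n, exp ((⟪g, z⟫ - f g) / ε) ≤ exp (|C| / ε) * exp ((s + r) / ε * ‖g‖) :=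
    fun g => by
      rw [← exp_add, exp_le_exp, div_mul_eq_mul_div, ← add_div]
      refine div_le_div_of_nonneg_right ?_ hε.le
      have h1 := real_inner_le_norm g z
      have h2 := hC g
      linarith [neg_abs_le (f g), le_abs_self C]
  have hge : ∀ g : E n, -(|C| / ε + (s + r) / ε * ‖g‖) ≤ (⟪g, z⟫ - f g) / ε := fun g => by
    rw [div_mul_eq_mul_div, ← add_div, ← neg_div]
    refine div_le_div_of_nonneg_right ?_ hε.le
    have h1 := neg_le_of_abs_le (abs_real_inner_le_norm g z)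
    have h2 := hC g
    linarith [le_abs_self (f g), le_abs_self C]
  have hc : Continuous fun g : E n => (⟪g, z⟫ - f g) / ε := by have := h.contf; fun_prop
  have hint : Integrable (fun g => exp ((⟪g, z⟫ - f g) / ε)) ν :=
    ((hI ((s + r) / ε)).1.const_mul (exp (|C| / ε))).mono' hc.rexp.aestronglyMeasurable
      (.of_forall fun g => by rw [Real.norm_eq_abs, abs_exp]; exact hle g)
  have hup : ψ z / ε ≤ |C| / ε + ((s + r) / ε) ^ 2 / (4 * δ) + |log I| := by
    have h1 := integral_mono hint ((hI ((s + r) / ε)).1.const_mul _) hle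
    rw [← hψ, integral_const_mul] at h1
    have h2 := h1.trans (mul_le_mul_of_nonneg_left (hI ((s + r) / ε)).2 (exp_pos _).le)
    rw [← le_log_iff_exp_le (by positivity), log_mul (exp_pos _).ne' (by positivity),
      log_mul (exp_pos _).ne' hI0.ne', log_exp, log_exp] at h2
    linarith [le_abs_self (log I)]
  have hlow : -(|C| / ε + (s + r) / ε * m) ≤ ψ z / ε := by
    set a := -(|C| / ε + (s + r) / ε * m)
    have i1 : Integrable (fun g : E n => exp a * ((s + r) / ε * m - (s + r) / ε * ‖g‖)) ν :=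
      ((integrable_const ((s + r) / ε * m)).sub (hmi.const_mul ((s + r) / ε))).const_mul _
    have h1 : ∫ g, (exp a + exp a * ((s + r) / ε * m - (s + r) / ε * ‖g‖)) ∂ν
        ≤ ∫ g, exp ((⟪g, z⟫ - f g) / ε) ∂ν :=
      integral_mono ((integrable_const (exp a)).add i1) hint fun g => by
        have h2 := mul_le_mul_of_nonneg_left
          (add_one_le_exp ((⟪g, z⟫ - f g) / ε - a)) (exp_pos a).le
        rw [← exp_add, add_sub_cancel] at h2
        refine le_trans ?_ h2
        have h3 := mul_le_mul_of_nonneg_left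
          (show (s + r) / ε * m - (s + r) / ε * ‖g‖ ≤ (⟪g, z⟫ - f g) / ε - a by
            simp only [a]; linarith [hge g]) (exp_pos a).le
        linarith
    rw [integral_add (integrable_const (exp a)) i1, integral_const_mul,
      integral_sub (integrable_const ((s + r) / ε * m)) (hmi.const_mul ((s + r) / ε)),
      integral_const, integral_const, ← hψ] at h1
    simp only [probReal_univ, smul_eq_mul, one_mul, integral_const_mul] at h1
    rw [show ∫ g : E n, ‖g‖ ∂ν = m from rfl, sub_self, mul_zero, add_zero, exp_le_exp] at h1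
    exact h1
  exact psi_arith hε hδ hr.le hs hm hup hlow

theorem cost_eq : cost B T ε p f ψ = (∫ g, ‖disp B T ε p f ψ g‖ ^ 2 ∂B.qmeas T) +
    ε * ∫ g, (Scov B T ε p f ψ g).trace ∂B.qmeas T := by
  have hpt : ∀ g, ∫ z, p z * kker ε f ψ g z * ‖z - g‖ ^ 2 ∂B.qmeas T =
      ‖disp B T ε p f ψ g‖ ^ 2 + ε * (Scov B T ε p f ψ g).trace := fun g => by
    set S := Smap B T ε p f ψ g
    have htr : ε * (Scov B T ε p f ψ g).trace =
        (∫ z, p z * kker ε f ψ g z * ‖z‖ ^ 2 ∂B.qmeas T) - ‖S‖ ^ 2 := by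
      have e : ∀ z : E n, p z * kker ε f ψ g z * ‖z‖ ^ 2 =
          ∑ i, p z * kker ε f ψ g z * (z i * z i) := fun z => by
        rw [EuclideanSpace.norm_sq_eq, Finset.mul_sum]
        exact Finset.sum_congr rfl fun i _ => by rw [Real.norm_eq_abs, sq_abs, sq]
      simp only [e]
      rw [integral_finsetSum _ fun i _ => h.integrable_pk g (by fun_prop), EuclideanSpace.norm_sq_eq,
        ← Finset.sum_sub_distrib, Matrix.trace, Finset.mul_sum]
      refine Finset.sum_congr rfl fun i _ => ?_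
      rw [diag_apply, h.Scov_apply, ← mul_assoc, mul_inv_cancel₀ h.posε.ne', one_mul,
        Real.norm_eq_abs, sq_abs, sq]
    have e2 : ∀ z : E n, p z * kker ε f ψ g z * ‖z - g‖ ^ 2 = p z * kker ε f ψ g z * ‖z‖ ^ 2
        - 2 * (p z * kker ε f ψ g z * ⟪z, g⟫) + ‖g‖ ^ 2 * (p z * kker ε f ψ g z * 1) := fun z => by
      rw [norm_sub_sq_real]; ring
    simp only [e2]
    have i1 := h.integrable_pk g (F := fun z => ‖z‖ ^ 2) (by fun_prop)
    have i2 := (h.integrable_pk g (F := fun z => ⟪z, g⟫) (by fun_prop)).const_mul 2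
    have i3 := (h.integrable_pk g (F := fun _ => (1 : ℝ)) continuous_const).const_mul (‖g‖ ^ 2)
    rw [integral_add (f := fun z => p z * kker ε f ψ g z * ‖z‖ ^ 2
        - 2 * (p z * kker ε f ψ g z * ⟪z, g⟫)) (i1.sub i2) i3, integral_sub i1 i2,
      integral_const_mul, integral_const_mul, h.inner_Smap, htr, disp, norm_sub_sq_real]
    simp only [mul_one]
    rw [h.left g]
    ring
  have hS := h.contDiff_Smap.continuous
  have hd : Integrable (fun g => ‖disp B T ε p f ψ g‖ ^ 2) (B.qmeas T) := by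
    refine (((integrable_norm_sq_qmeas B h.posT).const_mul 2).add
      (integrable_const (2 * r ^ 2))).mono' ?_ (.of_forall fun g => ?_)
    · unfold disp; fun_prop
    · rw [Real.norm_eq_abs, abs_of_nonneg (sq_nonneg _), disp, Pi.add_apply]
      have h1 := norm_sub_le (Smap B T ε p f ψ g) g
      have h2 := h.norm_Smap_le g
      nlinarith [norm_nonneg (Smap B T ε p f ψ g - g), sq_nonneg (r - ‖g‖), norm_nonneg g]
  have ht : Integrable (fun g => (Scov B T ε p f ψ g).trace) (B.qmeas T) := by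
    refine integrable_finsetSum _ fun i _ => ?_
    exact (integrable_const (2 * r ^ 2 / ε)).mono'
      ((h.continuous_Scov.matrix_elem i i).aestronglyMeasurable)
      (.of_forall fun g => h.abs_Scov_le g i i)
  rw [cost, integral_congr_ae (.of_forall hpt), integral_add hd (ht.const_mul ε), integral_const_mul]

end IsPlan

theorem plan_calc : PlanCalcProp := by
  intro n _ B _ T ε r _ p f ψ h
  exact ⟨h.contDiff_f, h.contDiff_Smap, h.continuous_Scov,
    fun g v => by rw [(h.hasFDerivAt_f g).fderiv, innerSL_apply_apply], h.jac_Smap, h.norm_Smap_le,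
    h.abs_Scov_le, h.posSemidef_Scov, h.abs_f_le, h.abs_ψ_le, h.cost_eq⟩

end Vale.Agent.P245.Polylog
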