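import Mathlib.Topology.ContinuousMap.Bounded.ArzelaAscoli
import Vale.Agent.P245.Polylog.Statements

/-!
# P245: existence of entropic plans

The Sinkhorn operator `ψ ↦ tpot (fpot ψ)` is nonexpansive in the sup norm on the ball and its
values are uniformly Lipschitz there; damping, Banach and Arzelà–Ascoli give a fixed point up to a
constant, and the constant vanishes by Fubini.
-/

open MeasureTheory Real Set Filter
open scoped RealInnerProductSpace ENNReal Topology BoundedContinuousFunction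

noncomputable section

namespace Vale.Agent.P245.Polylog

open Vale.Agent.P245.Local Vale.Agent.P245.Local.Base

namespace PlanAux

variable {n : ℕ} {q : Measure (E n)} {ε r : ℝ} {p : E n → ℝ}

/-- data of the dual problem -/
structure Hyp (q : Measure (E n)) (ε r : ℝ) (p : E n → ℝ) : Prop where
  prob : IsProbabilityMeasure q
  expo : ∀ k : ℝ, Integrable (fun g => exp (k * ‖g‖)) q
  posε : 0 < ε
  posr : 0 < r
  meas : Measurable p
  nonneg : ∀ z, 0 ≤ p z
  bdd : ∃ K : ℝ, ∀ z, p z ≤ K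
  supp : ∀ z, r < ‖z‖ → p z = 0
  mass : ∫ z, p z ∂q = 1

/-- first potential from the second -/
def fpot (q : Measure (E n)) (ε : ℝ) (p ψ : E n → ℝ) (g : E n) : ℝ :=
  ε * log (∫ z, p z * exp ((⟪g, z⟫ - ψ z) / ε) ∂q)

/-- second potential from the first -/
def tpot (q : Measure (E n)) (ε : ℝ) (f : E n → ℝ) (z : E n) : ℝ :=
  ε * log (∫ g, exp ((⟪g, z⟫ - f g) / ε) ∂q)

/-- one-sided Lipschitz bound -/
def Lip (r : ℝ) (f : E n → ℝ) : Prop := ∀ g g', f g ≤ f g' + r * ‖g - g'‖

theorem log_step (hε : 0 < ε) {X Y d : ℝ} (hX : 0 < X) (hY : 0 < Y) (h : X ≤ exp (d / ε) * Y) :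
    ε * log X ≤ ε * log Y + d := by
  have h1 := log_le_log hX h
  rw [log_mul (exp_pos _).ne' hY.ne', log_exp] at h1
  have h2 := mul_le_mul_of_nonneg_left h1 hε.le
  rw [mul_add, mul_div_cancel₀ _ hε.ne'] at h2
  linarith

theorem abs_exp_sub_le (a b : ℝ) : |exp a - exp b| ≤ |a - b| * (exp a + exp b) := by
  have key : ∀ x y : ℝ, exp x - exp y ≤ |x - y| * (exp x + exp y) := fun x y => by
    have h1 := add_one_le_exp (y - x)
    have h2 : exp x * exp (y - x) = exp y := by rw [← exp_add]; congr 1; ring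
    nlinarith [le_abs_self (x - y), exp_pos x, exp_pos y, abs_nonneg (x - y)]
  rw [abs_le]
  exact ⟨by linarith [(key b a).trans_eq (by rw [abs_sub_comm, add_comm (exp b)])], key a b⟩

namespace Hyp

variable (h : Hyp q ε r p)
include h

theorem int_p {F : E n → ℝ} (hF : Continuous F) : Integrable (fun z => p z * F z) q := by
  have := h.prob
  obtain ⟨K, hK⟩ := h.bdd
  obtain ⟨C, hC⟩ := (isCompact_closedBall (0 : E n) r).exists_bound_of_continuousOn hF.continuousOn
  refine (integrable_const (|K| * |C|)).mono'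
    (h.meas.mul hF.measurable).aestronglyMeasurable (.of_forall fun z => ?_)
  rw [norm_mul]
  by_cases hz : r < ‖z‖
  · rw [h.supp z hz, norm_zero, zero_mul]; positivity
  · refine mul_le_mul ?_ ?_ (norm_nonneg _) (abs_nonneg _)
    · rw [norm_eq_abs, abs_of_nonneg (h.nonneg z)]; exact (hK z).trans (le_abs_self K)
    · exact (hC z (by simpa using hz)).trans (le_abs_self C)

theorem mono_p {F G : E n → ℝ} (hF : Continuous F) (hG : Continuous G)
    (hle : ∀ z, ‖z‖ ≤ r → F z ≤ G z) : ∫ z, p z * F z ∂q ≤ ∫ z, p z * G z ∂q := by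
  refine integral_mono (h.int_p hF) (h.int_p hG) fun z => ?_
  by_cases hz : r < ‖z‖
  · simp [h.supp z hz]
  · exact mul_le_mul_of_nonneg_left (hle z (not_lt.1 hz)) (h.nonneg z)

theorem exp_p_pos {F : E n → ℝ} (hF : Continuous F) : 0 < ∫ z, p z * exp (F z) ∂q := by
  obtain ⟨C, hC⟩ := (isCompact_closedBall (0 : E n) r).exists_bound_of_continuousOn hF.continuousOn
  refine lt_of_lt_of_le (exp_pos (-C)) ?_
  have := h.mono_p (F := fun _ => exp (-C)) (G := fun z => exp (F z)) (by fun_prop) hF.rexp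
    fun z hz => exp_le_exp.2 (neg_le_of_abs_le (hC z (by simpa using hz)))
  rwa [integral_mul_const, h.mass, one_mul] at this

theorem fpot_lip {ψ : E n → ℝ} (hψ : Continuous ψ) : Lip r (fpot q ε p ψ) := by
  intro g g'
  refine log_step h.posε (h.exp_p_pos (by fun_prop)) (h.exp_p_pos (by fun_prop)) ?_
  rw [← integral_const_mul, show (fun z => exp (r * ‖g - g'‖ / ε) *
      (p z * exp ((⟪g', z⟫ - ψ z) / ε))) = fun z => p z *
      (exp (r * ‖g - g'‖ / ε) * exp ((⟪g', z⟫ - ψ z) / ε)) from funext fun z => by ring]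
  refine h.mono_p (by fun_prop) (by fun_prop) fun z hz => ?_
  rw [← exp_add, ← add_div]
  refine exp_le_exp.2 (div_le_div_of_nonneg_right ?_ h.posε.le)
  have h1 : ⟪g - g', z⟫ ≤ r * ‖g - g'‖ := (real_inner_le_norm _ _).trans (by
    rw [mul_comm r]; exact mul_le_mul_of_nonneg_left hz (norm_nonneg _))
  rw [inner_sub_left] at h1
  linarith

theorem fpot_mono {ψ₁ ψ₂ : E n → ℝ} (h₁ : Continuous ψ₁) (h₂ : Continuous ψ₂) {d : ℝ}
    (hle : ∀ z, ‖z‖ ≤ r → ψ₁ z ≤ ψ₂ z + d) (g : E n) :
    fpot q ε p ψ₂ g ≤ fpot q ε p ψ₁ g + d := by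
  refine log_step h.posε (h.exp_p_pos (by fun_prop)) (h.exp_p_pos (by fun_prop)) ?_
  rw [← integral_const_mul, show (fun z => exp (d / ε) *
      (p z * exp ((⟪g, z⟫ - ψ₁ z) / ε))) = fun z => p z *
      (exp (d / ε) * exp ((⟪g, z⟫ - ψ₁ z) / ε)) from funext fun z => by ring]
  refine h.mono_p (by fun_prop) (by fun_prop) fun z hz => ?_
  rw [← exp_add, ← add_div]
  exact exp_le_exp.2 (div_le_div_of_nonneg_right (by linarith [hle z hz]) h.posε.le)

theorem lip_continuous {f : E n → ℝ} (hf : Lip r f) : Continuous f :=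
  (LipschitzWith.of_le_add_mul r.toNNReal fun g g' => by
    rw [dist_eq_norm, Real.coe_toNNReal _ h.posr.le]; exact hf g g').continuous

theorem expo_two_sided {f : E n → ℝ} (hf : Lip r f) {R : ℝ} {z : E n} (hz : ‖z‖ ≤ R) (g : E n) :
    exp (-(f 0 / ε)) * exp (-((R + r) / ε) * ‖g‖) ≤ exp ((⟪g, z⟫ - f g) / ε) ∧
      exp ((⟪g, z⟫ - f g) / ε) ≤ exp (-(f 0 / ε)) * exp ((R + r) / ε * ‖g‖) := by
  have h1 := hf g 0
  have h2 := hf 0 g
  rw [sub_zero] at h1
  rw [zero_sub, norm_neg] at h2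
  have h3 := abs_le.1 (abs_real_inner_le_norm g z)
  have h4 : ‖g‖ * ‖z‖ ≤ R * ‖g‖ := by
    rw [mul_comm R]; exact mul_le_mul_of_nonneg_left hz (norm_nonneg _)
  rw [← exp_add, ← exp_add,
    show -(f 0 / ε) + -((R + r) / ε) * ‖g‖ = (-f 0 - (R + r) * ‖g‖) / ε by ring,
    show -(f 0 / ε) + (R + r) / ε * ‖g‖ = (-f 0 + (R + r) * ‖g‖) / ε by ring]
  exact ⟨exp_le_exp.2 (div_le_div_of_nonneg_right (by linarith [h3.1]) h.posε.le),
    exp_le_exp.2 (div_le_div_of_nonneg_right (by linarith [h3.2]) h.posε.le)⟩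

theorem int_g {f : E n → ℝ} (hf : Lip r f) (z : E n) :
    Integrable (fun g => exp ((⟪g, z⟫ - f g) / ε)) q := by
  have hc := h.lip_continuous hf
  refine ((h.expo ((‖z‖ + r) / ε)).const_mul (exp (-(f 0 / ε)))).mono'
    (by fun_prop : Continuous fun g => exp ((⟪g, z⟫ - f g) / ε)).aestronglyMeasurable
    (.of_forall fun g => ?_)
  rw [norm_eq_abs, abs_of_pos (exp_pos _)]
  exact (h.expo_two_sided hf le_rfl g).2

theorem exp_g_pos {f : E n → ℝ} (hf : Lip r f) (z : E n) :
    0 < ∫ g, exp ((⟪g, z⟫ - f g) / ε) ∂q := by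
  have := h.prob
  exact integral_exp_pos (h.int_g hf z)

theorem tpot_mono {f₁ f₂ : E n → ℝ} (h₁ : Lip r f₁) (h₂ : Lip r f₂) {d : ℝ}
    (hle : ∀ g, f₁ g ≤ f₂ g + d) (z : E n) : tpot q ε f₂ z ≤ tpot q ε f₁ z + d := by
  refine log_step h.posε (h.exp_g_pos h₂ z) (h.exp_g_pos h₁ z) ?_
  rw [← integral_const_mul]
  refine integral_mono (h.int_g h₂ z) ((h.int_g h₁ z).const_mul _) fun g => ?_
  rw [← exp_add, ← add_div]
  exact exp_le_exp.2 (div_le_div_of_nonneg_right (by linarith [hle g]) h.posε.le)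

theorem tpot_lip {R : ℝ} : ∃ L : ℝ, 0 ≤ L ∧ ∀ f : E n → ℝ, Lip r f → ∀ z z' : E n,
    ‖z‖ ≤ R → ‖z'‖ ≤ R → |tpot q ε f z - tpot q ε f z'| ≤ L * ‖z - z'‖ := by
  have := h.prob
  have hm : 0 < ∫ g, exp (-((R + r) / ε) * ‖g‖) ∂q := integral_exp_pos (h.expo _)
  set m := ∫ g, exp (-((R + r) / ε) * ‖g‖) ∂q with hmdef
  set M := ∫ g, exp (((R + r) / ε + 1) * ‖g‖) ∂q with hMdef
  have hM : 0 ≤ M := integral_nonneg fun g => (exp_pos _).le
  refine ⟨2 * M / m, by positivity, fun f hf => ?_⟩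
  have key : ∀ z z' : E n, ‖z‖ ≤ R → ‖z'‖ ≤ R →
      tpot q ε f z - tpot q ε f z' ≤ 2 * M / m * ‖z - z'‖ := by
    intro z z' hz hz'
    set X := ∫ g, exp ((⟪g, z⟫ - f g) / ε) ∂q with hX
    set Y := ∫ g, exp ((⟪g, z'⟫ - f g) / ε) ∂q with hY
    have hXp : 0 < X := h.exp_g_pos hf z
    have hYp : 0 < Y := h.exp_g_pos hf z'
    have hYm : exp (-(f 0 / ε)) * m ≤ Y := by
      rw [hmdef, hY, ← integral_const_mul]
      exact integral_mono ((h.expo _).const_mul _) (h.int_g hf z')
        fun g => (h.expo_two_sided hf hz' g).1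
    have hd : X - Y ≤ exp (-(f 0 / ε)) * (2 * M) * (‖z - z'‖ / ε) := by
      rw [hX, hY, ← integral_sub (h.int_g hf z) (h.int_g hf z'),
        show exp (-(f 0 / ε)) * (2 * M) * (‖z - z'‖ / ε) =
          (exp (-(f 0 / ε)) * 2 * (‖z - z'‖ / ε)) * M by ring, hMdef, ← integral_const_mul]
      refine integral_mono ((h.int_g hf z).sub (h.int_g hf z')) ((h.expo _).const_mul _) fun g => ?_
      refine (le_abs_self _).trans ((abs_exp_sub_le _ _).trans ?_)
      have e1 : |(⟪g, z⟫ - f g) / ε - (⟪g, z'⟫ - f g) / ε| ≤ ‖g‖ * (‖z - z'‖ / ε) := by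
        rw [← sub_div, sub_sub_sub_cancel_right, ← inner_sub_right, abs_div, abs_of_pos h.posε,
          ← mul_div_assoc]
        exact div_le_div_of_nonneg_right (abs_real_inner_le_norm _ _) h.posε.le
      have e2 := (h.expo_two_sided hf hz g).2
      have e3 := (h.expo_two_sided hf hz' g).2
      have e4 : ‖g‖ * exp ((R + r) / ε * ‖g‖) ≤ exp (((R + r) / ε + 1) * ‖g‖) := by
        rw [show ((R + r) / ε + 1) * ‖g‖ = ‖g‖ + (R + r) / ε * ‖g‖ by ring, exp_add]
        exact mul_le_mul_of_nonneg_right (by linarith [add_one_le_exp ‖g‖]) (exp_pos _).le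
      have hw : 0 ≤ ‖z - z'‖ / ε := div_nonneg (norm_nonneg _) h.posε.le
      calc _ ≤ ‖g‖ * (‖z - z'‖ / ε) * (2 * (exp (-(f 0 / ε)) * exp ((R + r) / ε * ‖g‖))) :=
            mul_le_mul e1 (by linarith) (add_pos (exp_pos _) (exp_pos _)).le
              (mul_nonneg (norm_nonneg _) hw)
        _ = exp (-(f 0 / ε)) * 2 * (‖z - z'‖ / ε) * (‖g‖ * exp ((R + r) / ε * ‖g‖)) := by ring
        _ ≤ _ := mul_le_mul_of_nonneg_left e4 (by positivity)
    have hl : log X - log Y ≤ (X - Y) / Y := by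
      rw [← log_div hXp.ne' hYp.ne', sub_div, div_self hYp.ne']
      exact log_le_sub_one_of_pos (div_pos hXp hYp)
    calc tpot q ε f z - tpot q ε f z' = ε * (log X - log Y) := by simp only [tpot, hX, hY]; ring
      _ ≤ ε * ((X - Y) / Y) := mul_le_mul_of_nonneg_left hl h.posε.le
      _ ≤ ε * (exp (-(f 0 / ε)) * (2 * M) * (‖z - z'‖ / ε) / (exp (-(f 0 / ε)) * m)) := by
          refine mul_le_mul_of_nonneg_left ?_ h.posε.le
          exact div_le_div₀ (by have := h.posε; positivity) hd (by positivity) hYm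
      _ = _ := by
          field_simp [h.posε.ne', hm.ne']
  intro z z' hz hz'
  refine abs_le.2 ⟨?_, key z z' hz hz'⟩
  have := key z' z hz' hz
  rw [norm_sub_rev] at this
  linarith

theorem tpot_continuous {f : E n → ℝ} (hf : Lip r f) : Continuous (tpot q ε f) := by
  refine continuous_iff_continuousAt.2 fun z => ?_
  obtain ⟨L, hL, hLip⟩ := h.tpot_lip (R := ‖z‖ + 1)
  have hmem : ∀ x ∈ Metric.closedBall z 1, ‖x‖ ≤ ‖z‖ + 1 := fun x hx => by
    have := norm_le_norm_add_norm_sub' x z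
    rw [Metric.mem_closedBall, dist_eq_norm] at hx
    linarith
  refine (LipschitzOnWith.continuousOn (K := L.toNNReal) (s := Metric.closedBall z 1)
    (LipschitzOnWith.of_dist_le_mul fun a ha b hb => ?_)).continuousAt
      (Metric.closedBall_mem_nhds z one_pos)
  rw [Real.dist_eq, dist_eq_norm, Real.coe_toNNReal _ hL]
  exact hLip f hf a b (hmem a ha) (hmem b hb)

theorem retr_mem (z : E n) : (r / max r ‖z‖) • z ∈ Metric.closedBall (0 : E n) r := by
  have hmax : 0 < max r ‖z‖ := lt_max_of_lt_left h.posr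
  rw [mem_closedBall_zero_iff, norm_smul, norm_eq_abs, abs_of_nonneg (div_nonneg h.posr.le hmax.le),
    div_mul_eq_mul_div, div_le_iff₀ hmax]
  exact mul_le_mul_of_nonneg_left (le_max_right _ _) h.posr.le

/-- The fixed point of the Sinkhorn operator on the ball. -/
theorem exists_fixed : ∃ ψ : E n → ℝ, Continuous ψ ∧
    ∀ z, ‖z‖ ≤ r → tpot q ε (fpot q ε p ψ) z = ψ z := by
  have := h.prob
  have : Nonempty (Metric.closedBall (0 : E n) r) :=
    ⟨⟨0, Metric.mem_closedBall_self h.posr.le⟩⟩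
  set o : Metric.closedBall (0 : E n) r := ⟨0, Metric.mem_closedBall_self h.posr.le⟩ with ho
  have hrc : Continuous fun z : E n =>
      (⟨(r / max r ‖z‖) • z, h.retr_mem z⟩ : Metric.closedBall (0 : E n) r) :=
    ((continuous_const.div (continuous_const.max continuous_norm)
      fun z => (lt_max_of_lt_left h.posr).ne').smul continuous_id).subtype_mk _
  set ext : (Metric.closedBall (0 : E n) r →ᵇ ℝ) → E n → ℝ := fun φ z =>
    φ ⟨(r / max r ‖z‖) • z, h.retr_mem z⟩ with hext
  have hec : ∀ φ, Continuous (ext φ) := fun φ => φ.continuous.comp hrc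
  have hev : ∀ φ (z : E n) (hz : z ∈ Metric.closedBall (0 : E n) r), ext φ z = φ ⟨z, hz⟩ :=
    fun φ z hz => by
      simp only [hext]
      congr 1
      ext1
      rw [mem_closedBall_zero_iff] at hz
      simp [max_eq_left hz, h.posr.ne']
  set S : (Metric.closedBall (0 : E n) r →ᵇ ℝ) → (Metric.closedBall (0 : E n) r →ᵇ ℝ) := fun φ =>
    BoundedContinuousFunction.mkOfCompact
      ⟨fun z => tpot q ε (fpot q ε p (ext φ)) z,
        (h.tpot_continuous (h.fpot_lip (hec φ))).comp continuous_subtype_val⟩ with hS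
  have hSv : ∀ φ (z : Metric.closedBall (0 : E n) r),
      S φ z = tpot q ε (fpot q ε p (ext φ)) z := fun _ _ => rfl
  have hmono : ∀ φ χ : Metric.closedBall (0 : E n) r →ᵇ ℝ, ∀ d : ℝ, (∀ z, φ z ≤ χ z + d) →
      ∀ z, S φ z ≤ S χ z + d := by
    intro φ χ d hd z
    rw [hSv, hSv]
    exact h.tpot_mono (h.fpot_lip (hec χ)) (h.fpot_lip (hec φ))
      (fun g => h.fpot_mono (hec φ) (hec χ) (fun y _ => hd _) g) z
  have hS1 : ∀ φ χ, dist (S φ) (S χ) ≤ dist φ χ := fun φ χ => by
    refine (BoundedContinuousFunction.dist_le dist_nonneg).2 fun z => ?_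
    have hb : ∀ y, |φ y - χ y| ≤ dist φ χ := fun y =>
      (Real.dist_eq _ _).symm.trans_le (BoundedContinuousFunction.dist_coe_le_dist y)
    have a := hmono φ χ (dist φ χ) (fun y => by linarith [(abs_le.1 (hb y)).2]) z
    have b := hmono χ φ (dist φ χ) (fun y => by linarith [(abs_le.1 (hb y)).1]) z
    rw [Real.dist_eq, abs_le]
    constructor <;> linarith
  obtain ⟨L, hL, hLip⟩ := h.tpot_lip (R := r)
  set t : ℕ → ℝ := fun k => k / (k + 1) with ht
  have ht0 : ∀ k, 0 ≤ t k ∧ t k < 1 := fun k => by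
    simp only [ht]
    exact ⟨by positivity, by rw [div_lt_one (by positivity)]; linarith⟩
  have hfix : ∀ k, ∃ φ, t k • S φ = φ := fun k => by
    have hc : ContractingWith (t k).toNNReal fun φ => t k • S φ :=
      ⟨by rw [Real.toNNReal_lt_one]; exact (ht0 k).2,
        LipschitzWith.of_dist_le_mul fun φ χ => by
          rw [Real.coe_toNNReal _ (ht0 k).1]
          refine (BoundedContinuousFunction.dist_le (mul_nonneg (ht0 k).1 dist_nonneg)).2 fun z => ?_
          simp only [BoundedContinuousFunction.coe_smul, Real.dist_eq, smul_eq_mul, ← mul_sub,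
            abs_mul, abs_of_nonneg (ht0 k).1]
          refine mul_le_mul_of_nonneg_left ?_ (ht0 k).1
          rw [← Real.dist_eq]
          exact (BoundedContinuousFunction.dist_coe_le_dist z).trans (hS1 φ χ)⟩
    exact ⟨_, hc.fixedPoint_isFixedPt⟩
  choose ψs hψs using hfix
  set φs : ℕ → (Metric.closedBall (0 : E n) r →ᵇ ℝ) := fun k =>
    ψs k - BoundedContinuousFunction.const _ (ψs k o) with hφs
  have hshift : ∀ k z, φs k z = t k * (S (φs k) z - S (φs k) o) := by
    intro k z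
    have hd : ∀ y, S (ψs k) y = S (φs k) y + ψs k o := fun y => by
      have a := hmono (ψs k) (φs k) (ψs k o) (fun w => by simp [hφs]) y
      have b := hmono (φs k) (ψs k) (-(ψs k o)) (fun w => by simp [hφs, sub_eq_add_neg]) y
      linarith
    have e : ∀ y, ψs k y = t k * S (ψs k) y := fun y => by
      conv_lhs => rw [← hψs k]
      simp
    calc φs k z = ψs k z - ψs k o := by simp [hφs]
      _ = t k * S (ψs k) z - t k * S (ψs k) o := by rw [← e z, ← e o]
      _ = _ := by rw [hd z, hd o]; ring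
  have hlip : ∀ k y z, |φs k y - φs k z| ≤ L * dist y z := fun k y z => by
    rw [hshift, hshift, ← mul_sub, sub_sub_sub_cancel_right, abs_mul, abs_of_nonneg (ht0 k).1]
    refine (mul_le_of_le_one_left (abs_nonneg _) (ht0 k).2.le).trans ?_
    rw [hSv, hSv, Subtype.dist_eq, dist_eq_norm]
    exact hLip _ (h.fpot_lip (hec _)) _ _ (mem_closedBall_zero_iff.1 y.2)
      (mem_closedBall_zero_iff.1 z.2)
  have hbd : ∀ k z, φs k z ∈ Icc (-(L * r)) (L * r) := fun k z => by
    have h1 := hlip k z o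
    have h2 : φs k o = 0 := by simp [hφs]
    rw [h2, sub_zero] at h1
    have h3 : dist z o ≤ r := by
      rw [Subtype.dist_eq, dist_zero_right]; exact mem_closedBall_zero_iff.1 z.2
    exact abs_le.1 (h1.trans (mul_le_mul_of_nonneg_left h3 hL))
  have hcpt := BoundedContinuousFunction.arzela_ascoli (Icc (-(L * r)) (L * r)) isCompact_Icc
    (range φs) (by rintro _ z ⟨k, rfl⟩; exact hbd k z)
    (Metric.equicontinuous_of_continuity_modulus (fun d => L * d)
      (by simpa using (continuous_const_mul L).tendsto 0) _ (by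
        rintro y z ⟨_, k, rfl⟩
        simpa [Real.dist_eq] using hlip k y z))
  obtain ⟨φ, -, ν, hν, hlim⟩ := hcpt.tendsto_subseq
    (x := φs) fun k => subset_closure (mem_range_self k)
  have htl : Tendsto (fun k => t (ν k)) atTop (𝓝 1) :=
    (tendsto_natCast_div_add_atTop (1 : ℝ)).comp hν.tendsto_atTop
  have hSc : Continuous S := (LipschitzWith.of_dist_le_mul (K := 1) fun a b => by
    simpa using hS1 a b).continuous
  have hlimz : ∀ z, φ z = S φ z - S φ o := fun z => by
    have e1 : Tendsto (fun k => φs (ν k) z) atTop (𝓝 (φ z)) :=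
      ((continuous_eval_const z).tendsto φ).comp hlim
    have e2 : Tendsto (fun k => t (ν k) * (S (φs (ν k)) z - S (φs (ν k)) o)) atTop
        (𝓝 (1 * (S φ z - S φ o))) := by
      have hev' : ∀ w, Tendsto (fun k => S (φs (ν k)) w) atTop (𝓝 (S φ w)) := fun w =>
        (((continuous_eval_const w).comp hSc).tendsto φ).comp hlim
      exact htl.mul ((hev' z).sub (hev' o))
    simp only [← hshift] at e2
    rw [one_mul] at e2
    exact tendsto_nhds_unique e1 e2
  refine ⟨ext φ, hec φ, fun z hz => ?_⟩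
  set f := fpot q ε p (ext φ) with hf
  set c := S φ o with hc
  have hval : ∀ y, ‖y‖ ≤ r → tpot q ε f y = ext φ y + c := fun y hy => by
    rw [hev φ y (mem_closedBall_zero_iff.2 hy), hlimz, hSv]; ring
  have hfl : Lip r f := h.fpot_lip (hec φ)
  have hfc := h.lip_continuous hfl
  set Φ : E n × E n → ℝ := fun a => p a.2 * exp ((⟪a.1, a.2⟫ - f a.1 - ext φ a.2) / ε) with hΦ
  have hΦi : Integrable Φ (q.prod q) := by
    obtain ⟨K, hK⟩ := h.bdd
    obtain ⟨C, hC⟩ :=
      (isCompact_closedBall (0 : E n) r).exists_bound_of_continuousOn (hec φ).continuousOn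
    have hm : Measurable Φ := by
      have h1 := (hec φ).measurable
      have h2 := hfc.measurable
      have h3 := h.meas
      have h4 : Measurable fun a : E n × E n => ⟪a.1, a.2⟫ := by fun_prop
      exact (h3.comp measurable_snd).mul
        (((h4.sub (h2.comp measurable_fst)).sub (h1.comp measurable_snd)).div_const ε).exp
    refine (((h.expo ((r + r) / ε)).const_mul
      (|K| * exp (C / ε) * exp (-(f 0 / ε)))).comp_fst q).mono' hm.aestronglyMeasurable
      (.of_forall fun a => ?_)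
    rw [norm_eq_abs, hΦ, abs_mul, abs_of_nonneg (h.nonneg _), abs_of_pos (exp_pos _)]
    by_cases ha : r < ‖a.2‖
    · rw [h.supp _ ha, zero_mul]; positivity
    · calc p a.2 * exp ((⟪a.1, a.2⟫ - f a.1 - ext φ a.2) / ε)
          = p a.2 * (exp (-ext φ a.2 / ε) * exp ((⟪a.1, a.2⟫ - f a.1) / ε)) := by
            rw [← exp_add, ← add_div]; ring_nf
        _ ≤ |K| * (exp (C / ε) * (exp (-(f 0 / ε)) * exp ((r + r) / ε * ‖a.1‖))) := by
            refine mul_le_mul ((hK _).trans (le_abs_self K)) (mul_le_mul ?_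
              (h.expo_two_sided hfl (not_lt.1 ha) a.1).2 (exp_pos _).le (exp_pos _).le)
              (by positivity) (abs_nonneg _)
            refine exp_le_exp.2 (div_le_div_of_nonneg_right ?_ h.posε.le)
            exact neg_le.1 (neg_le_of_abs_le (hC _ (by simpa using ha)))
        _ = _ := by ring
  have hleft : ∀ g, ∫ y, Φ (g, y) ∂q = 1 := fun g => by
    have hA : 0 < ∫ y, p y * exp ((⟪g, y⟫ - ext φ y) / ε) ∂q := by
      have := hec φ
      exact h.exp_p_pos (by fun_prop)
    have e : ∀ y, Φ (g, y) = (p y * exp ((⟪g, y⟫ - ext φ y) / ε)) * exp (-(f g / ε)) := fun y => by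
      simp only [hΦ]; rw [mul_assoc (p y), ← exp_add]; ring_nf
    simp only [e, integral_mul_const]
    rw [hf, fpot, mul_div_cancel_left₀ _ h.posε.ne', exp_neg, exp_log hA]
    exact mul_inv_cancel₀ hA.ne'
  have hright : ∀ y, ∫ g, Φ (g, y) ∂q = p y * exp (c / ε) := fun y => by
    by_cases hy : r < ‖y‖
    · simp [hΦ, h.supp y hy]
    · have e : ∀ g, Φ (g, y) =
          (p y * exp (-ext φ y / ε)) * exp ((⟪g, y⟫ - f g) / ε) := fun g => by
        simp only [hΦ]; rw [mul_assoc (p y), ← exp_add]; ring_nf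
      simp only [e, integral_const_mul]
      have hv := hval y (not_lt.1 hy)
      rw [tpot] at hv
      rw [mul_assoc, ← exp_log (h.exp_g_pos hfl y), ← exp_add]
      congr 2
      field_simp [h.posε.ne']
      linarith
  have hc0 : c = 0 := by
    have hsw := integral_integral_swap (f := fun g y => Φ (g, y)) hΦi
    simp only [hleft, hright, integral_const, probReal_univ, one_smul, integral_mul_const, h.mass,
      one_mul] at hsw
    have := (exp_eq_one_iff _).1 hsw.symm
    simpa [h.posε.ne'] using this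
  rw [hval z hz, hc0, add_zero]

end Hyp

end PlanAux

theorem plan_exists : PlanExistsProp := by
  intro n _ B _ T ε r hT _ hε hr p hm h0 hb hs hmass
  have hexp : ∀ k : ℝ, Integrable (fun g => exp (k * ‖g‖)) (B.qmeas T) := fun k => by
    rw [Base.qmeas, integrable_map_measure (by fun_prop) (measurable_locMap T).aemeasurable]
    refine ((B.integrable_exp_norm (|k| * T)).mul_prod (integrable_gam_exp (n := n)
      (c := 0) (by norm_num) (|k| * √T))).mono' (by unfold locMap; fun_prop)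
      (.of_forall fun a => ?_)
    simp only [Function.comp_apply, norm_eq_abs, abs_of_pos (exp_pos _), zero_mul, zero_add,
      ← exp_add]
    refine exp_le_exp.2 ?_
    have h1 : ‖locMap T a‖ ≤ T * ‖a.1‖ + √T * ‖a.2‖ := (norm_add_le _ _).trans_eq (by
      rw [norm_smul, norm_smul, norm_eq_abs, norm_eq_abs, abs_of_pos hT,
        abs_of_nonneg (sqrt_nonneg T)])
    calc k * ‖locMap T a‖ ≤ |k| * ‖locMap T a‖ :=
          mul_le_mul_of_nonneg_right (le_abs_self k) (norm_nonneg _)
      _ ≤ |k| * (T * ‖a.1‖ + √T * ‖a.2‖) := mul_le_mul_of_nonneg_left h1 (abs_nonneg k)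
      _ = _ := by ring
  have h : PlanAux.Hyp (B.qmeas T) ε r p :=
    ⟨inferInstance, hexp, hε, hr, hm, h0, hb, hs, hmass⟩
  obtain ⟨ψ, hψ, hfix⟩ := h.exists_fixed
  set f := PlanAux.fpot (B.qmeas T) ε p ψ with hf
  have hfl : PlanAux.Lip r f := h.fpot_lip hψ
  refine ⟨f, PlanAux.tpot (B.qmeas T) ε f, hT, hε, hr, hm, h0, hb, hs, hmass,
    h.lip_continuous hfl, h.tpot_continuous hfl, fun g => ?_, fun z => ?_⟩
  · have hA : 0 < ∫ z, p z * exp ((⟪g, z⟫ - ψ z) / ε) ∂B.qmeas T := h.exp_p_pos (by fun_prop)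
    have e : ∀ z, p z * kker ε f (PlanAux.tpot (B.qmeas T) ε f) g z =
        p z * exp ((⟪g, z⟫ - ψ z) / ε) * exp (-(f g / ε)) := fun z => by
      by_cases hz : r < ‖z‖
      · simp [hs z hz]
      · rw [kker, hfix z (not_lt.1 hz), mul_assoc, ← exp_add]; ring_nf
    simp only [e, integral_mul_const]
    rw [hf, PlanAux.fpot, mul_div_cancel_left₀ _ hε.ne', exp_neg, exp_log hA]
    exact mul_inv_cancel₀ hA.ne'
  · have hH := h.exp_g_pos hfl z
    have e : ∀ g, kker ε f (PlanAux.tpot (B.qmeas T) ε f) g z =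
        exp ((⟪g, z⟫ - f g) / ε) * exp (-(PlanAux.tpot (B.qmeas T) ε f z / ε)) := fun g => by
      rw [kker, ← exp_add]; ring_nf
    simp only [e, integral_mul_const]
    rw [PlanAux.tpot, mul_div_cancel_left₀ _ hε.ne', exp_neg, exp_log hH]
    exact mul_inv_cancel₀ hH.ne'

end Vale.Agent.P245.Polylog
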