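import Vale.Agent.P245.Polylog.Statements
import Vale.Agent.P347.Gauss

/-!
# P245: one step of the chain, by Gaussian interpolation

The two arguments of `Phi k (δ y) x` are `y = T z + √T w` and `x = T z + √T w'`, with `w' = w` on
the diagonal and `w'` independent of `w` after one more step of the chain.  The interpolation
`w_a = cos a · w + sin a · w'` and an integration by parts give a trace pairing of the Jacobians.
-/

open MeasureTheory Real Set Matrix
open scoped RealInnerProductSpace ENNReal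

noncomputable section

namespace Vale.Agent.P245.Polylog

open Vale.Agent.P245.Local Vale.Agent.P245.Local.Base

variable {n : ℕ}

/-! ### Gaussian integrals -/

theorem gam_eq_stdGaussian : gam n = ProbabilityTheory.stdGaussian (E n) := by
  rw [P347.stdGaussian_eq_withDensity, gam]
  have hZ : (∫ y : E n, exp (-P347.gPot y)) = √(2 * π) ^ n := by
    have h := integral_gdens (n := n)
    simp only [gdens, integral_const_mul] at h
    simp only [P347.gPot]
    have hp : (√(2 * π) ^ n : ℝ) ≠ 0 := by positivity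
    field_simp at h
    simpa [neg_div] using h
  rw [hZ]
  congr 1

theorem integral_rot_gam (a : ℝ) {h : E n × E n → ℝ} (hc : Continuous h) :
    ∫ p, h (cos a • p.1 + sin a • p.2, -sin a • p.1 + cos a • p.2) ∂(gam n).prod (gam n) =
      ∫ p, h p ∂(gam n).prod (gam n) := by
  rw [gam_eq_stdGaussian]
  exact P347.integral_rot a hc

theorem integrable_gam_sq {F : E n → ℝ} (hF : Continuous F) {K : ℝ}
    (h : ∀ w, |F w| ≤ K * (1 + ‖w‖ ^ 2)) : Integrable F (gam n) := by
  obtain ⟨C, k, -, -, hk⟩ :=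
    (((expGrowth_const 1).add (expGrowth_norm_pow (n := n) 2)).const_mul K).norm_le
  refine ((integrable_gam_exp (n := n) (c := 0) (by norm_num) k).const_mul C).mono'
    hF.aestronglyMeasurable (.of_forall fun w => ?_)
  rw [norm_eq_abs, zero_mul, zero_add]
  exact (h w).trans ((le_abs_self _).trans (hk w))

theorem integrable_gam2_sq {F : E n × E n → ℝ} (hF : Continuous F) {K : ℝ}
    (h : ∀ p, |F p| ≤ K * (1 + ‖p.1‖ ^ 2 + ‖p.2‖ ^ 2)) :
    Integrable F ((gam n).prod (gam n)) := by
  have hsq : Integrable (fun w : E n => ‖w‖ ^ 2) (gam n) :=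
    integrable_gam_sq (by fun_prop) (K := 1) fun w => by
      rw [abs_of_nonneg (sq_nonneg _), one_mul]; linarith
  exact ((((integrable_const (1 : ℝ)).add (hsq.comp_fst (gam n))).add
    (hsq.comp_snd (gam n))).const_mul K).mono' hF.aestronglyMeasurable
      (.of_forall fun p => by simpa [norm_eq_abs] using h p)

theorem norm_locMap_le {T : ℝ} (hT : 0 < T) (hT1 : T ≤ 1) (z w : E n) :
    ‖locMap T (z, w)‖ ≤ ‖z‖ + ‖w‖ := by
  refine (norm_add_le _ _).trans (add_le_add ?_ ?_)
  · rw [norm_smul, norm_eq_abs, abs_of_pos hT]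
    exact mul_le_of_le_one_left (norm_nonneg _) hT1
  · rw [norm_smul, norm_eq_abs, abs_of_nonneg (sqrt_nonneg _)]
    exact mul_le_of_le_one_left (norm_nonneg _) (sqrt_le_one.2 hT1)

theorem norm_rot_le (a : ℝ) (v w : E n) :
    ‖cos a • v + sin a • w‖ ≤ ‖v‖ + ‖w‖ := by
  refine (norm_add_le _ _).trans (add_le_add ?_ ?_) <;> rw [norm_smul, norm_eq_abs] <;>
    refine mul_le_of_le_one_left (norm_nonneg _) ?_
  exacts [abs_cos_le_one a, abs_sin_le_one a]

/-- `E_q avg_θ (H θ) = ∫ H (T x + √T w) x` -/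
theorem qavg_joint (B : Base n) {T : ℝ} (hT : 0 ≤ T) {H : E n × E n → ℝ} (hH : Continuous H)
    (hm : Measurable fun θ => B.avg T θ fun x => H (θ, x))
    (hi : Integrable (fun p : E n × E n => H (locMap T p, p.1)) (B.μ.prod (gam n))) :
    ∫ θ, B.avg T θ (fun x => H (θ, x)) ∂B.qmeas T =
      ∫ x, ∫ w, H (locMap T (x, w), x) ∂gam n ∂B.μ := by
  rw [show (∫ θ, B.avg T θ (fun x => H (θ, x)) ∂B.qmeas T) =
    B.qavg T fun θ => B.avg T θ fun x => H (θ, x) from rfl, B.qavg_eq hT hm]
  have h1 : ∀ z : E n, B.Z T (√T • z) * B.avg T (√T • z) (fun x => H (√T • z, x)) =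
      ∫ x, W T (√T • z) x * H (√T • z, x) ∂B.μ := fun z =>
    mul_div_cancel₀ _ (B.Z_pos hT _).ne'
  simp only [h1]
  have hW : Continuous fun p : E n × E n => W T (√T • p.1) p.2 := by unfold W; fun_prop
  have hjoint : Continuous fun p : E n × E n => W T (√T • p.1) p.2 * H (√T • p.1, p.2) :=
    hW.mul (hH.comp (by fun_prop))
  rw [integral_integral_swap]
  · congr 1; funext x
    have key : ∀ z, gdens z * (W T (√T • z) x * H (√T • z, x)) =
        gdens (z - √T • x) * H (√T • z, x) := fun z => by rw [gdens_shift hT]; ring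
    rw [integral_gam, integral_gam, funext key,
      ← integral_sub_right_eq_self (μ := (volume : Measure (E n)))
        (fun z => gdens z * H (locMap T (x, z), x)) (√T • x)]
    congr 1; funext z
    congr 3
    simp only [locMap, smul_sub, smul_smul, mul_self_sqrt hT]
    abel
  · refine ⟨hjoint.aestronglyMeasurable, ?_⟩
    show ∫⁻ p : E n × E n, ‖W T (√T • p.1) p.2 * H (√T • p.1, p.2)‖ₑ ∂(gam n).prod B.μ < ⊤
    rw [lintegral_prod_symm' _ hjoint.measurable.enorm]
    have he : ∀ x : E n, ∫⁻ z, ‖W T (√T • z) x * H (√T • z, x)‖ₑ ∂gam n =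
        ∫⁻ z, ‖H (locMap T (x, z), x)‖ₑ ∂gam n := fun x => by
      rw [lintegral_shift hT x fun θ => ‖H (θ, x)‖ₑ]
      congr 1; funext z
      rw [enorm_mul, Real.enorm_of_nonneg (W_pos _ _ _).le]
    simp only [he]
    have hc : Continuous fun p : E n × E n => H (locMap T p, p.1) :=
      hH.comp (Continuous.prodMk (by unfold locMap; fun_prop) continuous_fst)
    exact (lintegral_prod _ hc.measurable.enorm.aemeasurable).symm.trans_lt hi.2

/-! ### linear algebra -/

/-- a row of a matrix as a vector -/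
def row (A : Mat n) (i : Fin n) : E n := WithLp.toLp 2 (A i)

theorem inner_row (A : Mat n) (i : Fin n) (v : E n) : ⟪row A i, v⟫ = ∑ j, A i j * v j := by
  simp [row, PiLp.inner_apply, mul_comm]

theorem fderiv_apply_row (F : E n → E n) (y v : E n) (i : Fin n) :
    fderiv ℝ F y v i = ⟪row (jac F y) i, v⟫ := by
  have hv : v = ∑ j, v j • eb j := by
    ext k
    simp [eb, Pi.single_apply]
  conv_lhs => rw [hv]
  rw [inner_row, map_sum, WithLp.ofLp_sum, Finset.sum_apply]
  exact Finset.sum_congr rfl fun j _ => by simp [jac, mul_comm]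

theorem pairing_le (hP : PairProp) {J M : Mat n} {α η κ S : ℝ} (hA : (J + (1 + η) • (1 : Mat n)).PosDef)
    (hα : 0 < α) (hη : 0 ≤ η) (hκ : 0 ≤ κ) (hq : ∀ e : Fin n → ℝ, |e ⬝ᵥ (M *ᵥ e)| ≤ κ * (e ⬝ᵥ e))
    (hM : ∑ i, ∑ j, M i j ^ 2 ≤ S) :
    |∑ i, ∑ j, J i j * M i j| ≤
      4 * (α + κ) * Omega (J + (1 + η) • (1 : Mat n)) + S / α + η * κ * n := by
  set A := J + (1 + η) • (1 : Mat n) with hAdef
  have hsymm : ∀ i j, J j i = J i j := fun i j => by
    have h := hA.1.apply i j
    simp only [hAdef, Matrix.add_apply, Matrix.smul_apply, star_trivial, smul_eq_mul] at h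
    rcases eq_or_ne i j with rfl | hne
    · rfl
    · simpa [Matrix.one_apply_ne hne, Matrix.one_apply_ne hne.symm] using h
  have e : ∑ i, ∑ j, J i j * M i j = ((A - 1) * M).trace - η * M.trace := by
    have e1 : A - 1 = J + η • (1 : Mat n) := by rw [hAdef, add_smul, one_smul]; abel
    rw [e1, add_mul, trace_add, smul_mul_assoc, one_mul, trace_smul, smul_eq_mul,
      add_sub_cancel_right]
    simp only [trace, diag, Matrix.mul_apply]
    rw [Finset.sum_comm]
    exact Finset.sum_congr rfl fun i _ => Finset.sum_congr rfl fun j _ => by rw [hsymm i j]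
  have h1 := (hP.2 n A M α κ hA hα hκ hq).trans
    (add_le_add le_rfl (div_le_div_of_nonneg_right hM hα.le))
  have h2 : |M.trace| ≤ κ * n := by
    refine (Finset.abs_sum_le_sum_abs _ _).trans ?_
    have hd : ∀ i, |M.diag i| ≤ κ := fun i => by
      have h := hq (Pi.single i 1)
      simpa [Matrix.mulVec_single, dotProduct, Pi.single_apply] using h
    simpa [mul_comm] using Finset.sum_le_sum fun i (_ : i ∈ Finset.univ) => hd i
  rw [e]
  have h3 : |η * M.trace| ≤ η * κ * n := by
    rw [abs_mul, abs_of_nonneg hη, mul_assoc]; gcongr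
  linarith [abs_sub ((A - 1) * M).trace (η * M.trace)]

theorem omega_le {J : Mat n} {C η : ℝ} (hη : 0 < η) (hS : (J + 1).PosSemidef)
    (hJ : ∀ i j, |J i j| ≤ C) :
    Omega (J + (1 + η) • (1 : Mat n)) ≤ n * (C + η + |log η|) := by
  set A := J + (1 + η) • (1 : Mat n) with hA'
  have e : A = (J + 1) + η • (1 : Mat n) := by rw [hA', add_smul, one_smul]; abel
  have hA : A.PosDef := e ▸ (PosDef.one.smul hη).posSemidef_add hS
  have hev : ∀ i, η ≤ hA.1.eigenvalues i := fun i => by
    have h := hA.1.eigenvalues_eq i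
    set v : Fin n → ℝ := ⇑(hA.1.eigenvectorBasis i)
    have hv : v ⬝ᵥ v = 1 := by
      have h1 := hA.1.eigenvectorBasis.orthonormal.1 i
      have h2 : ‖hA.1.eigenvectorBasis i‖ ^ 2 = 1 := by rw [h1]; norm_num
      rw [EuclideanSpace.norm_sq_eq] at h2
      simpa [dotProduct, v, Real.norm_eq_abs, sq_abs, pow_two] using h2
    simp only [RCLike.re_to_real, star_trivial] at h
    have h2 := hS.dotProduct_mulVec_nonneg v
    rw [star_trivial] at h2
    rw [h]
    conv_rhs => rw [show A = _ from e, add_mulVec, dotProduct_add, smul_mulVec, one_mulVec,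
      dotProduct_smul, hv, smul_eq_mul, mul_one]
    linarith
  have hdet : (n : ℝ) * log η ≤ log A.det := by
    rw [hA.1.det_eq_prod_eigenvalues, log_prod]
    · calc (n : ℝ) * log η = ∑ _i : Fin n, log η := by simp
        _ ≤ _ := Finset.sum_le_sum fun i _ => by simpa using log_le_log hη (hev i)
    · exact fun i _ => by simpa using (hη.trans_le (hev i)).ne'
  have htr : A.trace ≤ n * (C + 1 + η) := by
    calc A.trace = ∑ i, (J i i + (1 + η)) := by simp [trace, hA', Matrix.smul_apply]
      _ ≤ ∑ _i : Fin n, (C + 1 + η) :=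
          Finset.sum_le_sum fun i _ => by linarith [le_abs_self (J i i), hJ i i]
      _ = _ := by simp; ring
  have h4 : -((n : ℝ) * log η) ≤ n * |log η| := by
    rw [← mul_neg]; gcongr; exact neg_le_abs _
  unfold Omega
  linarith

/-! ### the interpolation -/

variable (B : Base n) (T : ℝ) (δ : E n → E n) (k : ℕ)

/-- integrand of the interpolation -/
def interp (z : E n) (a : ℝ) (p : E n × E n) : ℝ :=
  Phi B T k (δ (locMap T (z, cos a • p.1 + sin a • p.2))) (locMap T (z, p.1))

/-- the derivative of `interp` in rotated coordinates -/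
def dint (z : E n) (a : ℝ) (p : E n × E n) : ℝ :=
  √T * ∑ i, Gk B T k (δ (locMap T (z, p.1))) i (locMap T (z, cos a • p.1 - sin a • p.2)) *
    ⟪row (jac δ (locMap T (z, p.1))) i, p.2⟫

theorem unrot (a : ℝ) (v w : E n) :
    cos a • (cos a • v + sin a • w) - sin a • (-sin a • v + cos a • w) = v := by
  calc _ = (cos a * cos a + sin a * sin a) • v := by module
    _ = v := by rw [show cos a * cos a + sin a * sin a = 1 by nlinarith [sin_sq_add_cos_sq a],
        one_smul]

theorem hasDerivAt_interp (hG : GradProp) (hn : 1 ≤ n) (hT : 0 < T) (hδ : ContDiff ℝ 1 δ) (z : E n)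
    (p : E n × E n) (a : ℝ) :
    HasDerivAt (fun a => interp B T δ k z a p)
      (dint B T δ k z a (cos a • p.1 + sin a • p.2, -sin a • p.1 + cos a • p.2)) a := by
  obtain ⟨-, -, -, hv⟩ := hG n hn B T hT k
  set ya := locMap T (z, cos a • p.1 + sin a • p.2) with hya
  obtain ⟨⟨D, hD, hDu⟩, -⟩ := (hv (δ ya)).2 (locMap T (z, p.1))
  have hy : HasDerivAt (fun a => locMap T (z, cos a • p.1 + sin a • p.2))
      (√T • (-sin a • p.1 + cos a • p.2)) a := by
    have := ((((hasDerivAt_cos a).smul_const p.1).add ((hasDerivAt_sin a).smul_const p.2)).const_smul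
      (√T)).const_add (T • z)
    simpa [locMap] using this
  have h1 := ((hδ.differentiable one_ne_zero ya).hasFDerivAt.comp_hasDerivAt a hy)
  refine (hD.comp_hasDerivAt a h1).congr_deriv ?_
  rw [hDu]
  simp only [dint, unrot, ← hya, fderiv_apply_row, inner_smul_right, Finset.mul_sum]
  exact Finset.sum_congr rfl fun i _ => by ring

/-- majorant of the pairing -/
def Pmaj (α η : ℝ) (y : E n) : ℝ :=
  4 * (α + 2 / T) * Omega (jac δ y + (1 + η) • (1 : Mat n)) + 4 / (α * T ^ 3) * ‖δ y‖ ^ 2 +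
    2 * η * n / T

attribute [local irreducible] Phi Gk Mk Pmaj


theorem one_add_locMap_sq {T : ℝ} (hT : 0 < T) (hT1 : T ≤ 1) (z w : E n) :
    1 + ‖locMap T (z, w)‖ ^ 2 ≤ 2 * (1 + ‖z‖ ^ 2) * (1 + ‖w‖ ^ 2) := by
  have := pow_le_pow_left₀ (norm_nonneg _) (norm_locMap_le hT hT1 z w) 2
  nlinarith [sq_nonneg (‖z‖ - ‖w‖), mul_nonneg (sq_nonneg ‖z‖) (sq_nonneg ‖w‖)]

theorem norm_rot_le' (a : ℝ) (v w : E n) : ‖-sin a • v + cos a • w‖ ≤ ‖v‖ + ‖w‖ := by
  refine (norm_add_le _ _).trans (add_le_add ?_ ?_) <;> rw [norm_smul, norm_eq_abs] <;>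
    refine mul_le_of_le_one_left (norm_nonneg _) ?_
  exacts [by rw [abs_neg]; exact abs_sin_le_one a, abs_cos_le_one a]

theorem integrable_mu_gam (B : Base n) {F : E n × E n → ℝ} {K : ℝ} (hF : Continuous F)
    (h : ∀ p, |F p| ≤ K * ((1 + ‖p.1‖ ^ 2) * (1 + ‖p.2‖ ^ 2))) :
    Integrable F (B.μ.prod (gam n)) := by
  have i1 : Integrable (fun z : E n => 1 + ‖z‖ ^ 2) B.μ :=
    B.integrable_of_growth (by fun_prop) ((expGrowth_const 1).add expGrowth_norm.sq)
  have i2 : Integrable (fun w : E n => 1 + ‖w‖ ^ 2) (gam n) :=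
    integrable_gam_sq (by fun_prop) (K := 1) fun w => by
      rw [abs_of_nonneg (by positivity), one_mul]
  exact ((i1.mul_prod i2).const_mul K).mono' hF.aestronglyMeasurable
    (.of_forall fun p => by simpa [norm_eq_abs] using h p)

theorem qmeas_quad (B : Base n) {T : ℝ} (hT : 0 < T) (hT1 : T ≤ 1) {F : E n → ℝ} {K : ℝ}
    (hF : Continuous F) (hK : ∀ y, |F y| ≤ K * (1 + ‖y‖ ^ 2)) :
    Integrable (fun p : E n × E n => F (locMap T p)) (B.μ.prod (gam n)) ∧
    Integrable F (B.qmeas T) ∧
    ∫ y, F y ∂B.qmeas T = ∫ z, ∫ w, F (locMap T (z, w)) ∂gam n ∂B.μ := by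
  have hloc : Continuous fun p : E n × E n => locMap T p := by unfold locMap; fun_prop
  have hK0 : 0 ≤ K := by
    have := (abs_nonneg _).trans (hK 0); simpa using this
  have i := integrable_mu_gam B (F := fun p => F (locMap T p)) (K := 2 * K) (hF.comp hloc) fun p => by
    calc |F (locMap T p)| ≤ K * (2 * (1 + ‖p.1‖ ^ 2) * (1 + ‖p.2‖ ^ 2)) :=
          (hK _).trans (mul_le_mul_of_nonneg_left (one_add_locMap_sq hT hT1 p.1 p.2) hK0)
      _ = _ := by ring
  have iq : Integrable F (B.qmeas T) :=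
    (integrable_map_measure hF.aestronglyMeasurable (measurable_locMap T).aemeasurable).2 i
  refine ⟨i, iq, ?_⟩
  rw [qmeas, integral_map (measurable_locMap T).aemeasurable hF.aestronglyMeasurable,
    integral_prod _ i]

/-- regularity of the displacement -/
structure Disp (δ : E n → E n) (C η : ℝ) : Prop where
  smooth : ContDiff ℝ 1 δ
  growth : ∀ y, ‖δ y‖ ≤ C * (1 + ‖y‖)
  bd : ∀ y i j, |jac δ y i j| ≤ C
  pos : 0 < η
  psd : ∀ y, (jac δ y + 1).PosSemidef

namespace Disp

variable {B T δ k} {C η α : ℝ} (d : Disp δ C η)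
include d

theorem C_nonneg : 0 ≤ C := by
  have := d.growth 0; simp at this; linarith [norm_nonneg (δ 0)]

theorem contJac : Continuous fun y => jac δ y := by
  refine continuous_matrix fun i j => ?_
  exact (PiLp.continuous_apply 2 _ i).comp
    ((d.smooth.continuous_fderiv one_ne_zero).clm_apply continuous_const)

theorem posDef (y : E n) : (jac δ y + (1 + η) • (1 : Mat n)).PosDef := by
  have e : jac δ y + (1 + η) • (1 : Mat n) = (jac δ y + 1) + η • (1 : Mat n) := by
    rw [add_smul, one_smul]; abel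
  exact e ▸ (PosDef.one.smul d.pos).posSemidef_add (d.psd y)

theorem contOmega : Continuous fun y => Omega (jac δ y + (1 + η) • (1 : Mat n)) :=
  ((d.contJac.add continuous_const).matrix_trace.sub continuous_const).sub
    ((d.contJac.add continuous_const).matrix_det.log fun y => (d.posDef y).det_pos.ne')

theorem norm_sq_le (y : E n) : ‖δ y‖ ^ 2 ≤ 2 * C ^ 2 * (1 + ‖y‖ ^ 2) := by
  have := pow_le_pow_left₀ (norm_nonneg _) (d.growth y) 2
  nlinarith [sq_nonneg (C * (1 - ‖y‖))]

theorem inner_row_le (y : E n) (i : Fin n) (v : E n) :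
    |⟪row (jac δ y) i, v⟫| ≤ n * C * ‖v‖ := by
  rw [inner_row]
  refine (Finset.abs_sum_le_sum_abs _ _).trans ?_
  calc ∑ j, |jac δ y i j * v j| ≤ ∑ _j : Fin n, C * ‖v‖ :=
        Finset.sum_le_sum fun j _ => by
          rw [abs_mul]
          exact mul_le_mul (d.bd y i j) (by simpa using PiLp.norm_apply_le v j) (abs_nonneg _)
            d.C_nonneg
    _ = _ := by simp; ring

theorem contRow (i : Fin n) : Continuous fun y => row (jac δ y) i :=
  (PiLp.continuous_toLp 2 _).comp ((continuous_apply i).comp d.contJac)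

theorem contPmaj (T α : ℝ) : Continuous (Pmaj T δ α η) := by
  unfold Pmaj
  exact ((continuous_const.mul d.contOmega).add
    (continuous_const.mul (d.smooth.continuous.norm.pow 2))).add continuous_const

theorem abs_omega_le (hP : PairProp) (y : E n) :
    |Omega (jac δ y + (1 + η) • (1 : Mat n))| ≤ n * (C + η + |log η|) := by
  rw [abs_of_nonneg (hP.1 n _ (d.posDef y)).1]
  exact omega_le d.pos (d.psd y) (d.bd y)

theorem abs_Pmaj_le (hP : PairProp) (hT : 0 < T) (hα : 0 < α) : ∃ K, ∀ y,
    |Pmaj T δ α η y| ≤ K * (1 + ‖y‖ ^ 2) := by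
  refine ⟨4 * (α + 2 / T) * (n * (C + η + |log η|)) + 4 / (α * T ^ 3) * (2 * C ^ 2) +
    2 * η * n / T, fun y => ?_⟩
  have hC := d.C_nonneg
  have hη := d.pos
  have h0 := (hP.1 n _ (d.posDef y)).1
  rw [Pmaj, abs_of_nonneg (by positivity)]
  have a1 : 4 * (α + 2 / T) * Omega (jac δ y + (1 + η) • (1 : Mat n)) ≤
      4 * (α + 2 / T) * (n * (C + η + |log η|)) :=
    mul_le_mul_of_nonneg_left ((le_abs_self _).trans (d.abs_omega_le hP y)) (by positivity)
  have a2 : 4 / (α * T ^ 3) * ‖δ y‖ ^ 2 ≤ 4 / (α * T ^ 3) * (2 * C ^ 2) * (1 + ‖y‖ ^ 2) := by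
    rw [mul_assoc]; exact mul_le_mul_of_nonneg_left (d.norm_sq_le y) (by positivity)
  have a3 : 0 ≤ 4 * (α + 2 / T) * (n * (C + η + |log η|)) := by positivity
  have a4 : 0 ≤ 2 * η * n / T := by positivity
  nlinarith [mul_nonneg a3 (sq_nonneg ‖y‖), mul_nonneg a4 (sq_nonneg ‖y‖)]

variable (hG : GradProp) (hn : 1 ≤ n) (hT : 0 < T)
include hG hn hT

theorem contPhi : Continuous fun p : E n × E n => Phi B T k (δ p.1) p.2 := by
  have h1 : Continuous fun a : E n × E n => Phi B T k a.1 a.2 := (hG n hn B T hT k).1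
  have h2 : Continuous fun p : E n × E n => (δ p.1, p.2) :=
    (d.smooth.continuous.comp continuous_fst).prodMk continuous_snd
  exact h1.comp h2

theorem abs_Phi_le (y x : E n) : |Phi B T k (δ y) x| ≤ C ^ 2 / T * (1 + ‖y‖ ^ 2) := by
  obtain ⟨-, h0, h1, -⟩ := ((hG n hn B T hT k).2.2.2 (δ y)).2 x
  rw [abs_of_nonneg h0]
  refine h1.trans ((div_le_div_of_nonneg_right (d.norm_sq_le y) (by positivity)).trans (le_of_eq ?_))
  field_simp

omit d in
theorem abs_Gk_le (v x : E n) (i : Fin n) : |Gk B T k v i x| ≤ ‖v‖ / T := by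
  obtain ⟨-, -, -, h2, -⟩ := ((hG n hn B T hT k).2.2.2 v).2 x
  refine abs_le_of_sq_le_sq ?_ (by positivity)
  rw [div_pow]
  exact (Finset.single_le_sum (f := fun i => Gk B T k v i x ^ 2)
    (fun j _ => sq_nonneg _) (Finset.mem_univ i)).trans h2

theorem cont_dint (z : E n) (a : ℝ) : Continuous (dint B T δ k z a) := by
  unfold dint
  have hloc : Continuous fun p : E n × E n => locMap T p := by unfold locMap; fun_prop
  refine continuous_const.mul (continuous_finsetSum _ fun i _ => ?_)
  have h1 : Continuous fun p : E n × E n => locMap T (z, p.1) :=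
    hloc.comp (by fun_prop : Continuous fun p : E n × E n => (z, p.1))
  have h2 : Continuous fun p : E n × E n => locMap T (z, cos a • p.1 - sin a • p.2) :=
    hloc.comp (by fun_prop : Continuous fun p : E n × E n => (z, cos a • p.1 - sin a • p.2))
  have h3 : Continuous fun q : E n × E n => Gk B T k q.1 i q.2 := (hG n hn B T hT k).2.1 i
  exact (h3.comp ((d.smooth.continuous.comp h1).prodMk h2)).mul
    (((d.contRow i).comp h1).inner continuous_snd)

theorem abs_dint_le (hT1 : T ≤ 1) (z : E n) (a : ℝ) (p : E n × E n) :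
    |dint B T δ k z a p| ≤
      √T * (n * (C / T * (n * C))) * ((1 + ‖z‖ + ‖p.1‖) * ‖p.2‖) := by
  have hC := d.C_nonneg
  rw [dint, abs_mul, abs_of_nonneg (sqrt_nonneg T), mul_assoc]
  refine mul_le_mul_of_nonneg_left ((Finset.abs_sum_le_sum_abs _ _).trans ?_) (sqrt_nonneg T)
  calc _ ≤ ∑ _i : Fin n, C / T * (1 + ‖z‖ + ‖p.1‖) * (n * C * ‖p.2‖) :=
        Finset.sum_le_sum fun i _ => by
          rw [abs_mul]
          refine mul_le_mul ?_ (d.inner_row_le _ _ _) (abs_nonneg _) (by positivity)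
          refine (abs_Gk_le hG hn hT _ _ _).trans ?_
          rw [div_mul_eq_mul_div]
          refine div_le_div_of_nonneg_right ((d.growth _).trans ?_) hT.le
          exact mul_le_mul_of_nonneg_left (by linarith [norm_locMap_le hT hT1 z p.1]) hC
    _ = _ := by simp; ring

theorem slice_deriv (hT1 : T ≤ 1) (z : E n) (a : ℝ) :
    HasDerivAt (fun a => ∫ p, interp B T δ k z a p ∂(gam n).prod (gam n))
      (∫ p, dint B T δ k z a p ∂(gam n).prod (gam n)) a := by
  have hloc : Continuous fun p : E n × E n => locMap T p := by unfold locMap; fun_prop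
  have hC := d.C_nonneg
  set Kd := √T * (n * (C / T * (n * C))) with hKd
  have hci : ∀ a, Continuous (interp B T δ k z a) := fun a => by
    unfold interp
    have h1 : Continuous fun p : E n × E n => locMap T (z, cos a • p.1 + sin a • p.2) :=
      hloc.comp (by fun_prop : Continuous fun p : E n × E n => (z, cos a • p.1 + sin a • p.2))
    have h2 : Continuous fun p : E n × E n => locMap T (z, p.1) :=
      hloc.comp (by fun_prop : Continuous fun p : E n × E n => (z, p.1))
    exact (d.contPhi (B := B) (k := k) hG hn hT).comp (h1.prodMk h2)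
  have hii : Integrable (interp B T δ k z a) ((gam n).prod (gam n)) := by
    refine integrable_gam2_sq (hci a) (K := C ^ 2 / T * (8 * (1 + ‖z‖ ^ 2))) fun p => ?_
    refine (d.abs_Phi_le hG hn hT _ _).trans ?_
    have h1 := pow_le_pow_left₀ (norm_nonneg _)
      ((norm_locMap_le hT hT1 z _).trans (add_le_add le_rfl (norm_rot_le a p.1 p.2))) 2
    have h2 : 1 + ‖locMap T (z, cos a • p.1 + sin a • p.2)‖ ^ 2 ≤
        8 * (1 + ‖z‖ ^ 2) * (1 + ‖p.1‖ ^ 2 + ‖p.2‖ ^ 2) := by
      nlinarith [sq_nonneg (‖z‖ - ‖p.1‖), sq_nonneg (‖z‖ - ‖p.2‖), sq_nonneg (‖p.1‖ - ‖p.2‖),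
        mul_nonneg (sq_nonneg ‖z‖) (sq_nonneg ‖p.1‖), mul_nonneg (sq_nonneg ‖z‖) (sq_nonneg ‖p.2‖)]
    calc C ^ 2 / T * (1 + ‖locMap T (z, cos a • p.1 + sin a • p.2)‖ ^ 2)
        ≤ C ^ 2 / T * (8 * (1 + ‖z‖ ^ 2) * (1 + ‖p.1‖ ^ 2 + ‖p.2‖ ^ 2)) := by
          gcongr
      _ = _ := by ring
  set Kb := Kd * (4 * (1 + ‖z‖))
  have hb : Integrable (fun p : E n × E n => Kb * (1 + ‖p.1‖ ^ 2 + ‖p.2‖ ^ 2))
      ((gam n).prod (gam n)) := by
    refine integrable_gam2_sq (by fun_prop) (K := Kb) fun p => le_of_eq (abs_of_nonneg ?_)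
    positivity
  have hrc : ∀ a : ℝ, Continuous fun p : E n × E n =>
      (cos a • p.1 + sin a • p.2, -sin a • p.1 + cos a • p.2) := fun a => by fun_prop
  have h := (hasDerivAt_integral_of_dominated_loc_of_deriv_le (μ := (gam n).prod (gam n))
    (x₀ := a) (F := fun a p => interp B T δ k z a p)
    (F' := fun a p =>
      dint B T δ k z a (cos a • p.1 + sin a • p.2, -sin a • p.1 + cos a • p.2))
    (bound := fun p => Kb * (1 + ‖p.1‖ ^ 2 + ‖p.2‖ ^ 2)) (s := univ) Filter.univ_mem
    (.of_forall fun a => (hci a).aestronglyMeasurable) hii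
    ((d.cont_dint hG hn hT z a).comp (hrc a)).aestronglyMeasurable ?_ hb
    (.of_forall fun p a' _ => hasDerivAt_interp B T δ k hG hn hT d.smooth z p a')).2
  · exact h.congr_deriv (integral_rot_gam a (d.cont_dint hG hn hT z a))
  · refine .of_forall fun p a' _ => ?_
    rw [norm_eq_abs]
    refine (d.abs_dint_le hG hn hT hT1 z a' _).trans ?_
    have hu := norm_rot_le a' p.1 p.2
    have hw : ‖-sin a' • p.1 + cos a' • p.2‖ ≤ ‖p.1‖ + ‖p.2‖ := by
      refine (norm_add_le _ _).trans (add_le_add ?_ ?_) <;> rw [norm_smul, norm_eq_abs] <;>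
        refine mul_le_of_le_one_left (norm_nonneg _) ?_
      exacts [by rw [abs_neg]; exact abs_sin_le_one a', abs_cos_le_one a']
    show Kd * _ ≤ Kd * (4 * (1 + ‖z‖)) * _
    rw [mul_assoc Kd]
    refine mul_le_mul_of_nonneg_left ?_ (by positivity)
    calc _ ≤ (1 + ‖z‖ + (‖p.1‖ + ‖p.2‖)) * (‖p.1‖ + ‖p.2‖) := by gcongr
      _ ≤ _ := by
        nlinarith [sq_nonneg (‖p.1‖ - ‖p.2‖), sq_nonneg (‖p.1‖ - 1), sq_nonneg (‖p.2‖ - 1),
          norm_nonneg z, mul_nonneg (norm_nonneg z) (sq_nonneg (‖p.1‖ - 1)),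
          mul_nonneg (norm_nonneg z) (sq_nonneg (‖p.2‖ - 1)),
          mul_nonneg (norm_nonneg z) (sq_nonneg (‖p.1‖ - ‖p.2‖))]

theorem slice_low (hP : PairProp) (hT1 : T ≤ 1) (hα : 0 < α) (z : E n) (a : ℝ) (hsa : 0 ≤ sin a) :
    -(T * sin a * ∫ w, Pmaj T δ α η (locMap T (z, w)) ∂gam n) ≤
      ∫ p, dint B T δ k z a p ∂(gam n).prod (gam n) := by
  have hloc : Continuous fun p : E n × E n => locMap T p := by unfold locMap; fun_prop
  have hC := d.C_nonneg
  set Kd := √T * (n * (C / T * (n * C))) with hKd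
  obtain ⟨K, hK⟩ := d.abs_Pmaj_le hP hT hα
  have hK0 : 0 ≤ K := by
    have := (abs_nonneg _).trans (hK 0); simpa using this
  have hMw : Integrable (fun w => Pmaj T δ α η (locMap T (z, w))) (gam n) := by
    refine integrable_gam_sq ((d.contPmaj T α).comp (hloc.comp (by fun_prop)))
      (K := K * (2 * (1 + ‖z‖ ^ 2))) fun w => ?_
    calc _ ≤ K * (2 * (1 + ‖z‖ ^ 2) * (1 + ‖w‖ ^ 2)) :=
          (hK _).trans (mul_le_mul_of_nonneg_left (one_add_locMap_sq hT hT1 z w) hK0)
      _ = _ := by ring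
  have hid : Integrable (dint B T δ k z a) ((gam n).prod (gam n)) := by
    refine integrable_gam2_sq (d.cont_dint hG hn hT z a) (K := Kd * (2 * (1 + ‖z‖))) fun p => (d.abs_dint_le hG hn hT hT1 z a p).trans ?_
    show Kd * _ ≤ _
    rw [mul_assoc Kd]
    refine mul_le_mul_of_nonneg_left ?_ (by positivity)
    nlinarith [sq_nonneg (‖p.1‖ - ‖p.2‖), sq_nonneg (‖p.2‖ - 1), norm_nonneg z,
      mul_nonneg (norm_nonneg z) (sq_nonneg (‖p.2‖ - 1)),
      mul_nonneg (norm_nonneg z) (sq_nonneg ‖p.1‖)]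
  rw [integral_prod _ hid, ← integral_const_mul, ← integral_neg]
  refine integral_mono (hMw.const_mul _).neg hid.integral_prod_left fun u => ?_
  set y := locMap T (z, u) with hy
  set X : E n → E n := fun v => locMap T (z, cos a • u - sin a • v) with hX
  set J := jac δ y
  have hXc : Continuous X := hloc.comp (by fun_prop)
  have hGi : ∀ i, ∀ v : E n, |Gk B T k (δ y) i (X v)| ≤ ‖δ y‖ / T := fun i v => abs_Gk_le hG hn hT _ _ i
  have hsum : ∀ i, Integrable (fun v => ⟪v, row J i⟫ * Gk B T k (δ y) i (X v)) (gam n) :=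
    fun i => integrable_gam_sq ((continuous_id.inner continuous_const).mul
      ((((hG n hn B T hT k).2.2.2 (δ y)).1 i).continuous.comp hXc)) (K := ‖row J i‖ * (‖δ y‖ / T)) fun v => by
        rw [abs_mul]
        calc |⟪v, row J i⟫| * |Gk B T k (δ y) i (X v)| ≤ ‖v‖ * ‖row J i‖ * (‖δ y‖ / T) :=
              mul_le_mul (abs_real_inner_le_norm _ _) (hGi i v) (abs_nonneg _) (by positivity)
          _ ≤ (1 + ‖v‖ ^ 2) * ‖row J i‖ * (‖δ y‖ / T) := by
              gcongr; nlinarith [sq_nonneg (‖v‖ - 1)]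
          _ = _ := by ring
  have hline : ∀ i v, HasLineDerivAt ℝ (fun v => Gk B T k (δ y) i (X v))
      (-(√T * sin a) * ∑ j, J i j * Mk B T k (δ y) (X v) i j) v (row J i) := fun i v => by
    have hd : HasDerivAt (fun t : ℝ => X (v + t • row J i))
        ((-(√T * sin a)) • row J i) 0 := by
      have e : (fun t : ℝ => X (v + t • row J i)) =
          fun t => X v + t • ((-(√T * sin a)) • row J i) := by
        funext t; simp only [hX, locMap]; module
      rw [e]
      simpa using ((hasDerivAt_id (0 : ℝ)).smul_const ((-(√T * sin a)) • row J i)).const_add (X v)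
    have hg := ((((hG n hn B T hT k).2.2.2 (δ y)).1 i).differentiable one_ne_zero (X (v + (0:ℝ) • row J i))).hasFDerivAt
    have := hg.comp_hasDerivAt (0 : ℝ) hd
    refine this.congr_deriv ?_
    rw [zero_smul, add_zero, map_smul, smul_eq_mul]
    congr 1
    have hv' : row J i = ∑ j, J i j • eb j := by
      ext l; simp [row, eb, Pi.single_apply]
    conv_lhs => rw [hv', map_sum]
    exact Finset.sum_congr rfl fun j _ => by simp [Mk]
  have hcMv : ∀ i j, Continuous fun v => Mk B T k (δ y) (X v) i j := fun i j => by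
    have h1 : Continuous fun q : E n × E n => Mk B T k q.1 q.2 := (hG n hn B T hT k).2.2.1
    exact (h1.comp ((continuous_const (y := δ y)).prodMk hXc)).matrix_elem i j
  have hMb' : ∀ i j v, |Mk B T k (δ y) (X v) i j| ≤ 1 + 4 * ‖δ y‖ ^ 2 / T ^ 3 := fun i j v => by
    obtain ⟨-, -, -, -, h5, -⟩ := ((hG n hn B T hT k).2.2.2 (δ y)).2 (X v)
    have := Finset.single_le_sum (f := fun j => Mk B T k (δ y) (X v) i j ^ 2)
      (fun j _ => sq_nonneg _) (Finset.mem_univ j)
    have := Finset.single_le_sum (f := fun i => ∑ j, Mk B T k (δ y) (X v) i j ^ 2)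
      (fun i _ => Finset.sum_nonneg fun j _ => sq_nonneg _) (Finset.mem_univ i)
    nlinarith [sq_nonneg (|Mk B T k (δ y) (X v) i j| - 1), sq_abs (Mk B T k (δ y) (X v) i j)]
  have hiS : ∀ i, Integrable (fun v => ∑ j, J i j * Mk B T k (δ y) (X v) i j) (gam n) :=
    fun i => integrable_finsetSum _ fun j _ => by
      refine Integrable.const_mul (.of_bound (hcMv i j).aestronglyMeasurable
        (1 + 4 * ‖δ y‖ ^ 2 / T ^ 3) (.of_forall fun v => ?_)) _
      rw [norm_eq_abs]; exact hMb' i j v
  have hibp : ∀ i, ∫ v, ⟪v, row J i⟫ * Gk B T k (δ y) i (X v) ∂gam n =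
      -(√T * sin a) * ∫ v, ∑ j, J i j * Mk B T k (δ y) (X v) i j ∂gam n := fun i => by
    rw [← integral_const_mul]
    exact (gam_ibp (row J i) (hline i)
      (.of_bound ((((hG n hn B T hT k).2.2.2 (δ y)).1 i).continuous.comp hXc).aestronglyMeasurable _
        (.of_forall fun v => by simpa [norm_eq_abs] using hGi i v))
      ((hiS i).const_mul _) (hsum i)).symm
  have e : ∫ v, dint B T δ k z a (u, v) ∂gam n =
      -(T * sin a) * ∫ v, ∑ i, ∑ j, J i j * Mk B T k (δ y) (X v) i j ∂gam n := by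
    simp only [dint, ← hy]
    rw [integral_const_mul, integral_finsetSum _ fun i _ => ?_,
      integral_finsetSum _ fun i _ => hiS i, Finset.mul_sum, Finset.mul_sum]
    · refine Finset.sum_congr rfl fun i _ => ?_
      rw [show (fun v => Gk B T k (δ y) i (locMap T (z, cos a • u - sin a • v)) * ⟪row J i, v⟫) =
        fun v => ⟪v, row J i⟫ * Gk B T k (δ y) i (X v) from funext fun v => by
          rw [real_inner_comm, mul_comm], hibp i]
      linear_combination
        (-(sin a) * ∫ v, ∑ j, J i j * Mk B T k (δ y) (X v) i j ∂gam n) * Real.mul_self_sqrt hT.le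
    · refine (hsum i).congr (.of_forall fun v => ?_)
      simp only [hX]
      rw [real_inner_comm, mul_comm]
  rw [e, neg_mul, neg_le_neg_iff]
  refine mul_le_mul_of_nonneg_left ?_ (mul_nonneg hT.le hsa)
  calc _ ≤ ∫ _v : E n, Pmaj T δ α η y ∂gam n := by
        refine integral_mono (integrable_finsetSum _ fun i _ => hiS i) (integrable_const _)
          fun v => ?_
        obtain ⟨-, -, -, -, h5, h6⟩ := ((hG n hn B T hT k).2.2.2 (δ y)).2 (X v)
        refine (le_abs_self _).trans ((pairing_le hP (d.posDef y) hα d.pos.le (by positivity) h6 h5).trans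
          (le_of_eq ?_))
        rw [Pmaj]
        field_simp
    _ = Pmaj T δ α η y := by simp

theorem slice_le (hP : PairProp) (hT1 : T ≤ 1) (hα : 0 < α) (z : E n) :
    (∫ w, Phi B T k (δ (locMap T (z, w))) (locMap T (z, w)) ∂gam n) -
      (∫ w, Nop T (Phi B T k (δ (locMap T (z, w)))) z ∂gam n) ≤
      T * ∫ w, Pmaj T δ α η (locMap T (z, w)) ∂gam n := by
  have hloc : Continuous fun p : E n × E n => locMap T p := by unfold locMap; fun_prop
  have hC := d.C_nonneg
  set R : E n → ℝ := fun z => ∫ w, Pmaj T δ α η (locMap T (z, w)) ∂gam n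
  set G : ℝ → ℝ := fun a => ∫ p, interp B T δ k z a p ∂(gam n).prod (gam n) with hGdef
  set φ : ℝ → ℝ := fun a => G a + T * R z * (1 - cos a)
  have hφ : ∀ a, HasDerivAt φ
      ((∫ p, dint B T δ k z a p ∂(gam n).prod (gam n)) + T * R z * sin a) a := fun a => by
    refine ((d.slice_deriv hG hn hT hT1 z a).add (((hasDerivAt_cos a).const_sub 1).const_mul (T * R z))).congr_deriv ?_
    ring
  have hmono : MonotoneOn φ (Icc 0 (π / 2)) := by
    refine monotoneOn_of_deriv_nonneg (convex_Icc _ _)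
      (fun a _ => (hφ a).continuousAt.continuousWithinAt)
      (fun a _ => (hφ a).differentiableAt.differentiableWithinAt) fun a ha => ?_
    rw [interior_Icc] at ha
    rw [(hφ a).deriv]
    have := d.slice_low (B := B) (k := k) hG hn hT hP hT1 hα z a (sin_nonneg_of_nonneg_of_le_pi ha.1.le (by linarith [ha.2, pi_pos]))
    linarith
  have h := hmono (left_mem_Icc.2 (by positivity)) (right_mem_Icc.2 (by positivity))
    (by positivity : (0:ℝ) ≤ π / 2)
  simp only [φ, cos_zero, cos_pi_div_two, sub_self, mul_zero, add_zero, sub_zero, mul_one] at h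
  have hpz : Continuous fun p : E n × E n =>
      Phi B T k (δ (locMap T (z, p.2))) (locMap T (z, p.1)) := by
    have h1 : Continuous fun p : E n × E n => locMap T (z, p.2) :=
      hloc.comp (by fun_prop : Continuous fun p : E n × E n => (z, p.2))
    have h2 : Continuous fun p : E n × E n => locMap T (z, p.1) :=
      hloc.comp (by fun_prop : Continuous fun p : E n × E n => (z, p.1))
    exact (d.contPhi (B := B) (k := k) hG hn hT).comp (h1.prodMk h2)
  have e1 : G 0 = ∫ w, Phi B T k (δ (locMap T (z, w))) (locMap T (z, w)) ∂gam n := by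
    simp only [hGdef, interp, cos_zero, sin_zero, one_smul, zero_smul, add_zero]
    rw [integral_fun_fst (f := fun w => Phi B T k (δ (locMap T (z, w))) (locMap T (z, w)))]
    simp
  have e2 : G (π / 2) = ∫ w, Nop T (Phi B T k (δ (locMap T (z, w)))) z ∂gam n := by
    simp only [hGdef, interp, cos_pi_div_two, sin_pi_div_two, one_smul, zero_smul, zero_add]
    rw [integral_prod_symm]
    · rfl
    · refine integrable_gam2_sq hpz (K := C ^ 2 / T * (2 * (1 + ‖z‖ ^ 2))) fun p => ?_
      refine (d.abs_Phi_le hG hn hT _ _).trans ?_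
      rw [mul_assoc]
      refine mul_le_mul_of_nonneg_left ((one_add_locMap_sq hT hT1 z p.2).trans ?_) (by positivity)
      exact mul_le_mul_of_nonneg_left (by linarith [sq_nonneg ‖p.1‖]) (by positivity)
  linarith

end Disp

theorem step (hG : GradProp) (hP : PairProp) : StepProp := by
  intro n hn B hS T hT hT4 δ hδ C hgr hjac η hη hpsd α hα k
  have hT1 : T ≤ 1 := by linarith
  have d : Disp δ C η := ⟨hδ, hgr, hjac, hη, hpsd⟩
  have hloc : Continuous fun p : E n × E n => locMap T p := by unfold locMap; fun_prop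
  obtain ⟨K, hK⟩ := d.abs_Pmaj_le hP hT hα
  set c₀ := C ^ 2 / T
  have hd1 := qmeas_quad B hT hT1 (F := fun y => Phi B T k (δ y) y) ((d.contPhi (B := B) (k := k) hG hn hT).comp (continuous_id.prodMk continuous_id))
    fun y => d.abs_Phi_le hG hn hT y y
  set H : E n × E n → ℝ := fun p => Nop T (Phi B T k (δ p.1)) p.2 with hH
  have hHb : ∀ y z, |Nop T (Phi B T k (δ y)) z| ≤ c₀ * (1 + ‖y‖ ^ 2) := fun y z => by
    rw [← norm_eq_abs]
    simpa [Nop] using norm_integral_le_of_norm_le_const (μ := gam n)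
      (f := fun w => Phi B T k (δ y) (locMap T (z, w))) (C := c₀ * (1 + ‖y‖ ^ 2))
      (.of_forall fun w => by rw [norm_eq_abs]; exact d.abs_Phi_le hG hn hT _ _)
  have hHc : Continuous H := continuous_iff_continuousAt.2 fun q => by
    refine continuousAt_of_dominated (F := fun (p : E n × E n) w =>
        Phi B T k (δ p.1) (locMap T (p.2, w)))
      (bound := fun _ => c₀ * (1 + (‖q.1‖ + 1) ^ 2)) ?_ ?_ (integrable_const _) ?_
    · exact .of_forall fun p => ((d.contPhi (B := B) (k := k) hG hn hT).comp (continuous_const.prodMk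
        (hloc.comp (by fun_prop : Continuous fun w => (p.2, w))))).aestronglyMeasurable
    · filter_upwards [Metric.ball_mem_nhds q one_pos] with p hp
      refine .of_forall fun w => ?_
      rw [norm_eq_abs]
      refine (d.abs_Phi_le hG hn hT _ _).trans ?_
      have hd : ‖p.1 - q.1‖ ≤ 1 := (norm_fst_le (p - q)).trans (mem_ball_iff_norm.1 hp).le
      gcongr
      linarith [norm_sub_norm_le p.1 q.1]
    · exact .of_forall fun w => ((d.contPhi (B := B) (k := k) hG hn hT).comp (continuous_fst.prodMk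
        (hloc.comp (by fun_prop : Continuous fun p : E n × E n => (p.2, w))))).continuousAt
  have hPhi1 : ∀ y, Phi B T (k + 1) (δ y) y = B.avg T y fun x => H (y, x) := fun y => by
    rw [show Phi B T (k + 1) (δ y) y = Pop B T (fun x => Phi B T k (δ y) x) y by
      simp only [Phi, Function.iterate_succ_apply']]
    rfl
  have hm : Measurable fun θ => B.avg T θ fun x => H (θ, x) := by
    have : (fun θ => B.avg T θ fun x => H (θ, x)) = fun θ => Phi B T (k + 1) (δ θ) θ :=
      funext fun θ => (hPhi1 θ).symm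
    rw [this]
    exact ((hG n hn B T hT (k + 1)).1.comp (hδ.continuous.prodMk continuous_id)).measurable
  have iH : Integrable (fun p : E n × E n => H (locMap T p, p.1)) (B.μ.prod (gam n)) :=
    integrable_mu_gam B (K := 2 * c₀) (hHc.comp (hloc.prodMk continuous_fst)) fun p => by
      refine (hHb _ _).trans ?_
      rw [mul_comm 2 c₀, mul_assoc, ← mul_assoc 2]
      exact mul_le_mul_of_nonneg_left (one_add_locMap_sq hT hT1 p.1 p.2) (by positivity)
  have hB := qavg_joint B hT.le hHc hm iH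
  simp only [← hPhi1] at hB
  obtain ⟨iM, iMq, eM⟩ := qmeas_quad B hT hT1 (d.contPmaj T α) hK
  rw [hd1.2.2, hB, ← integral_sub hd1.1.integral_prod_left iH.integral_prod_left]
  refine (integral_mono (hd1.1.integral_prod_left.sub iH.integral_prod_left)
    (iM.integral_prod_left.const_mul T) fun z => d.slice_le hG hn hT hP hT1 hα z).trans (le_of_eq ?_)
  rw [integral_const_mul, ← eM]
  have iΩ : Integrable (fun y => Omega (jac δ y + (1 + η) • (1 : Mat n))) (B.qmeas T) :=
    (qmeas_quad B hT hT1 d.contOmega (K := n * (C + η + |log η|)) fun y => by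
      have hC := d.C_nonneg
      exact (d.abs_omega_le hP y).trans
        (le_mul_of_one_le_right (by positivity) (by linarith [sq_nonneg ‖y‖]))).2.1
  have iδ : Integrable (fun y => ‖δ y‖ ^ 2) (B.qmeas T) :=
    (qmeas_quad B hT hT1 (hδ.continuous.norm.pow 2) (K := 2 * C ^ 2) fun y => by
      rw [abs_of_nonneg (sq_nonneg _)]; exact d.norm_sq_le y).2.1
  simp only [Pmaj]
  rw [integral_add ((iΩ.const_mul _).fun_add (iδ.const_mul _)) (integrable_const _),
    integral_add (iΩ.const_mul _) (iδ.const_mul _), integral_const_mul, integral_const_mul,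
    integral_const, probReal_univ, one_smul]
  field_simp

end Vale.Agent.P245.Polylog
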