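import Vale.Agent.P245.Polylog.Mixing

/-!
# P245: assembling the transport-entropy inequality for `q`
-/

open MeasureTheory Real Set Matrix
open scoped RealInnerProductSpace ENNReal

noncomputable section

namespace Vale.Agent.P245.Polylog

open Vale.Agent.P245.Local Vale.Agent.P245.Local.Base

variable {n : ℕ}

/-- the arithmetic of the assembly -/
theorem transport_arith {T Y B0 Bm H e Ω tr ε N M L K C : ℝ} (hT : 0 < T) (hT1 : T ≤ 1)
    (hΩ : 0 ≤ Ω) (hdef : 0 ≤ Y / (2 * T) - B0)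
    (hent : Y / (2 * T) - B0 + 1 / 2 * Ω ≤ H + e) (he : e = N * (ε + ε / T) / 2)
    (hε : 0 ≤ ε) (hεT : ε ≤ T) (hN : 0 ≤ N) (hM1 : 1 ≤ M) (hML : M ≤ (K + 1) * L) (hL : 1 ≤ L)
    (hK : 0 < K) (hC : 0 < C)
    (htel : B0 - Bm ≤ M * (T * (4 * (32 * M / T + 2 / T) * Ω + 4 / (32 * M / T * T ^ 3) * Y)
      + 2 * ε * N))
    (hdec : Bm ≤ 1 / (16 * T) * Y + C) (htr : tr ≤ 2 * N + 4 * Ω) (hH : 0 ≤ H) :
    Y + ε * tr ≤ (2000 * (K + 1) ^ 2 + 4 * C) * T * L ^ 2 * (H + 1) +
      (2000 * (K + 1) ^ 2 + 4 * C) * N * L ^ 2 * ε := by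
  have hM0 : 0 < M := one_pos.trans_le hM1
  have he0 : 0 ≤ e := by rw [he]; positivity
  have hΩH : Ω ≤ 2 * (H + e) := by linarith
  have hHe : 0 ≤ H + e := by linarith
  have e1 : M * (T * (4 * (32 * M / T + 2 / T) * Ω + 4 / (32 * M / T * T ^ 3) * Y) + 2 * ε * N)
      = (128 * M ^ 2 + 8 * M) * Ω + Y / (8 * T) + 2 * ε * N * M := by field_simp; ring
  rw [e1] at htel
  have h1 : 5 / 16 * (Y / T) ≤ 273 * M ^ 2 * (H + e) + C + 2 * ε * N * M := by
    have a : (128 * M ^ 2 + 8 * M) * Ω ≤ 272 * M ^ 2 * (H + e) := by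
      calc (128 * M ^ 2 + 8 * M) * Ω ≤ 136 * M ^ 2 * Ω := by gcongr; nlinarith
        _ ≤ 136 * M ^ 2 * (2 * (H + e)) := by gcongr
        _ = _ := by ring
    have b : H + e ≤ M ^ 2 * (H + e) := le_mul_of_one_le_left hHe (one_le_pow₀ hM1)
    have c1 : Y / (2 * T) - Y / (8 * T) - 1 / (16 * T) * Y = 5 / 16 * (Y / T) := by
      field_simp; ring
    linarith
  have hY : Y ≤ 4 * (273 * M ^ 2 * (T * (H + e)) + C * T + 2 * ε * N * M * T) := by
    have h2 := mul_le_mul_of_nonneg_left h1 hT.le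
    have c2 : T * (5 / 16 * (Y / T)) = 5 / 16 * Y := by field_simp
    rw [c2] at h2
    have hp : 0 ≤ 273 * M ^ 2 * (T * (H + e)) + C * T + 2 * ε * N * M * T := by positivity
    linarith
  have hεtr : ε * tr ≤ 2 * N * ε + 8 * (T * (H + e)) := by
    calc ε * tr ≤ ε * (2 * N + 4 * Ω) := mul_le_mul_of_nonneg_left htr hε
      _ ≤ 2 * N * ε + 8 * (ε * (H + e)) := by nlinarith
      _ ≤ _ := by gcongr
  have hTe : T * e ≤ N * ε := by
    have : T * e = N * ε * ((T + 1) / 2) := by rw [he]; field_simp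
    rw [this]; exact mul_le_of_le_one_right (by positivity) (by linarith)
  set Q := (K + 1) ^ 2 * L ^ 2 with hQ
  have hQ1 : 1 ≤ Q := one_le_mul_of_one_le_of_one_le (one_le_pow₀ (by linarith)) (one_le_pow₀ hL)
  have hMQ : M ^ 2 ≤ Q := by rw [hQ, ← mul_pow]; gcongr
  have hMQ' : M ≤ Q := le_trans (le_self_pow₀ hM1 two_ne_zero) hMQ
  have k1 : M ^ 2 * (T * (H + e)) ≤ Q * (T * (H + e)) := by gcongr
  have k2 : ε * N * M * T ≤ Q * (N * ε) := by
    calc ε * N * M * T ≤ ε * N * M * 1 := by gcongr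
      _ ≤ ε * N * Q * 1 := by gcongr
      _ = _ := by ring
  have k3 : T * (H + e) ≤ Q * (T * (H + e)) := le_mul_of_one_le_left (by positivity) hQ1
  have k4 : N * ε ≤ Q * (N * ε) := le_mul_of_one_le_left (by positivity) hQ1
  have k5 : Q * (T * (H + e)) ≤ Q * (T * H) + Q * (N * ε) := by
    rw [← mul_add]; gcongr; linarith
  have k6 : C * T ≤ C * (T * L ^ 2) := by
    gcongr; exact le_mul_of_one_le_right hT.le (one_le_pow₀ hL)
  have k8 : -1 ≤ H → 0 ≤ H + 1 := fun h => by linarith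
  have k7 : 0 ≤ Q * (N * ε) := by positivity
  have goalQ : Y + ε * tr ≤ 1100 * (Q * (T * H)) + 4 * (C * (T * L ^ 2)) + 1200 * (Q * (N * ε)) := by
    linarith
  have e2 : (2000 * (K + 1) ^ 2 + 4 * C) * T * L ^ 2 * (H + 1) =
      2000 * (Q * (T * H)) + 4 * C * L ^ 2 * (T * H) + 2000 * (Q * T) +
        4 * (C * (T * L ^ 2)) := by rw [hQ]; ring
  have x1 : 0 ≤ Q * (T * H) := by positivity
  have x2 : 0 ≤ 4 * C * L ^ 2 * (T * H) := by positivity
  have x3 : 0 ≤ 2000 * (Q * T) := by positivity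
  have x4 : 0 ≤ 4 * C * (L ^ 2 * (N * ε)) := by positivity
  have e4 : (2000 * (K + 1) ^ 2 + 4 * C) * N * L ^ 2 * ε =
      2000 * (Q * (N * ε)) + 4 * C * (L ^ 2 * (N * ε)) := by rw [hQ]; ring
  have : 0 ≤ Q * (N * ε) := by positivity
  rw [e2, e4]; linarith

/-- `Omega` of a uniformly positive bounded field is integrable -/
theorem integrable_omega (B : Base n) {T η R : ℝ} {S : E n → Mat n} (hS : Continuous S)
    (hη : 0 < η) (hpsd : ∀ y, (S y).PosSemidef) (hb : ∀ y i j, |S y i j| ≤ R) :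
    Integrable (fun y => Omega (S y + η • (1 : Mat n))) (B.qmeas T) := by
  set c : (Fin n → Fin n → ℝ) → Mat n := fun a => Matrix.of a + η • (1 : Mat n) with hc
  set K : Set (Fin n → Fin n → ℝ) := (univ.pi fun _ => univ.pi fun _ => Icc (-R) R) ∩
    {a | (Matrix.of a).PosSemidef} with hK
  have hclosed : IsClosed {a : Fin n → Fin n → ℝ | (Matrix.of a).PosSemidef} := by
    have e : {a : Fin n → Fin n → ℝ | (Matrix.of a).PosSemidef} =
        {a | ∀ i j, a j i = a i j} ∩ {a | ∀ x : Fin n → ℝ, 0 ≤ x ⬝ᵥ (Matrix.of a *ᵥ x)} := by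
      ext a
      simp [Matrix.posSemidef_iff_dotProduct_mulVec, Matrix.IsHermitian, ← Matrix.ext_iff]
    rw [e]
    simp only [Set.ofPred_forall]
    exact (isClosed_iInter fun i => isClosed_iInter fun j =>
      isClosed_eq (by fun_prop) (by fun_prop)).inter
      (isClosed_iInter fun x => isClosed_le continuous_const (by fun_prop))
  have hKc : IsCompact K :=
    (isCompact_univ_pi fun _ => isCompact_univ_pi fun _ => isCompact_Icc).inter_right hclosed
  have hcont : ContinuousOn (fun a => Omega (c a)) K := by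
    unfold Omega
    refine ((by fun_prop : Continuous fun a => (c a).trace - (n : ℝ)).continuousOn).sub
      (ContinuousOn.log (by fun_prop) fun a ha => ?_)
    exact ((Matrix.PosDef.posSemidef_add ha.2 (Matrix.PosDef.one.smul hη)).det_pos).ne'
  obtain ⟨C, hC⟩ := hKc.exists_bound_of_continuousOn hcont
  have hmem : ∀ y, (fun i j => S y i j) ∈ K := fun y =>
    ⟨fun i _ j _ => abs_le.1 (hb y i j), hpsd y⟩
  refine .of_bound ?_ C (.of_forall fun y => hC _ (hmem y))
  exact (hcont.comp_continuous hS hmem).aestronglyMeasurable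

/-- the relative entropy of the second marginal is nonnegative -/
theorem entropy_nonneg {B : Base n} {T ε r : ℝ} {p f ψ : E n → ℝ} (hπ : IsPlan B T ε r p f ψ) :
    0 ≤ ∫ z, p z * log (p z) ∂B.qmeas T := by
  obtain ⟨K, hK⟩ := hπ.bdd
  have hpi : BddM p K :=
    ⟨hπ.meas, fun z => by rw [abs_of_nonneg (hπ.nonneg z)]; exact hK z⟩
  have hi : Integrable (fun z => p z * log (p z)) (B.qmeas T) :=
    .of_bound (hπ.meas.mul hπ.meas.log).aestronglyMeasurable (K * |log K| + 1)
      (.of_forall fun z => by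
        have hK0 : 0 ≤ K := (hπ.nonneg z).trans (hK z)
        rw [Real.norm_eq_abs]
        rcases (hπ.nonneg z).eq_or_lt with h | h
        · simp [← h]; positivity
        rcases le_or_gt (p z) 1 with h1 | h1
        · rw [mul_comm (p z)]
          have := (Real.abs_log_mul_self_lt _ h h1).le
          have : 0 ≤ K * |log K| := by positivity
          linarith
        · rw [abs_mul, abs_of_pos h, abs_of_pos (log_pos h1)]
          have := mul_le_mul (hK z) ((log_le_log h (hK z)).trans (le_abs_self _)) (log_pos h1).le hK0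
          linarith)
  have := integral_mono (μ := B.qmeas T) ((integrable_bdd_comp hpi).sub (integrable_const (1 : ℝ)))
    hi fun z => by
      rcases (hπ.nonneg z).eq_or_lt with h | h
      · simp [← h]
      · have := mul_le_mul_of_nonneg_left (one_sub_inv_le_log_of_pos h) h.le
        rw [mul_sub, mul_inv_cancel₀ h.ne', mul_one] at this
        simpa using this
  rw [integral_sub' (integrable_bdd_comp hpi) (integrable_const (1 : ℝ)), hπ.mass] at this
  simpa using this

/-- transport-entropy inequality for `q` -/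
theorem transport (hE : EntropyProp) (hC : PlanCalcProp) (hG : GradProp) (hP : PairProp)
    (hS : StepProp) (hD : DecoupleProp) : TransportProp := by
  obtain ⟨c₁, K, C₁, hc₁, hK, hC₁, hdec⟩ := hD
  refine ⟨min c₁ (1 / 4), 2000 * (K + 1) ^ 2 + 4 * C₁, lt_min hc₁ (by norm_num), by positivity, ?_⟩
  intro n hn B hB hCen T ε r hTc hεT p f ψ hπ
  have hl1 : 1 ≤ lg n := by
    have : (0 : ℝ) ≤ log (n : ℝ) := log_nonneg (by exact_mod_cast hn)
    rw [lg]; linarith
  have hl2 : 1 ≤ lg n ^ 2 := one_le_pow₀ hl1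
  have hT0 := hπ.posT
  have hε0 := hπ.posε
  have hr0 := hπ.posr
  have hT4 : T ≤ 1 / 4 :=
    hTc.trans ((div_le_self (le_min hc₁.le (by norm_num)) hl2).trans (min_le_right _ _))
  have hT1 : T ≤ 1 := hT4.trans (by norm_num)
  have hTc₁ : T ≤ c₁ / lg n ^ 2 :=
    hTc.trans (div_le_div_of_nonneg_right (min_le_left _ _) (by positivity))
  obtain ⟨-, hS1, hSc, -, hjac, hSb, hScb, hpsd, -, -, hcost⟩ := hC n hn B hB T ε r hT1 p f ψ hπ
  set S := Smap B T ε p f ψ with hSdef
  set δ := disp B T ε p f ψ with hδdef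
  have hδ1 : ContDiff ℝ 1 δ := hS1.sub contDiff_id
  set A₀ := max r 1 + (2 * r ^ 2 / ε + 1) with hA₀
  have hrε : 0 ≤ 2 * r ^ 2 / ε := by positivity
  have hδb : ∀ y, ‖δ y‖ ≤ A₀ * (1 + ‖y‖) := fun y => by
    have h1 : ‖δ y‖ ≤ r + ‖y‖ := (norm_sub_le _ _).trans (by gcongr; exact hSb y)
    have h2 : r + ‖y‖ ≤ max r 1 * (1 + ‖y‖) := by
      nlinarith [le_max_left r 1, le_max_right r 1, norm_nonneg y]
    refine h1.trans (h2.trans ?_)
    gcongr
    linarith
  have hjacd : ∀ y, jac δ y = Scov B T ε p f ψ y - 1 := fun y => by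
    have hd : HasFDerivAt δ (fderiv ℝ S y - ContinuousLinearMap.id ℝ (E n)) y :=
      ((hS1.differentiable one_ne_zero y).hasFDerivAt).sub (hasFDerivAt_id y)
    rw [← hjac y]
    ext i j
    simp only [jac, Matrix.of_apply, Matrix.sub_apply, hd.fderiv, Matrix.one_apply, hSdef]
    simp [eb, PiLp.single_apply]
  have hjb : ∀ y i j, |jac δ y i j| ≤ A₀ := fun y i j => by
    rw [hjacd, Matrix.sub_apply]
    refine (abs_sub _ _).trans ?_
    have h1 : |(1 : Mat n) i j| ≤ 1 := by rw [Matrix.one_apply]; split <;> simp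
    linarith [hScb y i j, le_max_right r 1]
  have hpsd' : ∀ y, (jac δ y + 1).PosSemidef := fun y => by
    rw [hjacd, sub_add_cancel]; exact hpsd y
  have hA : ∀ y, jac δ y + (1 + ε) • (1 : Mat n) = Scov B T ε p f ψ y + ε • 1 := fun y => by
    rw [hjacd, add_smul, one_smul]; abel
  have hpd : ∀ y, (Scov B T ε p f ψ y + ε • (1 : Mat n)).PosDef := fun y =>
    Matrix.PosDef.posSemidef_add (hpsd y) (Matrix.PosDef.one.smul hε0)
  -- integrability
  have hint2 : Integrable (fun y => ‖δ y‖ ^ 2) (B.qmeas T) := by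
    refine (((integrable_const (1 : ℝ)).add (integrable_norm_sq_q B hT0.le)).const_mul
      (2 * A₀ ^ 2)).mono' (hδ1.continuous.norm.pow 2).aestronglyMeasurable (.of_forall fun y => ?_)
    rw [Real.norm_eq_abs, abs_of_nonneg (sq_nonneg _)]
    calc ‖δ y‖ ^ 2 ≤ (A₀ * (1 + ‖y‖)) ^ 2 := by gcongr; exact hδb y
      _ ≤ 2 * A₀ ^ 2 * (1 + ‖y‖ ^ 2) := by
          rw [mul_pow, mul_comm 2, mul_assoc]; gcongr
          nlinarith [sq_nonneg (1 - ‖y‖)]
  obtain ⟨hc0, -, -, hg0⟩ := hG n hn B T hT0 0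
  have hphi : ∀ y, Phi B T 0 (δ y) y = B.breg T y (δ y) := fun y => rfl
  have hb0 : Integrable (fun y => Phi B T 0 (δ y) y) (B.qmeas T) := by
    refine (hint2.div_const (2 * T)).mono'
      (hc0.comp (hδ1.continuous.prodMk continuous_id)).aestronglyMeasurable (.of_forall fun y => ?_)
    rw [Real.norm_eq_abs, abs_of_nonneg ((hg0 (δ y)).2 y).2.1]
    exact ((hg0 (δ y)).2 y).2.2.1
  -- the quantities
  set Y := ∫ y, ‖δ y‖ ^ 2 ∂B.qmeas T with hY
  set Ω := ∫ y, Omega (Scov B T ε p f ψ y + ε • (1 : Mat n)) ∂B.qmeas T with hΩ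
  set b : ℕ → ℝ := fun k => ∫ y, Phi B T k (δ y) y ∂B.qmeas T with hb
  have hΩ0 : 0 ≤ Ω := integral_nonneg fun y => (hP.1 n _ (hpd y)).1
  have hdef : (∫ y, (‖δ y‖ ^ 2 / (2 * T) - B.breg T y (δ y)) ∂B.qmeas T) = Y / (2 * T) - b 0 := by
    simp only [← hphi]
    rw [integral_sub (hint2.div_const _) hb0, integral_div]
  have hdef0 : 0 ≤ Y / (2 * T) - b 0 := by
    rw [← hdef]; exact integral_nonneg fun y => sub_nonneg.2 (breg_le B hT0 y (δ y))
  have hent := hE n hn B hB hCen T ε r hT4 p f ψ hπ ε hε0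
  rw [← hδdef, hdef, ← hΩ] at hent
  set m := ⌈K * lg n⌉₊ with hm
  have hm1 : (1 : ℝ) ≤ m := by exact_mod_cast Nat.ceil_pos.2 (by positivity)
  have hmL : (m : ℝ) ≤ (K + 1) * lg n := by
    have := (Nat.ceil_lt_add_one (show 0 ≤ K * lg n by positivity)).le
    linarith
  have hα : 0 < 32 * (m : ℝ) / T := by positivity
  have hstep : ∀ k, b k - b (k + 1) ≤
      T * (4 * (32 * (m : ℝ) / T + 2 / T) * Ω + 4 / (32 * (m : ℝ) / T * T ^ 3) * Y) + 2 * ε * n := by
    intro k
    have := hS n hn B hB T hT0 hT4 δ hδ1 A₀ hδb hjb ε hε0 hpsd' _ hα k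
    simpa only [hA] using this
  have htel : b 0 - b m ≤ (m : ℝ) *
      (T * (4 * (32 * (m : ℝ) / T + 2 / T) * Ω + 4 / (32 * (m : ℝ) / T * T ^ 3) * Y) + 2 * ε * n) := by
    rw [← Finset.sum_range_sub' b m]
    exact (Finset.sum_le_sum fun k _ => hstep k).trans_eq (by simp; ring)
  have hd := hdec n hn B hB hCen T hT0 hTc₁ m (Nat.le_ceil _) δ hδ1.continuous A₀ hδb
  have htr : ∫ y, (Scov B T ε p f ψ y).trace ∂B.qmeas T ≤ 2 * n + 4 * Ω := by
    have hΩi : Integrable (fun y => Omega (Scov B T ε p f ψ y + ε • (1 : Mat n))) (B.qmeas T) :=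
      integrable_omega B hSc hε0 hpsd hScb
    have hi : Integrable (fun y => (Scov B T ε p f ψ y).trace) (B.qmeas T) :=
      .of_bound hSc.matrix_trace.aestronglyMeasurable (n * (2 * r ^ 2 / ε)) (.of_forall fun y => by
        refine (norm_sum_le _ _).trans ((Finset.sum_le_sum fun i _ => hScb y i i).trans_eq ?_)
        simp)
    refine (integral_mono hi ((integrable_const (2 * (n : ℝ))).add (hΩi.const_mul 4))
      fun y => ?_).trans_eq ?_
    · have := (hP.1 n _ (hpd y)).2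
      simp only [Matrix.trace_add, Matrix.trace_smul, Matrix.trace_one, Fintype.card_fin,
        smul_eq_mul, Pi.add_apply] at this ⊢
      have : 0 ≤ ε * n := by positivity
      linarith
    · rw [integral_add' (integrable_const _) (hΩi.const_mul 4), integral_const, integral_const_mul]
      simp [hΩ]
  rw [hcost]
  exact transport_arith hT0 hT1 hΩ0 hdef0 hent rfl hε0.le hεT (Nat.cast_nonneg n) hm1 hmL hl1 hK
    hC₁ htel hd htr (entropy_nonneg hπ)

end Vale.Agent.P245.Polylog
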