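import Vale.Agent.P245.Polylog.Statements

/-!
# P245: the covariance window at time `c / (log en)²`, with a continuous weight of small mass
-/

open MeasureTheory Real Set
open scoped RealInnerProductSpace ENNReal

noncomputable section

namespace Vale.Agent.P245.Polylog

open Local Local.Base

/-- The covariance window with a continuous weight. -/
theorem window : WindowProp := by
  set e₃ := exp 1 * exp 2 with he₃
  refine ⟨(1 / (32 * e₃ * 6)) ^ 2, by positivity, fun n hn B hB => ?_⟩
  set p := pex n with hp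
  have hp1 : 1 ≤ p := by rw [hp, pex]; omega
  set N := Nwin n with hNdef
  have hN : 0 < N := pow_pos (exp_pos _) _
  have hf := B.jok_psiJ (p + 2) hN
  have hval : ∀ s θ, wwin B s θ =
      2 * (B.phiJ (p + 2)).val s θ / (N + (B.phiJ (p + 2)).val s θ) := fun s θ => by
    simp only [wwin, B.psiJ_val, ← hp, ← hNdef]; field_simp
  have hbd : ∀ s, 0 ≤ s → ∀ θ, 0 ≤ wwin B s θ ∧ wwin B s θ ≤ 2 := fun s hs θ => by
    have h := B.phiJ_nonneg hs θ (p + 2)
    rw [hval]
    exact ⟨by positivity, by rw [div_le_iff₀ (by linarith)]; nlinarith⟩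
  have hdich : ∀ s, 0 ≤ s → ∀ θ, B.CovLe s θ Rwin ∨ 1 ≤ wwin B s θ := fun s hs θ => by
    rcases le_or_gt ((B.phiJ (p + 2)).val s θ) N with h | h
    · exact .inl (B.covLe_of_phi_le hs θ (by omega) (exp_pos 4).le h)
    · refine .inr ?_
      rw [hval, le_div_iff₀ (by linarith [B.phiJ_nonneg hs θ (p + 2)])]
      linarith
  refine ⟨(hf.nice.1.const_smul (2 / N)).congr fun a _ => by simp [wwin, hp, hNdef],
    hbd, fun s hs θ v => ?_,
    fun s hs θ h => (hdich s hs θ).resolve_right (not_le.2 h), fun s hs hsc => ?_⟩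
  · have hw := (hbd s hs.le θ).1
    rcases hdich s hs.le θ with h | h
    · exact (h v).trans (mul_le_mul_of_nonneg_right
        (le_add_of_nonneg_right (div_nonneg hw hs.le)) (sq_nonneg _))
    · have hD : ∀ x, ‖fderiv ℝ (fun y : E n => ⟪v, y⟫) x‖ = ‖v‖ := fun x => by
        rw [show fderiv ℝ (fun y : E n => ⟪v, y⟫) x = innerSL ℝ v from
          (innerSL ℝ v).hasFDerivAt.fderiv, innerSL_apply_norm]
      have hv := (B.tilt s hs.le θ).poincare_strong (t := 0 + s) (by linarith)
        (B.strong_tilt B.strong_zero s hs.le θ) (f := fun x => ⟪v, x⟫)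
        (innerSL ℝ v).contDiff (Good.inner v).2
        (by simpa only [hD] using (Good.const ‖v‖).2)
      simp only [integral_tilt, hD, B.avg_const hs.le, zero_add] at hv
      refine le_trans hv (mul_le_mul_of_nonneg_right ?_ (sq_nonneg _))
      have h1 : s⁻¹ ≤ wwin B s θ / s := by rw [inv_eq_one_div]; gcongr
      have : 0 < Rwin := exp_pos 4
      linarith
  · set qr := (p : ℝ) + 2 with hqr
    have hn0 : (0 : ℝ) < n := by exact_mod_cast hn
    have hn1 : (1 : ℝ) ≤ n := by exact_mod_cast hn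
    have hl0 : 0 ≤ log (n : ℝ) := log_nonneg hn1
    have hL0 : 0 < lg n := by rw [lg]; linarith
    have hq0 : 0 < qr := by positivity
    have hq : log (n : ℝ) + 4 ≤ qr ∧ qr ≤ 6 * lg n := by
      have := Nat.le_ceil (log (n : ℝ))
      have := (Nat.ceil_lt_add_one hl0).le
      rw [hqr, hp, pex, lg]; push_cast; constructor <;> linarith
    have hN1 : (n : ℝ) ^ (1 / qr) ≤ exp 1 := by
      rw [rpow_def_of_pos hn0]
      refine exp_le_exp.2 ?_
      rw [mul_one_div, div_le_one hq0]; linarith [hq.1]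
    have hNq : N = exp (4 * qr) := by
      rw [hNdef, Nwin, ← hp, ← exp_nat_mul, hqr]; push_cast; ring_nf
    have hNd : N ^ (1 / (2 * qr)) = exp 2 := by
      rw [hNq, ← exp_mul]; congr 1; field_simp; norm_num
    have hsT : √s ≤ 1 / (32 * e₃ * 6) / lg n := by
      rw [sqrt_le_iff]
      exact ⟨by positivity, hsc.trans_eq (by rw [div_pow _ (lg n)])⟩
    have hX : 2 * (16 * (p + 2 : ℝ) ^ 2 * (n : ℝ) ^ (1 / ((p : ℝ) + 2)) *
        N ^ (1 / (2 * ((p : ℝ) + 2)))) * √s ≤ qr := by
      rw [← hqr, hNd]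
      calc 2 * (16 * qr ^ 2 * (n : ℝ) ^ (1 / qr) * exp 2) * √s
          ≤ 2 * (16 * qr ^ 2 * exp 1 * exp 2) * (1 / (32 * e₃ * 6) / lg n) := by gcongr
        _ = qr * (qr / (6 * lg n)) := by rw [he₃]; field_simp; ring
        _ ≤ qr * 1 :=
            mul_le_mul_of_nonneg_left ((div_le_one (by positivity)).2 hq.2) hq0.le
        _ = qr := mul_one qr
    have hE := (B.qavg_psi_le hn hp1 hN hs).trans (mul_le_mul (B.psi_zero_le hB (p + 2) hN)
      (exp_le_exp.2 hX) (exp_pos _).le hn0.le)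
    have hint : ∫ θ, wwin B s θ ∂B.qmeas s = 2 / N * B.qavg s ((B.psiJ (p + 2) N).val s) := by
      simp only [wwin, ← hp, ← hNdef, qavg, integral_const_mul]
    rw [hint]
    refine (mul_le_mul_of_nonneg_left hE (by positivity)).trans ?_
    have hn4 : (n : ℝ) ≤ exp (qr - 4) := by
      rw [← exp_log hn0]; exact exp_le_exp.2 (by linarith [hq.1])
    have h8 : (8 : ℝ) ≤ exp 12 := by linarith [add_one_le_exp (12 : ℝ)]
    rw [div_mul_eq_mul_div, div_le_div_iff₀ hN (by positivity), hNq]
    calc 2 * ((n : ℝ) * exp qr) * (4 * (n : ℝ) ^ 2) = 8 * ((n : ℝ) ^ 3 * exp qr) := by ring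
      _ ≤ exp 12 * (exp (qr - 4) ^ 3 * exp qr) := by gcongr
      _ = 1 * exp (4 * qr) := by
          rw [← exp_nat_mul, ← exp_add, ← exp_add, one_mul]; push_cast; ring_nf

end Vale.Agent.P245.Polylog
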